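import Vale.Agent.Lib.P142.Defs

/-!
# P142: the change of variables / area step
-/

open Complex MeasureTheory Set Metric

namespace Vale.Agent.Lib.P142

/-- `κ_η(m) = (η - θ m) (m + η)^{-2-θ}` -/
noncomputable def kEta (η th m : ℝ) : ℝ := (η - th * m) * (m + η) ^ (-(2 + th))

/-! ### polar coordinates -/

theorem Area_norm_zp (ρ φ : ℝ) : ‖zp ρ φ‖ = |ρ| := by
  rw [zp, norm_mul, Complex.norm_exp_ofReal_mul_I, mul_one, Complex.norm_real, Real.norm_eq_abs]

theorem Area_zp_periodic (ρ : ℝ) : Function.Periodic (zp ρ) (2 * Real.pi) := by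
  intro φ
  unfold zp
  congr 1
  have h : ((φ + 2 * Real.pi : ℝ) : ℂ) * I = (φ : ℂ) * I + 2 * Real.pi * I := by
    push_cast
    ring
  rw [h, Complex.exp_periodic]

theorem Area_continuous_zp : Continuous fun p : ℝ × ℝ => zp p.1 p.2 := by
  unfold zp
  fun_prop

/-- polar coordinates on a disc -/
theorem Area_polar {F : ℂ → ℝ} {r : ℝ} (hr : 0 < r) (hF : ContinuousOn F (closedBall 0 r)) :
    ∫ ρ in (0 : ℝ)..r, ∫ φ in (0 : ℝ)..2 * Real.pi, 2 * ρ * F (zp ρ φ) =
      2 * ∫ z in ball (0 : ℂ) r, F z := by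
  have hpi := Real.pi_pos
  have hzp : ∀ p : ℝ × ℝ, Complex.polarCoord.symm p = zp p.1 p.2 := by
    intro p
    rw [Complex.polarCoord_symm_apply, zp, Complex.exp_mul_I, ofReal_cos, ofReal_sin]
  have h1 : ∫ z in ball (0 : ℂ) r, F z =
      ∫ p in Ioo (0 : ℝ) r ×ˢ Ioo (-Real.pi) Real.pi, p.1 * F (zp p.1 p.2) := by
    rw [← integral_indicator measurableSet_ball, ← Complex.integral_comp_polarCoord_symm]
    change ∫ p in Ioi (0 : ℝ) ×ˢ Ioo (-Real.pi) Real.pi, _ = _
    have hsub : Ioo (0 : ℝ) r ×ˢ Ioo (-Real.pi) Real.pi ⊆ Ioi (0 : ℝ) ×ˢ Ioo (-Real.pi) Real.pi :=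
      prod_mono (fun x hx => hx.1) (fun x hx => hx)
    rw [setIntegral_eq_of_subset_of_forall_sdiff_eq_zero
      (measurableSet_Ioi.prod measurableSet_Ioo) hsub]
    · refine setIntegral_congr_fun (measurableSet_Ioo.prod measurableSet_Ioo) fun p hp => ?_
      simp only [smul_eq_mul]
      rw [hzp, indicator_of_mem]
      rw [mem_ball_zero_iff, Area_norm_zp, abs_of_pos hp.1.1]
      exact hp.1.2
    · rintro p ⟨hp1, hp2⟩
      simp only [smul_eq_mul]
      rw [hzp, indicator_of_notMem, mul_zero]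
      rw [mem_ball_zero_iff, Area_norm_zp, abs_of_pos hp1.1]
      intro h
      exact hp2 ⟨⟨hp1.1, h⟩, hp1.2⟩
  have hcont : ContinuousOn (fun p : ℝ × ℝ => p.1 * F (zp p.1 p.2))
      (Icc (0 : ℝ) r ×ˢ Icc (-Real.pi) Real.pi) := by
    refine continuousOn_fst.mul (hF.comp Area_continuous_zp.continuousOn fun p hp => ?_)
    rw [mem_closedBall_zero_iff, Area_norm_zp, abs_of_nonneg hp.1.1]
    exact hp.1.2
  have hint : IntegrableOn (fun p : ℝ × ℝ => p.1 * F (zp p.1 p.2))
      (Ioo (0 : ℝ) r ×ˢ Ioo (-Real.pi) Real.pi) (volume.prod volume) := by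
    rw [← Measure.volume_eq_prod]
    exact (hcont.integrableOn_compact (isCompact_Icc.prod isCompact_Icc)).mono_set
      (prod_mono Ioo_subset_Icc_self Ioo_subset_Icc_self)
  have h2 : ∫ p in Ioo (0 : ℝ) r ×ˢ Ioo (-Real.pi) Real.pi, p.1 * F (zp p.1 p.2) =
      ∫ x in Ioo (0 : ℝ) r, ∫ y in Ioo (-Real.pi) Real.pi, x * F (zp x y) := by
    rw [Measure.volume_eq_prod]
    exact setIntegral_prod _ hint
  rw [h1, h2, intervalIntegral.integral_of_le hr.le, integral_Ioc_eq_integral_Ioo,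
    ← integral_const_mul]
  refine setIntegral_congr_fun measurableSet_Ioo fun x _ => ?_
  have hper : Function.Periodic (fun φ => 2 * x * F (zp x φ)) (2 * Real.pi) := by
    intro φ
    simp only
    rw [Area_zp_periodic x φ]
  have h3 := hper.intervalIntegral_add_eq (-Real.pi) 0
  rw [zero_add] at h3
  rw [← h3, show -Real.pi + 2 * Real.pi = Real.pi by ring,
    intervalIntegral.integral_of_le (by linarith), integral_Ioc_eq_integral_Ioo,
    ← integral_const_mul]
  refine setIntegral_congr_fun measurableSet_Ioo fun y _ => ?_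
  ring

/-! ### change of variables -/

theorem Area_change {g : ℂ → ℂ} (hg : Univ g) {r : ℝ} (hr1 : r < 1) (k : ℂ → ℝ) :
    ∫ w in g '' ball 0 r, k w = ∫ z in ball (0 : ℂ) r, ‖deriv g z‖ ^ 2 * k (g z) := by
  have hsub : ball (0 : ℂ) r ⊆ ball 0 1 := ball_subset_ball hr1.le
  have hd : ∀ z ∈ ball (0 : ℂ) r, HasFDerivWithinAt g
      ((fderiv ℂ g z).restrictScalars ℝ : ℂ →L[ℝ] ℂ) (ball 0 r) z := by
    intro z hz
    have h1 : DifferentiableAt ℂ g z := (hg.diff z (hsub hz)).differentiableAt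
      (isOpen_ball.mem_nhds (hsub hz))
    exact (h1.hasFDerivAt.restrictScalars ℝ).hasFDerivWithinAt
  rw [integral_image_eq_integral_abs_det_fderiv_smul volume measurableSet_ball hd
    (hg.inj.mono hsub)]
  refine setIntegral_congr_fun measurableSet_ball fun z _ => ?_
  simp only [smul_eq_mul]
  congr 1
  have h2 : ((fderiv ℂ g z).restrictScalars ℝ : ℂ →L[ℝ] ℂ).det = Algebra.norm ℝ (deriv g z) := by
    rw [Algebra.norm_apply, ContinuousLinearMap.det]
    congr 1
    refine LinearMap.ext fun w => ?_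
    have h3 : fderiv ℂ g z w = w * deriv g z := by
      have h4 := (fderiv ℂ g z).map_smul w 1
      rw [smul_eq_mul, mul_one, smul_eq_mul] at h4
      rw [h4]
      rfl
    change fderiv ℂ g z w = deriv g z * w
    rw [h3, mul_comm]
  rw [h2, Algebra.norm_complex_apply, Complex.normSq_eq_norm_sq, abs_of_nonneg (sq_nonneg _)]

/-! ### the integral over the plane -/

theorem Area_cont {η th : ℝ} (hη : 0 < η) : Continuous fun w : ℂ => kEta η th (‖w‖ ^ 2) := by
  unfold kEta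
  refine Continuous.mul (by fun_prop) (Continuous.rpow_const (by fun_prop) fun w => Or.inl ?_)
  positivity

theorem Area_integrable {η th : ℝ} (hη : 0 < η) (hth : 0 < th) :
    Integrable fun w : ℂ => kEta η th (‖w‖ ^ 2) := by
  have h1 : Integrable (fun w : ℂ => ((1 + th) * (min 1 η) ^ (-(1 + th))) *
      ((1 : ℝ) + ‖w‖ ^ 2) ^ (-(2 + 2 * th) / 2)) := by
    refine (integrable_rpow_neg_one_add_norm_sq ?_).const_mul _
    rw [Complex.finrank_real_complex]
    push_cast
    linarith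
  refine h1.mono' (Area_cont hη).aestronglyMeasurable (Filter.Eventually.of_forall fun w => ?_)
  set m : ℝ := ‖w‖ ^ 2 with hm
  have hm0 : 0 ≤ m := by positivity
  have hmin : 0 < min 1 η := lt_min one_pos hη
  have hexp : -(2 + 2 * th) / 2 = -(1 + th) := by ring
  rw [hexp, kEta, norm_mul, Real.norm_eq_abs, Real.norm_eq_abs,
    abs_of_pos (Real.rpow_pos_of_pos (by positivity) _)]
  have h2 : |η - th * m| ≤ (1 + th) * (m + η) := by
    rw [abs_le]
    constructor
    · nlinarith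
    · nlinarith
  have h3 : (m + η) * (m + η) ^ (-(2 + th)) = (m + η) ^ (-(1 + th)) := by
    have hpos : 0 < m + η := by positivity
    nth_rewrite 1 [← Real.rpow_one (m + η)]
    rw [← Real.rpow_add hpos]
    congr 1
    ring
  have h4 : (m + η) ^ (-(1 + th)) ≤ (min 1 η) ^ (-(1 + th)) * (1 + m) ^ (-(1 + th)) := by
    rw [← Real.mul_rpow hmin.le (by positivity)]
    refine Real.rpow_le_rpow_of_nonpos (by positivity) ?_ (by linarith)
    have h5 : min 1 η ≤ 1 := min_le_left _ _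
    have h6 : min 1 η ≤ η := min_le_right _ _
    nlinarith
  calc |η - th * m| * (m + η) ^ (-(2 + th))
      ≤ ((1 + th) * (m + η)) * (m + η) ^ (-(2 + th)) :=
        mul_le_mul_of_nonneg_right h2 (Real.rpow_nonneg (by positivity) _)
    _ = (1 + th) * (m + η) ^ (-(1 + th)) := by rw [mul_assoc, h3]
    _ ≤ (1 + th) * ((min 1 η) ^ (-(1 + th)) * (1 + m) ^ (-(1 + th))) :=
        mul_le_mul_of_nonneg_left h4 (by linarith)
    _ = _ := by ring

theorem Area_hasDerivAt {η th : ℝ} (hη : 0 < η) (y : ℝ) :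
    HasDerivAt (fun y : ℝ => 1 / 2 * (y ^ 2 * (y ^ 2 + η) ^ (-(1 + th))))
      (y * kEta η th (y ^ 2)) y := by
  have hpos : 0 < y ^ 2 + η := by positivity
  have h1 : HasDerivAt (fun y : ℝ => y ^ 2) (2 * y) y := by
    simpa using hasDerivAt_pow 2 y
  have h2 : HasDerivAt (fun y : ℝ => (y ^ 2 + η) ^ (-(1 + th)))
      (2 * y * (-(1 + th)) * (y ^ 2 + η) ^ (-(1 + th) - 1)) y :=
    (h1.add_const η).rpow_const (Or.inl hpos.ne')
  have h3 := (h1.mul h2).const_mul (1 / 2)
  refine h3.congr_deriv ?_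
  have h4 : (y ^ 2 + η) ^ (-(1 + th)) = (y ^ 2 + η) * (y ^ 2 + η) ^ (-(2 + th)) := by
    nth_rewrite 2 [← Real.rpow_one (y ^ 2 + η)]
    rw [← Real.rpow_add hpos]
    congr 1
    ring
  have h5 : -(1 + th) - 1 = -(2 + th) := by ring
  rw [h5, h4, kEta]
  ring

theorem Area_tendsto {η th : ℝ} (hη : 0 < η) (hth : 0 < th) :
    Filter.Tendsto (fun y : ℝ => 1 / 2 * (y ^ 2 * (y ^ 2 + η) ^ (-(1 + th)))) Filter.atTop
      (nhds 0) := by
  have h1 : Filter.Tendsto (fun y : ℝ => y ^ 2 + η) Filter.atTop Filter.atTop :=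
    Filter.tendsto_atTop_add_const_right _ _ (Filter.tendsto_pow_atTop two_ne_zero)
  have h2 := (tendsto_rpow_neg_atTop hth).comp h1
  refine squeeze_zero (fun y => ?_) (fun y => ?_) h2
  · positivity
  · have hpos : 0 < y ^ 2 + η := by positivity
    have h3 : (y ^ 2 + η) * (y ^ 2 + η) ^ (-(1 + th)) = (y ^ 2 + η) ^ (-th) := by
      nth_rewrite 1 [← Real.rpow_one (y ^ 2 + η)]
      rw [← Real.rpow_add hpos]
      congr 1
      ring
    have h4 : 0 ≤ (y ^ 2 + η) ^ (-(1 + th)) := Real.rpow_nonneg hpos.le _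
    have h5 : 0 ≤ y ^ 2 * (y ^ 2 + η) ^ (-(1 + th)) := by positivity
    change _ ≤ (y ^ 2 + η) ^ (-th)
    rw [← h3]
    nlinarith

theorem Area_integral_zero {η th : ℝ} (hη : 0 < η) (hth : 0 < th) :
    ∫ w : ℂ, kEta η th (‖w‖ ^ 2) = 0 := by
  have h1 := integral_fun_norm_addHaar (volume : Measure ℂ) (fun y : ℝ => kEta η th (y ^ 2))
  rw [h1]
  have hint := (integrable_fun_norm_addHaar (volume : Measure ℂ)
    (f := fun y : ℝ => kEta η th (y ^ 2))).1 (Area_integrable hη hth)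
  have h2 : ∫ y in Ioi (0 : ℝ), y ^ (Module.finrank ℝ ℂ - 1) • kEta η th (y ^ 2) = 0 := by
    have h3 : (fun y : ℝ => y ^ (Module.finrank ℝ ℂ - 1) • kEta η th (y ^ 2)) =
        fun y : ℝ => y * kEta η th (y ^ 2) := by
      funext y
      rw [Complex.finrank_real_complex, smul_eq_mul]
      norm_num
    rw [h3] at hint ⊢
    rw [integral_Ioi_of_hasDerivAt_of_tendsto' (fun y _ => Area_hasDerivAt hη y) hint
      (Area_tendsto hη hth)]
    norm_num
  rw [h2, smul_zero, smul_zero]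

/-
PROOF.  Polar coordinates in the source (`integral_comp_polarCoord_symm` or an iterated integral
version) turn the left side into `2 ∫_{ball 0 r} |g'|^2 κ_η(|g|^2) dA`; the change of variables
formula for the injective holomorphic map `g` (`MeasureTheory.integral_image_eq_integral_abs_det_fderiv_smul`,
`det (fderiv) = |g'|^2`) turns this into `2 ∫_{g (ball 0 r)} κ_η(|w|^2) dA(w)`.
`∫_ℂ κ_η(|w|^2) dA = π ∫_0^∞ κ_η(m) dm = π [m (m+η)^{-1-θ}]_0^∞ = 0` (integrable because `θ > 0`).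
Choose `c > 0` with `ball 0 c ⊆ g (ball 0 r)` (open mapping, `g 0 = 0`).  If `η ≤ θ c^2` then
`κ_η(|w|^2) ≤ 0` off `g (ball 0 r)`, so the integral over `g (ball 0 r)` is `≥ 0`.
-/
theorem area_nonneg {g : ℂ → ℂ} (hg : Univ g) (h0 : g 0 = 0)
    {th : ℝ} (hth : 0 < th) {r : ℝ} (hr0 : 0 < r) (hr1 : r < 1) :
    ∃ η0 : ℝ, 0 < η0 ∧ ∀ η : ℝ, 0 < η → η ≤ η0 →
      0 ≤ ∫ ρ in (0 : ℝ)..r, ∫ φ in (0 : ℝ)..2 * Real.pi,
        2 * ρ * (‖deriv g (zp ρ φ)‖ ^ 2 * kEta η th (‖g (zp ρ φ)‖ ^ 2)) := by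
  have hsub : closedBall (0 : ℂ) r ⊆ ball 0 1 := closedBall_subset_ball hr1
  have hsub' : ball (0 : ℂ) r ⊆ ball 0 1 := ball_subset_ball hr1.le
  have hana : AnalyticOnNhd ℂ g (ball 0 1) := hg.diff.analyticOnNhd isOpen_ball
  -- the image is open
  have hopen : IsOpen (g '' ball 0 r) := by
    rcases hana.is_constant_or_isOpen (convex_ball _ _).isPreconnected with ⟨w, hw⟩ | h
    · exfalso
      have h1 : (0 : ℂ) ∈ ball (0 : ℂ) 1 := mem_ball_self one_pos
      have h2 : ((r / 2 : ℝ) : ℂ) ∈ ball (0 : ℂ) 1 := by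
        rw [mem_ball_zero_iff, Complex.norm_real, Real.norm_eq_abs, abs_of_pos (by positivity)]
        linarith
      have h3 := hg.inj h1 h2 (by rw [hw _ h1, hw _ h2])
      have h4 : (r / 2 : ℝ) = 0 := by exact_mod_cast h3.symm
      linarith
    · exact h _ hsub' isOpen_ball
  obtain ⟨c, hc, hcs⟩ : ∃ c > 0, ball (0 : ℂ) c ⊆ g '' ball 0 r :=
    Metric.isOpen_iff.1 hopen 0 ⟨0, mem_ball_self hr0, h0⟩
  refine ⟨th * c ^ 2, by positivity, fun η hη hηc => ?_⟩
  have hcontF : ContinuousOn (fun z => ‖deriv g z‖ ^ 2 * kEta η th (‖g z‖ ^ 2))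
      (closedBall 0 r) := by
    have h1 : ContinuousOn (deriv g) (closedBall 0 r) := hana.deriv.continuousOn.mono hsub
    have h2 : ContinuousOn g (closedBall 0 r) := hana.continuousOn.mono hsub
    exact (h1.norm.pow 2).mul ((Area_cont hη).comp_continuousOn h2)
  rw [Area_polar hr0 hcontF]
  rw [← Area_change hg hr1 (fun w => kEta η th (‖w‖ ^ 2))]
  have hint := Area_integrable hη hth
  have h1 := integral_add_compl hopen.measurableSet hint
  rw [Area_integral_zero hη hth] at h1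
  have h2 : ∫ w in (g '' ball 0 r)ᶜ, kEta η th (‖w‖ ^ 2) ≤ 0 := by
    refine setIntegral_nonpos hopen.measurableSet.compl fun w hw => ?_
    have h3 : c ≤ ‖w‖ := by
      by_contra h
      exact hw (hcs (mem_ball_zero_iff.2 (not_le.1 h)))
    have h4 : c ^ 2 ≤ ‖w‖ ^ 2 := by gcongr
    have h5 : η - th * ‖w‖ ^ 2 ≤ 0 := by nlinarith
    exact mul_nonpos_of_nonpos_of_nonneg h5 (Real.rpow_nonneg (by positivity) _)
  linarith

end Vale.Agent.Lib.P142
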