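import Vale.Agent.Lib.P142.ChkSound3
import Vale.Agent.Lib.P142.D5a

/-!
# P142: the certificate for `t = -2`, `β = 29 / 25`
-/

namespace Vale.Agent.Lib.P142.Chk

theorem d5a_cert : Cert (-2) (29 / 25) d5a_F := by
  refine cert_of_check (K := Int.ofNat 1152921504606846976) (den := Int.ofNat 25) (T := Int.negSucc 49) (B := Int.ofNat 79) (K' := Int.ofNat 28823037615171174400)
    (by decide +kernel) (by decide +kernel) ?_ ?_ d5a_okF (by decide +kernel) (by decide +kernel)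
    d5a_chkL (by decide +kernel) d5a_chkF
  · show (((-50 : ℤ)) : ℝ) = (((25 : ℤ)) : ℝ) * (-2)
    norm_num
  · show (((79 : ℤ)) : ℝ) = (((25 : ℤ)) : ℝ) * ((29 / 25) - (-2))
    norm_num

theorem d5a_idx : ∀ T ∈ d5a_F, (∀ i ∈ T.h, 1 ≤ i) ∧ (∀ i ∈ T.k, 1 ≤ i) := okF_idx d5a_okF

end Vale.Agent.Lib.P142.Chk
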