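import Vale.Agent.Lib.P142.ChkSound3
import Vale.Agent.Lib.P142.D5b

/-!
# P142: the certificate for `t = -(9 / 5)`, `β = 199 / 200`
-/

namespace Vale.Agent.Lib.P142.Chk

theorem d5b_cert : Cert (-(9 / 5)) (199 / 200) d5b_F := by
  refine cert_of_check (K := Int.ofNat 1152921504606846976) (den := Int.ofNat 200) (T := Int.negSucc 359) (B := Int.ofNat 559) (K' := Int.ofNat 230584300921369395200)
    (by decide +kernel) (by decide +kernel) ?_ ?_ d5b_okF (by decide +kernel) (by decide +kernel)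
    d5b_chkL (by decide +kernel) d5b_chkF
  · show (((-360 : ℤ)) : ℝ) = (((200 : ℤ)) : ℝ) * (-(9 / 5))
    norm_num
  · show (((559 : ℤ)) : ℝ) = (((200 : ℤ)) : ℝ) * ((199 / 200) - (-(9 / 5)))
    norm_num

theorem d5b_idx : ∀ T ∈ d5b_F, (∀ i ∈ T.h, 1 ≤ i) ∧ (∀ i ∈ T.k, 1 ≤ i) := okF_idx d5b_okF

end Vale.Agent.Lib.P142.Chk
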