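import Vale.Agent.Lib.P142.ChkSplit
import Vale.Agent.Lib.P142.D6aL0
import Vale.Agent.Lib.P142.D6aL1
import Vale.Agent.Lib.P142.D6aL2
import Vale.Agent.Lib.P142.D6aL3
import Vale.Agent.Lib.P142.D6aP0
import Vale.Agent.Lib.P142.D6aP1
import Vale.Agent.Lib.P142.D6aP2
import Vale.Agent.Lib.P142.D6aP3

/-!
# P142: the certificate for `t = -2 / 1`, `β = 113 / 100`
-/

set_option maxRecDepth 100000

namespace Vale.Agent.Lib.P142.Chk

def d6a_ML : List (List (ℕ × ℕ × ℤ)) := [d6a_ML0, d6a_ML1, d6a_ML2, d6a_ML3]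

theorem d6a_goodL : Good d6a_ML := by
  unfold d6a_ML
  exact Good.cons (by decide +kernel) d6a_sL0 (Good.cons (by decide +kernel) d6a_sL1 (Good.cons (by decide +kernel) d6a_sL2 (Good.cons (by decide +kernel) d6a_sL3 (Good.nil))))

def d6a_MP : List (List (ℕ × ℕ × ℤ)) := [d6a_MP0, d6a_MP1, d6a_MP2, d6a_MP3]

theorem d6a_goodP : Good d6a_MP := by
  unfold d6a_MP
  exact Good.cons (by decide +kernel) d6a_sP0 (Good.cons (by decide +kernel) d6a_sP1 (Good.cons (by decide +kernel) d6a_sP2 (Good.cons (by decide +kernel) d6a_sP3 (Good.nil))))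

theorem d6a_finL : finL (Int.ofNat 1152921504606846976) (Int.ofNat 100) (Int.negSucc 199) (Int.ofNat 313) d6a_F d6a_sk d6a_ML = true := by decide +kernel

theorem d6a_finF : finF (Int.ofNat 115292150460684697600) d6a_F d6a_sk d6a_MP = true := by decide +kernel

theorem d6a_cert : Cert (-2) (113 / 100) d6a_F := by
  refine cert_of_split (K := Int.ofNat 1152921504606846976) (den := Int.ofNat 100) (T := Int.negSucc 199) (B := Int.ofNat 313) (K' := Int.ofNat 115292150460684697600)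
    (by decide +kernel) (by decide +kernel) ?_ ?_ d6a_okF d6a_goodL d6a_goodP
    d6a_finL (by decide +kernel) d6a_finF
  · show (((-200 : ℤ)) : ℝ) = (((100 : ℤ)) : ℝ) * (-2)
    norm_num
  · show (((313 : ℤ)) : ℝ) = (((100 : ℤ)) : ℝ) * ((113 / 100) - (-2))
    norm_num

theorem d6a_idx : ∀ T ∈ d6a_F, (∀ i ∈ T.h, 1 ≤ i) ∧ (∀ i ∈ T.k, 1 ≤ i) := okF_idx d6a_okF

end Vale.Agent.Lib.P142.Chk
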