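import Vale.Agent.Lib.P142.ChkSplit
import Vale.Agent.Lib.P142.D6bL0
import Vale.Agent.Lib.P142.D6bL1
import Vale.Agent.Lib.P142.D6bL2
import Vale.Agent.Lib.P142.D6bL3
import Vale.Agent.Lib.P142.D6bP0
import Vale.Agent.Lib.P142.D6bP1
import Vale.Agent.Lib.P142.D6bP2
import Vale.Agent.Lib.P142.D6bP3

/-!
# P142: the certificate for `t = -37 / 20`, `β = 999 / 1000`
-/

set_option maxRecDepth 100000

namespace Vale.Agent.Lib.P142.Chk

def d6b_ML : List (List (ℕ × ℕ × ℤ)) := [d6b_ML0, d6b_ML1, d6b_ML2, d6b_ML3]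

theorem d6b_goodL : Good d6b_ML := by
  unfold d6b_ML
  exact Good.cons (by decide +kernel) d6b_sL0 (Good.cons (by decide +kernel) d6b_sL1 (Good.cons (by decide +kernel) d6b_sL2 (Good.cons (by decide +kernel) d6b_sL3 (Good.nil))))

def d6b_MP : List (List (ℕ × ℕ × ℤ)) := [d6b_MP0, d6b_MP1, d6b_MP2, d6b_MP3]

theorem d6b_goodP : Good d6b_MP := by
  unfold d6b_MP
  exact Good.cons (by decide +kernel) d6b_sP0 (Good.cons (by decide +kernel) d6b_sP1 (Good.cons (by decide +kernel) d6b_sP2 (Good.cons (by decide +kernel) d6b_sP3 (Good.nil))))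

theorem d6b_finL : finL (Int.ofNat 1152921504606846976) (Int.ofNat 1000) (Int.negSucc 1849) (Int.ofNat 2849) d6b_F d6b_sk d6b_ML = true := by decide +kernel

theorem d6b_finF : finF (Int.ofNat 1152921504606846976000) d6b_F d6b_sk d6b_MP = true := by decide +kernel

theorem d6b_cert : Cert (-(37 / 20)) (999 / 1000) d6b_F := by
  refine cert_of_split (K := Int.ofNat 1152921504606846976) (den := Int.ofNat 1000) (T := Int.negSucc 1849) (B := Int.ofNat 2849) (K' := Int.ofNat 1152921504606846976000)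
    (by decide +kernel) (by decide +kernel) ?_ ?_ d6b_okF d6b_goodL d6b_goodP
    d6b_finL (by decide +kernel) d6b_finF
  · show (((-1850 : ℤ)) : ℝ) = (((1000 : ℤ)) : ℝ) * (-(37 / 20))
    norm_num
  · show (((2849 : ℤ)) : ℝ) = (((1000 : ℤ)) : ℝ) * ((999 / 1000) - (-(37 / 20)))
    norm_num

theorem d6b_idx : ∀ T ∈ d6b_F, (∀ i ∈ T.h, 1 ≤ i) ∧ (∀ i ∈ T.k, 1 ≤ i) := okF_idx d6b_okF

end Vale.Agent.Lib.P142.Chk
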