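import Vale.Agent.Lib.P142.Defs

/-!
# P142: the kernel-evaluated checker for certificates (definitions)

All functions are written with recursors so that the kernel evaluates them quickly.
-/

namespace Vale.Agent.Lib.P142.Chk

/-- prime codes of the coefficients; `pc n` is also an upper bound of `‖a n‖` on the body -/
def pc : ℕ → ℕ
  | 1 => 1
  | 2 => 2
  | 3 => 5
  | 4 => 13
  | 5 => 37
  | 6 => 89
  | 7 => 233
  | _ => 0

/-- search tree for real polynomials; a node `(key, h, k, c)` stands for `c * Re (M h * conj (M k))` -/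
inductive Tr : Type
  | lf : Tr
  | nd : Tr → ℕ → ℕ → ℕ → ℤ → Tr → Tr

noncomputable def ins (key h k : ℕ) (c : ℤ) (t : Tr) : Tr :=
  Tr.rec (motive := fun _ => Tr) (Tr.nd Tr.lf key h k c Tr.lf)
    (fun l key' h' k' c' r ihl ihr =>
      Bool.rec
        (Bool.rec
          (Bool.rec (Tr.nd l key' h' k' c' ihr) (Tr.nd l key' h' k' (c' + c) r)
            (Bool.and (Nat.beq h h') (Nat.beq k k')))
          (Tr.nd l key' h' k' c' ihr) (Nat.blt key' key))
        (Tr.nd ihl key' h' k' c' r) (Nat.blt key key')) t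

noncomputable def insC (h k : ℕ) (c : ℤ) (t : Tr) : Tr :=
  Bool.rec (ins (h * h + k) k h c t) (ins (k * k + h) h k c t) (Nat.blt h k)

/-- list of terms of a tree -/
noncomputable def tl (t : Tr) : List (ℕ × ℕ × ℤ) → List (ℕ × ℕ × ℤ) :=
  Tr.rec (motive := fun _ => List (ℕ × ℕ × ℤ) → List (ℕ × ℕ × ℤ)) (fun acc => acc)
    (fun _ _ h k c _ ihl ihr acc => ihl ((h, k, c) :: ihr acc)) t

noncomputable def foldT {α : Type} (f : α → Tr → Tr) (l : List α) : Tr → Tr :=
  List.rec (motive := fun _ => Tr → Tr) (fun t => t) (fun x _ ih t => ih (f x t)) l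

/-- subtract the product of two real polynomials, multiplied by `2` -/
noncomputable def mulInto (l1 l2 : List (ℕ × ℕ × ℤ)) : Tr → Tr :=
  foldT (fun x => foldT (fun y t =>
    insC (x.1 * y.1) (x.2.1 * y.2.1) (-(x.2.2 * y.2.2))
      (insC (x.1 * y.2.1) (x.2.1 * y.1) (-(x.2.2 * y.2.2)) t)) l2) l1

/-- decode `n` signed entries (64 bit fields, offset `2^63`) -/
noncomputable def dec (n : ℕ) : ℕ → List ℤ :=
  Nat.rec (motive := fun _ => ℕ → List ℤ) (fun _ => [])
    (fun _ ih R => Int.subNatNat (R % 18446744073709551616) 9223372036854775808 ::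
      ih (R / 18446744073709551616)) n

noncomputable def dot (x : List ℤ) : List ℤ → ℤ :=
  List.rec (motive := fun _ => List ℤ → ℤ) (fun _ => 0)
    (fun a _ ih y => List.rec (motive := fun _ => ℤ) 0 (fun b t _ => a * b + ih t) y) x

/-- a row of a Gram factor: monomial `M h * conj (M k)` and its coefficient vector -/
structure Row : Type where
  h : ℕ
  k : ℕ
  v : List ℤ

noncomputable def mkRows (bs : List (ℕ × ℕ)) : ℕ → List ℕ → List Row :=
  List.rec (motive := fun _ => ℕ → List ℕ → List Row) (fun _ _ => [])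
    (fun b _ ih n rs => List.rec (motive := fun _ => List Row) []
      (fun R rs' _ => Row.mk b.1 b.2 (dec n R) :: ih (n + 1) rs') rs) bs

noncomputable def selfI (sg m : ℤ) (x : Row) (t : Tr) : Tr :=
  insC (x.h * x.k) (x.k * x.h) (m * dot x.v x.v)
    (insC (x.h * x.h) (x.k * x.k) (sg * (m * dot x.v x.v)) t)

noncomputable def pairI (sg m : ℤ) (x y : Row) (t : Tr) : Tr :=
  insC (x.h * y.k) (x.k * y.h) (m * 2 * dot x.v y.v)
    (insC (x.h * y.h) (x.k * y.k) (sg * (m * 2 * dot x.v y.v)) t)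

noncomputable def quad (sg m : ℤ) (rows : List Row) : Tr → Tr :=
  List.rec (motive := fun _ => Tr → Tr) (fun t => t)
    (fun x xs ih t => ih (foldT (pairI sg m x) xs (selfI sg m x t))) rows

/-- holomorphic polynomials: lists of (index list, coefficient) -/
abbrev HP := List (List ℕ × ℤ)

/-- coefficients of `z/g` -/
def alP : ℕ → HP
  | 0 => [([], 1)]
  | 1 => [([2], -1)]
  | 2 => [([2, 2], 1), ([3], -1)]
  | 3 => [([2, 2, 2], -1), ([2, 3], 2), ([4], -1)]
  | 4 => [([2, 2, 2, 2], 1), ([2, 2, 3], -3), ([2, 4], 2), ([3, 3], 1), ([5], -1)]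
  | 5 => [([2, 2, 2, 2, 2], -1), ([2, 2, 2, 3], 4), ([2, 2, 4], -3), ([2, 3, 3], -3), ([2, 5], 2), ([3, 4], 2), ([6], -1)]
  | 6 => [([2, 2, 2, 2, 2, 2], 1), ([2, 2, 2, 2, 3], -5), ([2, 2, 2, 4], 4), ([2, 2, 3, 3], 6), ([2, 2, 5], -3), ([2, 3, 4], -6), ([2, 6], 2), ([3, 3, 3], -1), ([3, 5], 2), ([4, 4], 1), ([7], -1)]
  | _ => []

/-- `2^{2n-1} q_n` where `q_n` are the coefficients of `(z/g)^{1/2}` (`n ≥ 1`) -/
def hP : ℕ → HP
  | 0 => [([], 1)]
  | 1 => [([2], -1)]
  | 2 => [([2, 2], 3), ([3], -4)]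
  | 3 => [([2, 2, 2], -10), ([2, 3], 24), ([4], -16)]
  | 4 => [([2, 2, 2, 2], 35), ([2, 2, 3], -120), ([2, 4], 96), ([3, 3], 48), ([5], -64)]
  | 5 => [([2, 2, 2, 2, 2], -126), ([2, 2, 2, 3], 560), ([2, 2, 4], -480), ([2, 3, 3], -480), ([2, 5], 384), ([3, 4], 384), ([6], -256)]
  | 6 => [([2, 2, 2, 2, 2, 2], 462), ([2, 2, 2, 2, 3], -2520), ([2, 2, 2, 4], 2240), ([2, 2, 3, 3], 3360), ([2, 2, 5], -1920), ([2, 3, 4], -3840), ([2, 6], 1536), ([3, 3, 3], -640), ([3, 5], 1536), ([4, 4], 768), ([7], -1024)]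
  | _ => []

noncomputable def codeL (l : List ℕ) : ℕ :=
  List.rec (motive := fun _ => ℕ) 1 (fun n _ ih => pc n * ih) l

/-- add `w * |γ|^2` -/
noncomputable def addSq (w : ℤ) (p : HP) : Tr → Tr :=
  foldT (fun x => foldT (fun y t => insC (codeL x.1) (codeL y.1) (w * x.2 * y.2) t) p) p

/-- the constraint polynomials: `gT 2 N` is `1 - ∑_{n=2}^N (n-1)|al_n|^2`,
`gT 1 N` is `16^N (1 - ∑_{n=1}^N (2n-1)|q_n|^2)` -/
noncomputable def gT2 (N : ℕ) : Tr :=
  Nat.rec (motive := fun _ => Tr) (addSq 1 (alP 0) Tr.lf)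
    (fun n ih => addSq (-(n : ℤ)) (alP (n + 1)) ih) N

noncomputable def gT1 (N : ℕ) : Tr :=
  Nat.rec (motive := fun _ => Tr) (addSq (16 ^ N) (hP 0) Tr.lf)
    (fun n ih => addSq (-((2 * (n : ℤ) + 1) * 4 * 16 ^ (N - (n + 1)))) (hP (n + 1)) ih) N

/-- a block of a certificate: `kind = 0`: plain sum of squares, `kind = 1, 2`: multiplier `gT1/gT2 N` -/
structure Blk : Type where
  kind : ℕ
  N : ℕ
  sg : ℤ
  bs : List (ℕ × ℕ)
  rs : List ℕ

noncomputable def addBlk (b : Blk) (t : Tr) : Tr :=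
  Nat.rec (motive := fun _ => Tr) (quad b.sg (-2) (mkRows b.bs 1 b.rs) t)
    (fun k _ => Nat.rec (motive := fun _ => Tr)
      (mulInto (tl (gT1 b.N) []) (tl (quad b.sg 1 (mkRows b.bs 1 b.rs) Tr.lf) []) t)
      (fun _ _ => mulInto (tl (gT2 b.N) []) (tl (quad b.sg 1 (mkRows b.bs 1 b.rs) Tr.lf) []) t) k)
    b.kind

/-- lower bound of the value of a real polynomial on the body -/
noncomputable def slack (t : Tr) : ℤ :=
  Tr.rec (motive := fun _ => ℤ) 0
    (fun _ _ h k c _ ihl ihr => ihl + ihr +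
      Bool.rec (-((Int.natAbs c * (h * k) : ℕ) : ℤ)) c (Bool.and (Nat.beq h 1) (Nat.beq k 1))) t

noncomputable def mapMul (p : ℕ) (l : List (ℕ × ℕ)) : List (ℕ × ℕ) :=
  List.rec (motive := fun _ => List (ℕ × ℕ)) [] (fun x _ ih => (p * x.1, x.2) :: ih) l

/-- `∑ (n_i + 1) a_{n_i+1} ∏_{j ≠ i} a_{n_j}` -/
noncomputable def dl (l : List ℕ) : List (ℕ × ℕ) :=
  List.rec (motive := fun _ => List (ℕ × ℕ)) []
    (fun n l ih => (pc (n + 1) * codeL l, n + 1) :: mapMul (pc n) ih) l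

/-- `∑ (n_i - 1) a_{n_i-1} ∏_{j ≠ i} a_{n_j}` -/
noncomputable def sl (l : List ℕ) : List (ℕ × ℕ) :=
  List.rec (motive := fun _ => List (ℕ × ℕ)) []
    (fun n l ih => (pc (n - 1) * codeL l, n - 1) :: mapMul (pc n) ih) l

noncomputable def wt (l : List ℕ) : ℤ :=
  List.rec (motive := fun _ => ℤ) 0 (fun n _ ih => ((n : ℤ) - 1) + ih) l

noncomputable def len (l : List ℕ) : ℤ :=
  List.rec (motive := fun _ => ℤ) 0 (fun _ _ ih => 1 + ih) l

/-- add `K * den * Re (L (term))`, `T = den * t`, `B = den * (β - t)` -/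
noncomputable def addT (K den T B : ℤ) (m : Term) (t : Tr) : Tr :=
  foldT (fun x t => insC (codeL m.h) x.1 (-(m.c * K * den * x.2)) t) (sl m.k)
    (insC (codeL m.h) (codeL m.k) (m.c * K * (B - den * wt m.h + den * wt m.k))
      (insC (2 * codeL m.h) (codeL m.k) (m.c * K * (T - 2 * den * len m.h))
        (foldT (fun x t => insC x.1 (codeL m.k) (m.c * K * den * x.2) t) (dl m.h) t)))

/-- add `K * Re (term)` -/
noncomputable def addT0 (K : ℤ) (m : Term) (t : Tr) : Tr :=
  insC (codeL m.h) (codeL m.k) (m.c * K) t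

/-- zero nodes to make the search tree balanced -/
noncomputable def skel (l : List (ℕ × ℕ)) (t : Tr) : Tr :=
  foldT (fun x t => insC x.1 x.2 0 t) l t

noncomputable def posI (c : ℤ) : Bool :=
  Int.rec (fun n => Nat.blt 0 n) (fun _ => false) c

/-- range check of the indices -/
noncomputable def okL (m : ℕ) (l : List ℕ) : Bool :=
  List.rec (motive := fun _ => Bool) true
    (fun n _ ih => Bool.and (Bool.and (Nat.ble 2 n) (Nat.ble n m)) ih) l

noncomputable def okF (F : List Term) : Bool :=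
  List.rec (motive := fun _ => Bool) true
    (fun T _ ih => Bool.and (Bool.and (okL 6 T.h) (okL 7 T.k)) ih) F

/-- full check of one certificate -/
noncomputable def chkL (K den T B : ℤ) (F : List Term) (sk : List (ℕ × ℕ)) (bl : List Blk) : Bool :=
  posI (slack (foldT addBlk bl (foldT (addT K den T B) F (skel sk Tr.lf))))

noncomputable def chkF (K : ℤ) (F : List Term) (sk : List (ℕ × ℕ)) (bl : List Blk) : Bool :=
  posI (slack (foldT addBlk bl (foldT (addT0 K) F (skel sk Tr.lf))))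

end Vale.Agent.Lib.P142.Chk
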