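import Vale.Agent.Lib.P142.ChkDefs

/-!
# P142: soundness of the checker
-/

open Complex

namespace Vale.Agent.Lib.P142.Chk

/-- values of the primes -/
noncomputable def vv (a : ℕ → ℂ) (p : ℕ) : ℂ :=
  if p = 2 then a 2 else if p = 5 then a 3 else if p = 13 then a 4 else if p = 37 then a 5
  else if p = 89 then a 6 else if p = 233 then a 7 else 1

/-- monomial with code `c` -/
noncomputable def M (a : ℕ → ℂ) (c : ℕ) : ℂ :=
  if c = 0 then 0 else (c.primeFactorsList.map (vv a)).prod

theorem M_mul (a : ℕ → ℂ) (c d : ℕ) : M a (c * d) = M a c * M a d := by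
  unfold M
  by_cases hc : c = 0
  · simp [hc]
  by_cases hd : d = 0
  · simp [hd]
  rw [if_neg (Nat.mul_ne_zero hc hd), if_neg hc, if_neg hd, ← List.prod_append, ← List.map_append]
  exact ((Nat.perm_primeFactorsList_mul hc hd).map _).prod_eq

theorem M_one (a : ℕ → ℂ) : M a 1 = 1 := by simp [M]

theorem M_prime (a : ℕ → ℂ) {p : ℕ} (hp : p.Prime) : M a p = vv a p := by
  unfold M
  rw [if_neg hp.ne_zero, Nat.primeFactorsList_prime hp]
  simp

theorem M_pc (a : ℕ → ℂ) (h1 : a 1 = 1) {n : ℕ} (hn : 1 ≤ n) (hn' : n ≤ 7) :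
    M a (pc n) = a n := by
  interval_cases n
  · simp [pc, M_one, h1]
  · rw [show pc 2 = 2 from rfl, M_prime a (by norm_num)]; simp [vv]
  · rw [show pc 3 = 5 from rfl, M_prime a (by norm_num)]; simp [vv]
  · rw [show pc 4 = 13 from rfl, M_prime a (by norm_num)]; simp [vv]
  · rw [show pc 5 = 37 from rfl, M_prime a (by norm_num)]; simp [vv]
  · rw [show pc 6 = 89 from rfl, M_prime a (by norm_num)]; simp [vv]
  · rw [show pc 7 = 233 from rfl, M_prime a (by norm_num)]; simp [vv]

theorem norm_M_le (a : ℕ → ℂ) (ha : ∀ n, 2 ≤ n → n ≤ 7 → ‖a n‖ ≤ pc n) (c : ℕ) :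
    ‖M a c‖ ≤ c := by
  unfold M
  split_ifs with hc
  · simp [hc]
  have hv : ∀ p ∈ c.primeFactorsList, ‖vv a p‖ ≤ p := by
    intro p hp
    have hpp := Nat.prime_of_mem_primeFactorsList hp
    have h1 : (1 : ℝ) ≤ p := by exact_mod_cast hpp.one_lt.le
    unfold vv
    split_ifs with h2 h3 h4 h5 h6 h7
    · subst h2; simpa [pc] using ha 2 (by norm_num) (by norm_num)
    · subst h3; simpa [pc] using ha 3 (by norm_num) (by norm_num)
    · subst h4; simpa [pc] using ha 4 (by norm_num) (by norm_num)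
    · subst h5; simpa [pc] using ha 5 (by norm_num) (by norm_num)
    · subst h6; simpa [pc] using ha 6 (by norm_num) (by norm_num)
    · subst h7; simpa [pc] using ha 7 (by norm_num) (by norm_num)
    · simpa using h1
  have hgen : ∀ l : List ℕ, (∀ p ∈ l, ‖vv a p‖ ≤ p) → ‖(l.map (vv a)).prod‖ ≤ (l.prod : ℕ) := by
    intro l
    induction l with
    | nil => intro _; simp
    | cons p l ih =>
      intro h
      rw [List.map_cons, List.prod_cons, List.prod_cons, norm_mul, Nat.cast_mul]
      exact mul_le_mul (h p (by simp)) (ih fun q hq => h q (by simp [hq])) (norm_nonneg _)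
        (by positivity)
  have := hgen _ hv
  rwa [Nat.prod_primeFactorsList hc] at this

/-- value of a pair of codes -/
noncomputable def V (a : ℕ → ℂ) (h k : ℕ) : ℝ := (M a h * (starRingEnd ℂ) (M a k)).re

theorem V_comm (a : ℕ → ℂ) (h k : ℕ) : V a h k = V a k h := by
  unfold V; simp only [mul_re, conj_re, conj_im]; ring

theorem V_one (a : ℕ → ℂ) : V a 1 1 = 1 := by simp [V, M_one]

theorem abs_V_le (a : ℕ → ℂ) (ha : ∀ n, 2 ≤ n → n ≤ 7 → ‖a n‖ ≤ pc n) (h k : ℕ) :
    |V a h k| ≤ (h * k : ℕ) := by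
  unfold V
  refine (abs_re_le_norm _).trans ?_
  rw [norm_mul, RCLike.norm_conj, Nat.cast_mul]
  exact mul_le_mul (norm_M_le a ha h) (norm_M_le a ha k) (norm_nonneg _) (by positivity)

/-- value of a tree -/
noncomputable def evT (a : ℕ → ℂ) : Tr → ℝ
  | .lf => 0
  | .nd l _ h k c r => evT a l + (c : ℝ) * V a h k + evT a r

theorem ins_lf (key h k : ℕ) (c : ℤ) : ins key h k c .lf = .nd .lf key h k c .lf := rfl

theorem evT_ins (a : ℕ → ℂ) (key h k : ℕ) (c : ℤ) (t : Tr) :
    evT a (ins key h k c t) = evT a t + (c : ℝ) * V a h k := by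
  induction t with
  | lf => simp [ins_lf, evT]
  | nd l key' h' k' c' r ihl ihr =>
    have e : ins key h k c (.nd l key' h' k' c' r) =
      Bool.rec
        (Bool.rec
          (Bool.rec (Tr.nd l key' h' k' c' (ins key h k c r)) (Tr.nd l key' h' k' (c' + c) r)
            (Bool.and (Nat.beq h h') (Nat.beq k k')))
          (Tr.nd l key' h' k' c' (ins key h k c r)) (Nat.blt key' key))
        (Tr.nd (ins key h k c l) key' h' k' c' r) (Nat.blt key key') := rfl
    rw [e]
    rcases hb : Nat.blt key key' with _ | _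
    · rcases hb2 : Nat.blt key' key with _ | _
      · rcases hb3 : Bool.and (Nat.beq h h') (Nat.beq k k') with _ | _
        · simp only [evT, ihr]; ring
        · have h3 : h = h' ∧ k = k' := by
            rcases h1 : Nat.beq h h' with _ | _
            · simp [h1] at hb3
            · rcases h2 : Nat.beq k k' with _ | _
              · simp [h1, h2] at hb3
              · exact ⟨Nat.eq_of_beq_eq_true h1, Nat.eq_of_beq_eq_true h2⟩
          simp only [evT, h3.1, h3.2]; push_cast; ring
      · simp only [evT, ihr]; ring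
    · simp only [evT, ihl]; ring

theorem evT_insC (a : ℕ → ℂ) (h k : ℕ) (c : ℤ) (t : Tr) :
    evT a (insC h k c t) = evT a t + (c : ℝ) * V a h k := by
  unfold insC
  rcases Nat.blt h k with _ | _
  · show evT a (ins (h * h + k) k h c t) = _
    rw [evT_ins, V_comm]
  · show evT a (ins (k * k + h) h k c t) = _
    rw [evT_ins]

theorem foldT_nil {α : Type} (f : α → Tr → Tr) (t : Tr) : foldT f [] t = t := rfl

theorem foldT_cons {α : Type} (f : α → Tr → Tr) (x : α) (l : List α) (t : Tr) :
    foldT f (x :: l) t = foldT f l (f x t) := rfl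

theorem evT_foldT (a : ℕ → ℂ) {α : Type} (f : α → Tr → Tr) (φ : α → ℝ)
    (l : List α) (hf : ∀ x ∈ l, ∀ t, evT a (f x t) = evT a t + φ x) (t : Tr) :
    evT a (foldT f l t) = evT a t + (l.map φ).sum := by
  induction l generalizing t with
  | nil => simp [foldT_nil]
  | cons x l ih =>
    rw [foldT_cons, ih (fun y hy => hf y (by simp [hy])), hf x (by simp), List.map_cons,
      List.sum_cons]
    ring

/-- value of a list of terms -/
noncomputable def evLst (a : ℕ → ℂ) (l : List (ℕ × ℕ × ℤ)) : ℝ :=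
  (l.map fun x => (x.2.2 : ℝ) * V a x.1 x.2.1).sum

theorem evLst_cons (a : ℕ → ℂ) (x : ℕ × ℕ × ℤ) (l : List (ℕ × ℕ × ℤ)) :
    evLst a (x :: l) = (x.2.2 : ℝ) * V a x.1 x.2.1 + evLst a l := by
  simp [evLst]

theorem evLst_tl (a : ℕ → ℂ) (t : Tr) (acc : List (ℕ × ℕ × ℤ)) :
    evLst a (tl t acc) = evT a t + evLst a acc := by
  induction t generalizing acc with
  | lf => simp [tl, evT]
  | nd l key h k c r ihl ihr =>
    show evLst a (tl l ((h, k, c) :: tl r acc)) = _
    rw [ihl, evLst_cons, ihr]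
    simp only [evT]; ring

theorem V_mul (a : ℕ → ℂ) (h1 k1 h2 k2 : ℕ) :
    V a (h1 * h2) (k1 * k2) + V a (h1 * k2) (k1 * h2) = 2 * V a h1 k1 * V a h2 k2 := by
  unfold V
  simp only [M_mul, map_mul, mul_re, mul_im, conj_re, conj_im]
  ring

theorem evT_mulInto (a : ℕ → ℂ) (l1 l2 : List (ℕ × ℕ × ℤ)) (t : Tr) :
    evT a (mulInto l1 l2 t) = evT a t - 2 * evLst a l1 * evLst a l2 := by
  unfold mulInto
  rw [evT_foldT a _ (fun x => - 2 * ((x.2.2 : ℝ) * V a x.1 x.2.1) * evLst a l2)]
  · have : ∀ l : List (ℕ × ℕ × ℤ),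
        (l.map fun x => - 2 * ((x.2.2 : ℝ) * V a x.1 x.2.1) * evLst a l2).sum =
          - (2 * evLst a l * evLst a l2) := by
      intro l
      induction l with
      | nil => simp [evLst]
      | cons x l ih => rw [List.map_cons, List.sum_cons, ih, evLst_cons]; ring
    rw [this]; ring
  · intro x _ t
    rw [evT_foldT a _ (fun y => - 2 * ((x.2.2 : ℝ) * V a x.1 x.2.1) * ((y.2.2 : ℝ) * V a y.1 y.2.1))]
    · have : ∀ l : List (ℕ × ℕ × ℤ),
        (l.map fun y => - 2 * ((x.2.2 : ℝ) * V a x.1 x.2.1) * ((y.2.2 : ℝ) * V a y.1 y.2.1)).sum =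
          - 2 * ((x.2.2 : ℝ) * V a x.1 x.2.1) * evLst a l := by
        intro l
        induction l with
        | nil => simp [evLst]
        | cons y l ih => rw [List.map_cons, List.sum_cons, ih, evLst_cons]; ring
      rw [this]
    · intro y _ t
      rw [evT_insC, evT_insC]
      have := V_mul a x.1 x.2.1 y.1 y.2.1
      push_cast
      linear_combination (-((x.2.2 : ℝ) * (y.2.2 : ℝ))) * this

/-! ### Gram matrices -/

theorem dot_nil (y : List ℤ) : dot [] y = 0 := rfl

theorem dot_cons_nil (x : ℤ) (l : List ℤ) : dot (x :: l) [] = 0 := rfl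

theorem dot_cons_cons (x : ℤ) (l : List ℤ) (y : ℤ) (m : List ℤ) :
    dot (x :: l) (y :: m) = x * y + dot l m := rfl

/-- real vector of a list -/
def vec (l : List ℤ) (k : ℕ) : ℝ := ((l.getD k 0 : ℤ) : ℝ)

theorem dot_eq (x y : List ℤ) (K : ℕ) (hK : x.length ≤ K) :
    (dot x y : ℝ) = ∑ k ∈ Finset.range K, vec x k * vec y k := by
  induction x generalizing y K with
  | nil => simp [dot_nil, vec]
  | cons a l ih =>
    obtain ⟨K', rfl⟩ : ∃ K', K = K' + 1 := ⟨K - 1, by simp at hK; omega⟩
    cases y with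
    | nil => simp [dot_cons_nil, vec]
    | cons b m =>
      rw [dot_cons_cons, Finset.sum_range_succ']
      push_cast
      rw [ih m K' (by simpa using hK)]
      simp [vec]
      ring

/-- real value of a row: real part (`sg = 1`) or imaginary part (`sg = -1`) -/
noncomputable def rv (a : ℕ → ℂ) (sg : ℤ) (x : Row) : ℝ :=
  if sg = 1 then (M a x.h * (starRingEnd ℂ) (M a x.k)).re
  else (M a x.h * (starRingEnd ℂ) (M a x.k)).im

theorem rv_mul (a : ℕ → ℂ) {sg : ℤ} (hs : sg = 1 ∨ sg = -1) (x y : Row) :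
    V a (x.h * y.k) (x.k * y.h) + (sg : ℝ) * V a (x.h * y.h) (x.k * y.k) =
      2 * rv a sg x * rv a sg y := by
  rcases hs with rfl | rfl
  · unfold V rv
    simp only [M_mul, map_mul, mul_re, mul_im, conj_re, conj_im, if_true]
    push_cast; ring
  · unfold V rv
    rw [if_neg (by norm_num), if_neg (by norm_num)]
    simp only [M_mul, map_mul, mul_re, mul_im, conj_re, conj_im]
    push_cast; ring

/-- the quadratic form of a list of rows -/
noncomputable def qf (a : ℕ → ℂ) (sg : ℤ) : List Row → ℝ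
  | [] => 0
  | x :: xs => (dot x.v x.v : ℝ) * rv a sg x ^ 2 +
      (xs.map fun y => 2 * (dot x.v y.v : ℝ) * rv a sg x * rv a sg y).sum + qf a sg xs

theorem qf_eq (a : ℕ → ℂ) (sg : ℤ) (xs : List Row) :
    ∃ K0 : ℕ, ∀ K, K0 ≤ K → qf a sg xs =
      ∑ k ∈ Finset.range K, (xs.map fun y => rv a sg y * vec y.v k).sum ^ 2 := by
  induction xs with
  | nil => exact ⟨0, fun K _ => by simp [qf]⟩
  | cons x xs ih =>
    obtain ⟨K0, hK0⟩ := ih
    refine ⟨max K0 x.v.length, fun K hK => ?_⟩
    have h1 : x.v.length ≤ K := le_trans (le_max_right _ _) hK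
    rw [qf, hK0 K (le_trans (le_max_left _ _) hK), dot_eq x.v x.v K h1]
    have h2 : (xs.map fun y => 2 * (dot x.v y.v : ℝ) * rv a sg x * rv a sg y).sum =
        ∑ k ∈ Finset.range K, 2 * rv a sg x * vec x.v k *
          (xs.map fun y => rv a sg y * vec y.v k).sum := by
      clear hK0
      induction xs with
      | nil => simp
      | cons y ys ih2 =>
        simp only [List.map_cons, List.sum_cons]
        rw [ih2, dot_eq x.v y.v K h1, Finset.mul_sum, Finset.sum_mul, Finset.sum_mul,
          ← Finset.sum_add_distrib]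
        exact Finset.sum_congr rfl fun k _ => by ring
    rw [h2, Finset.sum_mul, ← Finset.sum_add_distrib, ← Finset.sum_add_distrib]
    refine Finset.sum_congr rfl fun k _ => ?_
    simp only [List.map_cons, List.sum_cons]
    ring

theorem qf_nonneg (a : ℕ → ℂ) (sg : ℤ) (xs : List Row) : 0 ≤ qf a sg xs := by
  obtain ⟨K0, h⟩ := qf_eq a sg xs
  rw [h K0 le_rfl]
  exact Finset.sum_nonneg fun k _ => sq_nonneg _

theorem quad_nil (sg m : ℤ) (t : Tr) : quad sg m [] t = t := rfl

theorem quad_cons (sg m : ℤ) (x : Row) (xs : List Row) (t : Tr) :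
    quad sg m (x :: xs) t = quad sg m xs (foldT (pairI sg m x) xs (selfI sg m x t)) := rfl

theorem evT_quad (a : ℕ → ℂ) {sg : ℤ} (hs : sg = 1 ∨ sg = -1) (m : ℤ) (rows : List Row) (t : Tr) :
    evT a (quad sg m rows t) = evT a t + 2 * (m : ℝ) * qf a sg rows := by
  induction rows generalizing t with
  | nil => simp [quad_nil, qf]
  | cons x xs ih =>
    rw [quad_cons, ih, evT_foldT a _
      (fun y => 2 * (m : ℝ) * (2 * (dot x.v y.v : ℝ) * rv a sg x * rv a sg y))]
    · have e1 : evT a (selfI sg m x t) =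
          evT a t + 2 * (m : ℝ) * ((dot x.v x.v : ℝ) * rv a sg x ^ 2) := by
        unfold selfI
        rw [evT_insC, evT_insC]
        have := rv_mul a hs x x
        push_cast
        linear_combination ((m : ℝ) * (dot x.v x.v : ℝ)) * this
      have e2 : (xs.map fun y => 2 * (m : ℝ) * (2 * (dot x.v y.v : ℝ) * rv a sg x * rv a sg y)).sum
          = 2 * (m : ℝ) * (xs.map fun y => 2 * (dot x.v y.v : ℝ) * rv a sg x * rv a sg y).sum := by
        rw [← List.sum_map_mul_left]
      rw [e1, e2, qf]; ring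
    · intro y _ t
      unfold pairI
      rw [evT_insC, evT_insC]
      have := rv_mul a hs x y
      push_cast
      linear_combination ((m : ℝ) * 2 * (dot x.v y.v : ℝ)) * this

/-! ### holomorphic polynomials -/

/-- value of a holomorphic polynomial -/
noncomputable def evH (a : ℕ → ℂ) (p : HP) : ℂ := (p.map fun x => (x.2 : ℂ) * M a (codeL x.1)).sum

theorem evH_cons (a : ℕ → ℂ) (x : List ℕ × ℤ) (p : HP) :
    evH a (x :: p) = (x.2 : ℂ) * M a (codeL x.1) + evH a p := by simp [evH]

theorem codeL_nil : codeL [] = 1 := rfl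

theorem codeL_cons (n : ℕ) (l : List ℕ) : codeL (n :: l) = pc n * codeL l := rfl

theorem evT_addSq (a : ℕ → ℂ) (w : ℤ) (p : HP) (t : Tr) :
    evT a (addSq w p t) = evT a t + (w : ℝ) * ‖evH a p‖ ^ 2 := by
  have key : ∀ q r : HP, ∀ t, evT a (foldT (fun x => foldT (fun y t =>
      insC (codeL x.1) (codeL y.1) (w * x.2 * y.2) t) r) q t) =
        evT a t + (w : ℝ) * (evH a q * (starRingEnd ℂ) (evH a r)).re := by
    intro q r t
    rw [evT_foldT a _ (fun x => (w : ℝ) * ((x.2 : ℂ) * M a (codeL x.1) *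
      (starRingEnd ℂ) (evH a r)).re)]
    · congr 1
      induction q with
      | nil => simp [evH]
      | cons x q ih => rw [List.map_cons, List.sum_cons, ih, evH_cons, add_mul, add_re]; ring
    · intro x _ t
      rw [evT_foldT a _ (fun y => (w : ℝ) * ((x.2 : ℂ) * M a (codeL x.1) *
        (starRingEnd ℂ) ((y.2 : ℂ) * M a (codeL y.1))).re)]
      · congr 1
        induction r with
        | nil => simp [evH]
        | cons y r ih =>
          rw [List.map_cons, List.sum_cons, ih, evH_cons, map_add, mul_add, add_re]; ring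
      · intro y _ t
        rw [evT_insC]
        congr 1
        unfold V
        simp only [map_mul, mul_re, mul_im, conj_re, conj_im, intCast_re, intCast_im,
          map_intCast]
        push_cast; ring
  unfold addSq
  rw [key]
  congr 2
  rw [mul_conj, ofReal_re, normSq_eq_norm_sq]

end Vale.Agent.Lib.P142.Chk
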