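import Vale.Agent.Lib.P142.ChkSound

/-!
# P142: soundness of the checker, second part
-/

open Complex

namespace Vale.Agent.Lib.P142.Chk

theorem okL_cons {m n : ℕ} {l : List ℕ} (h : okL m (n :: l) = true) :
    2 ≤ n ∧ n ≤ m ∧ okL m l = true := by
  have e : okL m (n :: l) = Bool.and (Bool.and (Nat.ble 2 n) (Nat.ble n m)) (okL m l) := rfl
  rw [e] at h
  rcases h1 : Nat.ble 2 n with _ | _
  · simp [h1] at h
  rcases h2 : Nat.ble n m with _ | _
  · simp [h1, h2] at h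
  refine ⟨Nat.le_of_ble_eq_true h1, Nat.le_of_ble_eq_true h2, ?_⟩
  simpa [h1, h2] using h

theorem M_codeL (a : ℕ → ℂ) (h1 : a 1 = 1) {m : ℕ} (hm : m ≤ 7) {l : List ℕ}
    (h : okL m l = true) : M a (codeL l) = mono a l := by
  induction l with
  | nil => simp [codeL_nil, M_one, mono]
  | cons n l ih =>
    obtain ⟨h2, h3, h4⟩ := okL_cons h
    rw [codeL_cons, M_mul, ih h4, M_pc a h1 (by omega) (by omega)]
    simp [mono]

theorem evH_eq (a : ℕ → ℂ) (h1 : a 1 = 1) {p : HP} (hp : ∀ x ∈ p, okL 7 x.1 = true) :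
    evH a p = (p.map fun x => (x.2 : ℂ) * mono a x.1).sum := by
  unfold evH
  congr 1
  refine List.map_congr_left fun x hx => ?_
  rw [M_codeL a h1 le_rfl (hp x hx)]

theorem evH_alP {a al : ℕ → ℂ} (h1 : a 1 = 1) (h : IsInv a al) {n : ℕ} (hn : n ≤ 6) :
    evH a (alP n) = al n := by
  obtain ⟨h0, hr⟩ := h
  have e1 := hr 1 (by norm_num)
  have e2 := hr 2 (by norm_num)
  have e3 := hr 3 (by norm_num)
  have e4 := hr 4 (by norm_num)
  have e5 := hr 5 (by norm_num)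
  have e6 := hr 6 (by norm_num)
  simp only [Finset.sum_range_succ, Finset.sum_range_zero, zero_add, h1, one_mul, Nat.sub_self,
    Nat.sub_zero, h0, mul_one] at e1 e2 e3 e4 e5 e6
  norm_num at e1 e2 e3 e4 e5 e6
  have a1 : al 1 = -a 2 := by linear_combination e1
  have a2 : al 2 = a 2 ^ 2 - a 3 := by rw [a1] at e2; linear_combination e2
  have a3 : al 3 = - a 2 ^ 3 + 2 * a 2 * a 3 - a 4 := by
    rw [a1, a2] at e3; linear_combination e3
  have a4 : al 4 = a 2 ^ 4 - 3 * a 2 ^ 2 * a 3 + 2 * a 2 * a 4 + a 3 ^ 2 - a 5 := by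
    rw [a1, a2, a3] at e4; linear_combination e4
  have a5 : al 5 = - a 2 ^ 5 + 4 * a 2 ^ 3 * a 3 - 3 * a 2 ^ 2 * a 4 - 3 * a 2 * a 3 ^ 2
      + 2 * a 2 * a 5 + 2 * a 3 * a 4 - a 6 := by
    rw [a1, a2, a3, a4] at e5; linear_combination e5
  have a6 : al 6 = a 2 ^ 6 - 5 * a 2 ^ 4 * a 3 + 4 * a 2 ^ 3 * a 4 + 6 * a 2 ^ 2 * a 3 ^ 2
      - 3 * a 2 ^ 2 * a 5 - 6 * a 2 * a 3 * a 4 + 2 * a 2 * a 6 - a 3 ^ 3 + 2 * a 3 * a 5
      + a 4 ^ 2 - a 7 := by
    rw [a1, a2, a3, a4, a5] at e6; linear_combination e6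
  interval_cases n
  · rw [evH_eq a h1 (by intro x hx; revert x; decide +kernel), h0]; simp [alP, mono]
  · rw [evH_eq a h1 (by intro x hx; revert x; decide +kernel), a1]; simp [alP, mono]
  · rw [evH_eq a h1 (by intro x hx; revert x; decide +kernel), a2]; simp [alP, mono]; ring
  · rw [evH_eq a h1 (by intro x hx; revert x; decide +kernel), a3]; simp [alP, mono]; ring
  · rw [evH_eq a h1 (by intro x hx; revert x; decide +kernel), a4]; simp [alP, mono]; ring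
  · rw [evH_eq a h1 (by intro x hx; revert x; decide +kernel), a5]; simp [alP, mono]; ring
  · rw [evH_eq a h1 (by intro x hx; revert x; decide +kernel), a6]; simp [alP, mono]; ring

theorem evH_hP {a al q : ℕ → ℂ} (h1 : a 1 = 1) (h : IsInv a al) (hq : IsSqrt al q) {n : ℕ}
    (hn : n ≤ 5) : evH a (hP (n + 1)) = 2 * 4 ^ n * q (n + 1) := by
  obtain ⟨h0, hr⟩ := h
  have e1 := hr 1 (by norm_num)
  have e2 := hr 2 (by norm_num)
  have e3 := hr 3 (by norm_num)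
  have e4 := hr 4 (by norm_num)
  have e5 := hr 5 (by norm_num)
  have e6 := hr 6 (by norm_num)
  simp only [Finset.sum_range_succ, Finset.sum_range_zero, zero_add, h1, one_mul, Nat.sub_self,
    Nat.sub_zero, h0, mul_one] at e1 e2 e3 e4 e5 e6
  norm_num at e1 e2 e3 e4 e5 e6
  have a1 : al 1 = -a 2 := by linear_combination e1
  have a2 : al 2 = a 2 ^ 2 - a 3 := by rw [a1] at e2; linear_combination e2
  have a3 : al 3 = - a 2 ^ 3 + 2 * a 2 * a 3 - a 4 := by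
    rw [a1, a2] at e3; linear_combination e3
  have a4 : al 4 = a 2 ^ 4 - 3 * a 2 ^ 2 * a 3 + 2 * a 2 * a 4 + a 3 ^ 2 - a 5 := by
    rw [a1, a2, a3] at e4; linear_combination e4
  have a5 : al 5 = - a 2 ^ 5 + 4 * a 2 ^ 3 * a 3 - 3 * a 2 ^ 2 * a 4 - 3 * a 2 * a 3 ^ 2
      + 2 * a 2 * a 5 + 2 * a 3 * a 4 - a 6 := by
    rw [a1, a2, a3, a4] at e5; linear_combination e5
  have a6 : al 6 = a 2 ^ 6 - 5 * a 2 ^ 4 * a 3 + 4 * a 2 ^ 3 * a 4 + 6 * a 2 ^ 2 * a 3 ^ 2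
      - 3 * a 2 ^ 2 * a 5 - 6 * a 2 * a 3 * a 4 + 2 * a 2 * a 6 - a 3 ^ 3 + 2 * a 3 * a 5
      + a 4 ^ 2 - a 7 := by
    rw [a1, a2, a3, a4, a5] at e6; linear_combination e6
  obtain ⟨q0, hqr⟩ := hq
  have f1 := hqr 1
  have f2 := hqr 2
  have f3 := hqr 3
  have f4 := hqr 4
  have f5 := hqr 5
  have f6 := hqr 6
  simp only [Finset.sum_range_succ, Finset.sum_range_zero, zero_add, Nat.sub_self,
    Nat.sub_zero, q0, mul_one, one_mul] at f1 f2 f3 f4 f5 f6
  norm_num at f1 f2 f3 f4 f5 f6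
  have q1 : q 1 = - a 2 / 2 := by rw [a1] at f1; linear_combination f1 / 2
  have q2 : q 2 = (3 * a 2 ^ 2 - 4 * a 3) / 8 := by
    rw [a2, q1] at f2; linear_combination f2 / 2
  have q3 : q 3 = (-10 * a 2 ^ 3 + 24 * a 2 * a 3 - 16 * a 4) / 32 := by
    rw [a3, q1, q2] at f3; linear_combination f3 / 2
  have q4 : q 4 = (35 * a 2 ^ 4 - 120 * a 2 ^ 2 * a 3 + 96 * a 2 * a 4 + 48 * a 3 ^ 2
      - 64 * a 5) / 128 := by
    rw [a4, q1, q2, q3] at f4; linear_combination f4 / 2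
  have q5 : q 5 = (-126 * a 2 ^ 5 + 560 * a 2 ^ 3 * a 3 - 480 * a 2 ^ 2 * a 4
      - 480 * a 2 * a 3 ^ 2 + 384 * a 2 * a 5 + 384 * a 3 * a 4 - 256 * a 6) / 512 := by
    rw [a5, q1, q2, q3, q4] at f5; linear_combination f5 / 2
  have q6 : q 6 = (462 * a 2 ^ 6 - 2520 * a 2 ^ 4 * a 3 + 2240 * a 2 ^ 3 * a 4
      + 3360 * a 2 ^ 2 * a 3 ^ 2 - 1920 * a 2 ^ 2 * a 5 - 3840 * a 2 * a 3 * a 4
      + 1536 * a 2 * a 6 - 640 * a 3 ^ 3 + 1536 * a 3 * a 5 + 768 * a 4 ^ 2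
      - 1024 * a 7) / 2048 := by
    rw [a6, q1, q2, q3, q4, q5] at f6; linear_combination f6 / 2
  interval_cases n
  · rw [evH_eq a h1 (by intro x hx; revert x; decide +kernel), q1]; simp [hP, mono]; ring
  · rw [evH_eq a h1 (by intro x hx; revert x; decide +kernel), q2]; simp [hP, mono]; ring
  · rw [evH_eq a h1 (by intro x hx; revert x; decide +kernel), q3]; simp [hP, mono]; ring
  · rw [evH_eq a h1 (by intro x hx; revert x; decide +kernel), q4]; simp [hP, mono]; ring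
  · rw [evH_eq a h1 (by intro x hx; revert x; decide +kernel), q5]; simp [hP, mono]; ring
  · rw [evH_eq a h1 (by intro x hx; revert x; decide +kernel), q6]; simp [hP, mono]; ring

theorem evT_gT2 {a al : ℕ → ℂ} (h1 : a 1 = 1) (h : IsInv a al) {N : ℕ} (hN : N ≤ 6) :
    evT a (gT2 N) = - ∑ n ∈ Finset.range (N + 1), ((n : ℝ) - 1) * ‖al n‖ ^ 2 := by
  induction N with
  | zero =>
    show evT a (addSq 1 (alP 0) Tr.lf) = _
    rw [evT_addSq, evH_alP h1 h (by norm_num)]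
    simp [evT]
  | succ n ih =>
    show evT a (addSq (-(n : ℤ)) (alP (n + 1)) (gT2 n)) = _
    rw [evT_addSq, evH_alP h1 h hN, ih (by omega), Finset.sum_range_succ _ (n + 1)]
    push_cast; ring

/-- the recursion inside `gT1` with the number of steps separated -/
noncomputable def gT1' (N : ℕ) (n : ℕ) : Tr :=
  Nat.rec (motive := fun _ => Tr) (addSq (16 ^ N) (hP 0) Tr.lf)
    (fun n ih => addSq (-((2 * (n : ℤ) + 1) * 4 * 16 ^ (N - (n + 1)))) (hP (n + 1)) ih) n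

theorem evT_gT1' {a al q : ℕ → ℂ} (h1 : a 1 = 1) (h : IsInv a al) (hq : IsSqrt al q) {N n : ℕ}
    (hn : n ≤ N) (hN : N ≤ 6) :
    evT a (gT1' N n) = - 16 ^ N * ∑ m ∈ Finset.range (n + 1), (2 * (m : ℝ) - 1) * ‖q m‖ ^ 2 := by
  induction n with
  | zero =>
    show evT a (addSq (16 ^ N) (hP 0) Tr.lf) = _
    rw [evT_addSq]
    have : evH a (hP 0) = 1 := by simp [evH, hP, codeL_nil, M_one]
    rw [this]
    simp [evT, hq.1]
  | succ n ih =>
    show evT a (addSq (-((2 * (n : ℤ) + 1) * 4 * 16 ^ (N - (n + 1)))) (hP (n + 1)) (gT1' N n)) = _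
    rw [evT_addSq, evH_hP h1 h hq (by omega), ih (by omega), Finset.sum_range_succ _ (n + 1)]
    have e : (16 : ℝ) ^ N = 16 ^ (N - (n + 1)) * 16 ^ (n + 1) := by
      rw [← pow_add]; congr 1; omega
    rw [norm_mul, norm_mul, norm_pow]
    have e4 : ‖(4 : ℂ)‖ = 4 := by norm_num
    have e2 : ‖(2 : ℂ)‖ = 2 := by norm_num
    rw [e4, e2]
    have e16 : ((4 : ℝ) ^ n) ^ 2 = 16 ^ n := by rw [← pow_mul, mul_comm, pow_mul]; norm_num
    push_cast
    rw [mul_pow, mul_pow, e16, e]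
    ring

/-- the values of the constraint trees are non-negative on the body -/
theorem gT_nonneg {a : ℕ → ℂ} (hb : Body a) {N : ℕ} (hN : N ≤ 6) :
    0 ≤ evT a (gT1 N) ∧ 0 ≤ evT a (gT2 N) := by
  obtain ⟨h1, al, q, hi, hq, c1, c2⟩ := hb
  refine ⟨?_, ?_⟩
  · have : gT1 N = gT1' N N := rfl
    rw [this, evT_gT1' h1 hi hq le_rfl hN]
    have := c2 N
    nlinarith [pow_pos (show (0 : ℝ) < 16 by norm_num) N]
  · rw [evT_gT2 h1 hi hN]
    linarith [c1 N]

theorem body_bound {a : ℕ → ℂ} (hb : Body a) : ∀ n, 2 ≤ n → n ≤ 7 → ‖a n‖ ≤ pc n := by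
  obtain ⟨h1, al, q, ⟨h0, hr⟩, ⟨q0, hqr⟩, c1, c2⟩ := hb
  -- bound of al 1
  have hq1 : ‖q 1‖ ≤ 1 := by
    have := c2 1
    simp only [Finset.sum_range_succ, Finset.sum_range_zero, q0, norm_one] at this
    norm_num at this
    exact this
  have hal1 : ‖al 1‖ ≤ 2 := by
    have := hqr 1
    simp only [Finset.sum_range_succ, Finset.sum_range_zero, zero_add, Nat.sub_zero, Nat.sub_self,
      q0, one_mul, mul_one] at this
    rw [← this]
    calc ‖q 1 + q 1‖ ≤ ‖q 1‖ + ‖q 1‖ := norm_add_le _ _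
      _ ≤ 2 := by linarith
  have hal : ∀ n, 2 ≤ n → ‖al n‖ ≤ 1 := by
    intro n hn
    have h2 := c1 n
    rw [Finset.sum_range_succ] at h2
    have h3 : (-1 : ℝ) ≤ ∑ m ∈ Finset.range n, ((m : ℝ) - 1) * ‖al m‖ ^ 2 := by
      obtain ⟨k, rfl⟩ : ∃ k, n = k + 1 := ⟨n - 1, by omega⟩
      rw [Finset.sum_range_succ']
      have : 0 ≤ ∑ m ∈ Finset.range k, (((m + 1 : ℕ) : ℝ) - 1) * ‖al (m + 1)‖ ^ 2 :=
        Finset.sum_nonneg fun m _ => mul_nonneg (by push_cast; simp) (sq_nonneg _)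
      simp only [h0, norm_one, Nat.cast_zero]
      linarith
    have h4 : (1 : ℝ) ≤ (n : ℝ) - 1 := by
      have : (2 : ℝ) ≤ n := by exact_mod_cast hn
      linarith
    have h5 : ((n : ℝ) - 1) * ‖al n‖ ^ 2 ≤ 1 := by linarith
    have h6 : ‖al n‖ ^ 2 ≤ 1 := by nlinarith [sq_nonneg ‖al n‖]
    nlinarith [norm_nonneg (al n)]
  have e1 := hr 1 (by norm_num)
  have e2 := hr 2 (by norm_num)
  have e3 := hr 3 (by norm_num)
  have e4 := hr 4 (by norm_num)
  have e5 := hr 5 (by norm_num)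
  have e6 := hr 6 (by norm_num)
  simp only [Finset.sum_range_succ, Finset.sum_range_zero, zero_add, h1, one_mul, Nat.sub_self,
    Nat.sub_zero, h0, mul_one] at e1 e2 e3 e4 e5 e6
  norm_num at e1 e2 e3 e4 e5 e6
  have b2 : ‖a 2‖ ≤ 2 := by
    rw [show a 2 = - al 1 by linear_combination e1, norm_neg]; exact hal1
  have p2 := hal 2 (by norm_num)
  have p3 := hal 3 (by norm_num)
  have p4 := hal 4 (by norm_num)
  have p5 := hal 5 (by norm_num)
  have p6 := hal 6 (by norm_num)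
  have mb : ∀ {x y : ℂ} {X Y : ℝ}, ‖x‖ ≤ X → ‖y‖ ≤ Y → ‖x * y‖ ≤ X * Y := by
    intro x y X Y hx hy
    rw [norm_mul]
    exact mul_le_mul hx hy (norm_nonneg _) ((norm_nonneg _).trans hx)
  have b3 : ‖a 3‖ ≤ 5 := by
    rw [show a 3 = - (a 2 * al 1) - al 2 by linear_combination e2]
    calc _ ≤ ‖-(a 2 * al 1)‖ + ‖al 2‖ := norm_sub_le _ _
      _ ≤ 2 * 2 + 1 := by rw [norm_neg]; exact add_le_add (mb b2 hal1) p2
      _ = 5 := by norm_num
  have b4 : ‖a 4‖ ≤ 13 := by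
    rw [show a 4 = - (a 3 * al 1) - a 2 * al 2 - al 3 by linear_combination e3]
    calc _ ≤ ‖-(a 3 * al 1)‖ + ‖a 2 * al 2‖ + ‖al 3‖ :=
          (norm_sub_le _ _).trans (add_le_add_left (norm_sub_le _ _) _)
      _ ≤ 5 * 2 + 2 * 1 + 1 := by
          rw [norm_neg]; exact add_le_add (add_le_add (mb b3 hal1) (mb b2 p2)) p3
      _ = 13 := by norm_num
  have b5 : ‖a 5‖ ≤ 34 := by
    rw [show a 5 = - (a 4 * al 1) - a 3 * al 2 - a 2 * al 3 - al 4 by linear_combination e4]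
    calc _ ≤ ‖-(a 4 * al 1)‖ + ‖a 3 * al 2‖ + ‖a 2 * al 3‖ + ‖al 4‖ :=
          (norm_sub_le _ _).trans (add_le_add_left ((norm_sub_le _ _).trans
            (add_le_add_left (norm_sub_le _ _) _)) _)
      _ ≤ 13 * 2 + 5 * 1 + 2 * 1 + 1 := by
          rw [norm_neg]
          exact add_le_add (add_le_add (add_le_add (mb b4 hal1) (mb b3 p2)) (mb b2 p3)) p4
      _ = 34 := by norm_num
  have b6 : ‖a 6‖ ≤ 89 := by
    rw [show a 6 = - (a 5 * al 1) - a 4 * al 2 - a 3 * al 3 - a 2 * al 4 - al 5 by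
      linear_combination e5]
    calc _ ≤ ‖-(a 5 * al 1)‖ + ‖a 4 * al 2‖ + ‖a 3 * al 3‖ + ‖a 2 * al 4‖ + ‖al 5‖ :=
          (norm_sub_le _ _).trans (add_le_add_left ((norm_sub_le _ _).trans
            (add_le_add_left ((norm_sub_le _ _).trans
            (add_le_add_left (norm_sub_le _ _) _)) _)) _)
      _ ≤ 34 * 2 + 13 * 1 + 5 * 1 + 2 * 1 + 1 := by
          rw [norm_neg]
          exact add_le_add (add_le_add (add_le_add (add_le_add (mb b5 hal1) (mb b4 p2))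
            (mb b3 p3)) (mb b2 p4)) p5
      _ = 89 := by norm_num
  have b7 : ‖a 7‖ ≤ 233 := by
    rw [show a 7 = - (a 6 * al 1) - a 5 * al 2 - a 4 * al 3 - a 3 * al 4 - a 2 * al 5 - al 6 by
      linear_combination e6]
    calc _ ≤ ‖-(a 6 * al 1)‖ + ‖a 5 * al 2‖ + ‖a 4 * al 3‖ + ‖a 3 * al 4‖ + ‖a 2 * al 5‖
            + ‖al 6‖ :=
          (norm_sub_le _ _).trans (add_le_add_left ((norm_sub_le _ _).trans
            (add_le_add_left ((norm_sub_le _ _).trans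
            (add_le_add_left ((norm_sub_le _ _).trans
            (add_le_add_left (norm_sub_le _ _) _)) _)) _)) _)
      _ ≤ 89 * 2 + 34 * 1 + 13 * 1 + 5 * 1 + 2 * 1 + 1 := by
          rw [norm_neg]
          exact add_le_add (add_le_add (add_le_add (add_le_add (add_le_add (mb b6 hal1) (mb b5 p2))
            (mb b4 p3)) (mb b3 p4)) (mb b2 p5)) p6
      _ = 233 := by norm_num
  intro n h2 h7
  interval_cases n
  · simpa [pc] using b2
  · simpa [pc] using b3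
  · simpa [pc] using b4
  · simpa [pc] using b5.trans (by norm_num)
  · simpa [pc] using b6
  · simpa [pc] using b7

end Vale.Agent.Lib.P142.Chk
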