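import Vale.Agent.Lib.P142.ChkSound2

/-!
# P142: soundness of the checker, third part: the certificate theorem
-/

open Complex

namespace Vale.Agent.Lib.P142.Chk

/-- admissible blocks -/
def BlkOk (b : Blk) : Prop := b.kind ≤ 2 ∧ b.N ≤ 6 ∧ (b.sg = 1 ∨ b.sg = -1)

instance (b : Blk) : Decidable (BlkOk b) := by unfold BlkOk; infer_instance

theorem evT_addBlk {a : ℕ → ℂ} (hb : Body a) {b : Blk} (hk : BlkOk b) (t : Tr) :
    ∃ s : ℝ, 0 ≤ s ∧ evT a (addBlk b t) = evT a t - s := by
  obtain ⟨hk1, hk2, hk3⟩ := hk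
  have hg := gT_nonneg hb hk2
  have hq := qf_nonneg a b.sg (mkRows b.bs 1 b.rs)
  have cases3 : b.kind = 0 ∨ b.kind = 1 ∨ b.kind = 2 := by omega
  rcases cases3 with h | h | h
  · refine ⟨4 * qf a b.sg (mkRows b.bs 1 b.rs), by positivity, ?_⟩
    have : addBlk b t = quad b.sg (-2) (mkRows b.bs 1 b.rs) t := by
      unfold addBlk; rw [h]; rfl
    rw [this, evT_quad a hk3]
    push_cast; ring
  · refine ⟨2 * evT a (gT1 b.N) * (2 * qf a b.sg (mkRows b.bs 1 b.rs)),
      mul_nonneg (mul_nonneg (by norm_num) hg.1) (mul_nonneg (by norm_num) hq), ?_⟩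
    have : addBlk b t = mulInto (tl (gT1 b.N) []) (tl (quad b.sg 1 (mkRows b.bs 1 b.rs) Tr.lf) []) t
      := by unfold addBlk; rw [h]; rfl
    rw [this, evT_mulInto, evLst_tl, evLst_tl, evT_quad a hk3]
    simp [evLst, evT]
  · refine ⟨2 * evT a (gT2 b.N) * (2 * qf a b.sg (mkRows b.bs 1 b.rs)),
      mul_nonneg (mul_nonneg (by norm_num) hg.2) (mul_nonneg (by norm_num) hq), ?_⟩
    have : addBlk b t = mulInto (tl (gT2 b.N) []) (tl (quad b.sg 1 (mkRows b.bs 1 b.rs) Tr.lf) []) t
      := by unfold addBlk; rw [h]; rfl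
    rw [this, evT_mulInto, evLst_tl, evLst_tl, evT_quad a hk3]
    simp [evLst, evT]

theorem evT_blks {a : ℕ → ℂ} (hb : Body a) (bl : List Blk) (hk : ∀ b ∈ bl, BlkOk b) (t : Tr) :
    evT a (foldT addBlk bl t) ≤ evT a t := by
  induction bl generalizing t with
  | nil => rw [foldT_nil]
  | cons b bl ih =>
    rw [foldT_cons]
    obtain ⟨s, hs, he⟩ := evT_addBlk hb (hk b (by simp)) t
    refine (ih (fun b' hb' => hk b' (by simp [hb'])) _).trans ?_
    rw [he]; linarith

theorem slack_le {a : ℕ → ℂ} (hb : Body a) (t : Tr) : (slack t : ℝ) ≤ evT a t := by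
  induction t with
  | lf => simp [slack, evT]
  | nd l key h k c r ihl ihr =>
    have e : slack (Tr.nd l key h k c r) = slack l + slack r +
      Bool.rec (-((Int.natAbs c * (h * k) : ℕ) : ℤ)) c (Bool.and (Nat.beq h 1) (Nat.beq k 1)) := rfl
    rw [e]
    have hV := abs_V_le a (body_bound hb) h k
    have hcV : -(|(c : ℝ)| * ((h : ℝ) * (k : ℝ))) ≤ (c : ℝ) * V a h k := by
      have h3 : |(c : ℝ) * V a h k| ≤ |(c : ℝ)| * ((h : ℝ) * (k : ℝ)) := by
        rw [abs_mul]
        refine mul_le_mul_of_nonneg_left ?_ (abs_nonneg _)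
        simpa using hV
      linarith [neg_abs_le ((c : ℝ) * V a h k)]
    rcases h1 : Nat.beq h 1 with _ | _
    · have : (Bool.rec (-((Int.natAbs c * (h * k) : ℕ) : ℤ)) c
          (Bool.and false (Nat.beq k 1)) : ℤ) = -((Int.natAbs c * (h * k) : ℕ) : ℤ) := rfl
      rw [this]
      simp only [evT]
      push_cast at ihl ihr ⊢
      linarith
    · rcases h2 : Nat.beq k 1 with _ | _
      · have : (Bool.rec (-((Int.natAbs c * (h * k) : ℕ) : ℤ)) c
          (Bool.and true false) : ℤ) = -((Int.natAbs c * (h * k) : ℕ) : ℤ) := rfl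
        rw [this]
        simp only [evT]
        push_cast at ihl ihr ⊢
        linarith
      · have : (Bool.rec (-((Int.natAbs c * (h * k) : ℕ) : ℤ)) c
          (Bool.and true true) : ℤ) = c := rfl
        rw [this, Nat.eq_of_beq_eq_true h1, Nat.eq_of_beq_eq_true h2]
        simp only [evT, V_one]
        push_cast
        linarith

/-! ### the derivation -/

theorem dl_cons (n : ℕ) (l : List ℕ) :
    dl (n :: l) = (pc (n + 1) * codeL l, n + 1) :: mapMul (pc n) (dl l) := rfl

theorem sl_cons (n : ℕ) (l : List ℕ) :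
    sl (n :: l) = (pc (n - 1) * codeL l, n - 1) :: mapMul (pc n) (sl l) := rfl

theorem mapMul_eq (p : ℕ) (l : List (ℕ × ℕ)) : mapMul p l = l.map fun x => (p * x.1, x.2) := by
  induction l with
  | nil => rfl
  | cons x l ih =>
    show (p * x.1, x.2) :: mapMul p l = _
    rw [ih, List.map_cons]

/-- value of the lists `dl`, `sl` -/
noncomputable def evD (a : ℕ → ℂ) (l : List (ℕ × ℕ)) : ℂ :=
  (l.map fun x => (x.2 : ℂ) * M a x.1).sum

theorem evD_mapMul (a : ℕ → ℂ) (p : ℕ) (l : List (ℕ × ℕ)) :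
    evD a (mapMul p l) = M a p * evD a l := by
  rw [mapMul_eq]
  induction l with
  | nil => simp [evD]
  | cons x l ih =>
    unfold evD at ih ⊢
    simp only [List.map_cons, List.sum_cons, List.map_map] at ih ⊢
    rw [ih, M_mul]; ring

theorem evD_dl {a : ℕ → ℂ} (h1 : a 1 = 1) {l : List ℕ} (h : okL 6 l = true) :
    dmono 1 a l = evD a (dl l) - 2 * (len l : ℂ) * a 2 * mono a l - (wt l : ℂ) * mono a l := by
  induction l with
  | nil => simp [dmono, dl, evD, len, wt, mono]
  | cons n l ih =>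
    obtain ⟨h2, h3, h4⟩ := okL_cons h
    have e1 : (len (n :: l) : ℂ) = 1 + (len l : ℂ) := by
      show ((1 + len l : ℤ) : ℂ) = _
      push_cast; ring
    have e2 : (wt (n :: l) : ℂ) = ((n : ℂ) - 1) + (wt l : ℂ) := by
      show ((((n : ℤ) - 1) + wt l : ℤ) : ℂ) = _
      push_cast; ring
    have e3 : evD a (dl (n :: l)) =
        ((n : ℂ) + 1) * (a (n + 1) * mono a l) + a n * evD a (dl l) := by
      rw [dl_cons]
      show (((n + 1 : ℕ) : ℂ) * M a (pc (n + 1) * codeL l)) + evD a (mapMul (pc n) (dl l)) = _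
      rw [evD_mapMul, M_mul, M_pc a h1 (by omega) (by omega), M_pc a h1 (by omega) (by omega),
        M_codeL a h1 (by norm_num) h4]
      push_cast; ring
    rw [dmono, ih h4, e1, e2, e3]
    simp only [mono, List.map_cons, List.prod_cons, Da]
    push_cast; ring

theorem okL_mono {m m' : ℕ} (hm : m ≤ m') {l : List ℕ} (h : okL m l = true) :
    okL m' l = true := by
  induction l with
  | nil => rfl
  | cons n l ih =>
    obtain ⟨h2, h3, h4⟩ := okL_cons h
    show Bool.and (Bool.and (Nat.ble 2 n) (Nat.ble n m')) (okL m' l) = true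
    rw [ih h4, Nat.ble_eq_true_of_le h2, Nat.ble_eq_true_of_le (h3.trans hm)]
    rfl

theorem evD_sl {a : ℕ → ℂ} (h1 : a 1 = 1) {l : List ℕ} (h : okL 7 l = true) :
    smono 1 a l = (wt l : ℂ) * mono a l - evD a (sl l) := by
  induction l with
  | nil => simp [smono, sl, evD, wt, mono]
  | cons n l ih =>
    obtain ⟨h2, h3, h4⟩ := okL_cons h
    have e2 : (wt (n :: l) : ℂ) = ((n : ℂ) - 1) + (wt l : ℂ) := by
      show ((((n : ℤ) - 1) + wt l : ℤ) : ℂ) = _
      push_cast; ring
    have e3 : evD a (sl (n :: l)) =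
        ((n : ℂ) - 1) * (a (n - 1) * mono a l) + a n * evD a (sl l) := by
      rw [sl_cons]
      show (((n - 1 : ℕ) : ℂ) * M a (pc (n - 1) * codeL l)) + evD a (mapMul (pc n) (sl l)) = _
      rw [evD_mapMul, M_mul, M_pc a h1 (by omega) (by omega), M_pc a h1 (by omega) (by omega),
        M_codeL a h1 (by norm_num) h4, Nat.cast_sub (by omega)]
      push_cast; ring
    rw [smono, ih h4, e2, e3]
    simp only [mono, List.map_cons, List.prod_cons, Sa]
    push_cast; ring

theorem evT_skel (a : ℕ → ℂ) (l : List (ℕ × ℕ)) (t : Tr) : evT a (skel l t) = evT a t := by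
  unfold skel
  rw [evT_foldT a _ (fun _ => 0)]
  · simp
  · intro x _ t
    rw [evT_insC]; simp

theorem evT_addT0 {a : ℕ → ℂ} (h1 : a 1 = 1) (K : ℤ) {m : Term} (hh : okL 6 m.h = true)
    (hk : okL 7 m.k = true) (t : Tr) :
    evT a (addT0 K m t) = evT a t +
      (K : ℝ) * ((m.c : ℂ) * mono a m.h * (starRingEnd ℂ) (mono a m.k)).re := by
  unfold addT0
  rw [evT_insC]
  unfold V
  rw [M_codeL a h1 (by norm_num) hh, M_codeL a h1 le_rfl hk]
  simp only [mul_re, mul_im, conj_re, conj_im, intCast_re, intCast_im]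
  push_cast; ring

theorem sum_re_left (a : ℕ → ℂ) (w : ℝ) (z : ℂ) (l : List (ℕ × ℕ)) :
    (l.map fun x => w * (x.2 : ℝ) * (M a x.1 * (starRingEnd ℂ) z).re).sum =
      w * (evD a l * (starRingEnd ℂ) z).re := by
  induction l with
  | nil => simp [evD]
  | cons x l ih =>
    have : evD a (x :: l) = (x.2 : ℂ) * M a x.1 + evD a l := by simp [evD]
    rw [List.map_cons, List.sum_cons, ih, this]
    simp only [add_mul, add_re, mul_re, mul_im, conj_re, conj_im, natCast_re, natCast_im]
    ring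

theorem sum_re_right (a : ℕ → ℂ) (w : ℝ) (z : ℂ) (l : List (ℕ × ℕ)) :
    (l.map fun x => w * (x.2 : ℝ) * (z * (starRingEnd ℂ) (M a x.1)).re).sum =
      w * (z * (starRingEnd ℂ) (evD a l)).re := by
  induction l with
  | nil => simp [evD]
  | cons x l ih =>
    have : evD a (x :: l) = (x.2 : ℂ) * M a x.1 + evD a l := by simp [evD]
    rw [List.map_cons, List.sum_cons, ih, this]
    simp only [map_add, map_mul, mul_add, add_re, mul_re, mul_im, conj_re, conj_im, natCast_re,
      natCast_im, map_natCast]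
    ring

/-- value of `L` on one term -/
noncomputable def evLT (t β : ℝ) (a : ℕ → ℂ) (m : Term) : ℂ :=
  (m.c : ℂ) * (dmono 1 a m.h * (starRingEnd ℂ) (mono a m.k) +
    mono a m.h * (starRingEnd ℂ) (smono 1 a m.k)) +
  ((t : ℂ) * a 2 + ((β : ℂ) - (t : ℂ))) *
    ((m.c : ℂ) * mono a m.h * (starRingEnd ℂ) (mono a m.k))

theorem evL_eq (t β : ℝ) (a : ℕ → ℂ) (F : List Term) :
    evL t β 1 1 a F = (F.map fun m => evLT t β a m).sum := by
  unfold evL evE evF
  induction F with
  | nil => simp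
  | cons m F ih =>
    simp only [List.map_cons, List.sum_cons] at ih ⊢
    rw [← ih]
    unfold evLT
    push_cast
    ring

theorem evT_addT {a : ℕ → ℂ} (h1 : a 1 = 1) {K den T B : ℤ} {t β : ℝ}
    (hT : (T : ℝ) = den * t) (hB : (B : ℝ) = den * (β - t)) {m : Term} (hh : okL 6 m.h = true)
    (hk : okL 7 m.k = true) (tr : Tr) :
    evT a (addT K den T B m tr) = evT a tr + (K : ℝ) * den * (evLT t β a m).re := by
  unfold addT
  have hV : ∀ h k : ℕ, V a h k = (M a h * (starRingEnd ℂ) (M a k)).re := fun _ _ => rfl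
  rw [evT_foldT a _ (fun x => -((m.c : ℝ) * K * den) * (x.2 : ℝ) *
      (M a (codeL m.h) * (starRingEnd ℂ) (M a x.1)).re)]
  · rw [evT_insC, evT_insC, evT_foldT a _ (fun x => ((m.c : ℝ) * K * den) * (x.2 : ℝ) *
      (M a x.1 * (starRingEnd ℂ) (M a (codeL m.k))).re)]
    · rw [sum_re_left, sum_re_right, hV, hV, M_mul, M_codeL a h1 (by norm_num) hh,
        M_codeL a h1 le_rfl hk]
      have hd := evD_dl h1 hh
      have hs := evD_sl h1 hk
      have hd' : evD a (dl m.h) = dmono 1 a m.h + 2 * (len m.h : ℂ) * a 2 * mono a m.h +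
          (wt m.h : ℂ) * mono a m.h := by rw [hd]; ring
      have hs' : evD a (sl m.k) = (wt m.k : ℂ) * mono a m.k - smono 1 a m.k := by rw [hs]; ring
      have hM2 : M a 2 = a 2 := by simpa [pc] using M_pc a h1 (show 1 ≤ 2 by norm_num) (by norm_num)
      rw [hd', hs', hM2]
      unfold evLT
      have hTB : (T : ℝ) = den * t := hT
      simp only [mul_re, mul_im, add_re, add_im, sub_re, sub_im, conj_re, conj_im, intCast_re,
        intCast_im, ofReal_re, ofReal_im, map_sub, map_mul, map_add, map_intCast]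
      push_cast
      rw [hT, hB]
      simp only [show (2 : ℂ).re = 2 from rfl, show (2 : ℂ).im = 0 from rfl]
      ring
    · intro x _ t'
      rw [evT_insC, hV]
      push_cast; ring
  · intro x _ t'
    rw [evT_insC, hV]
    push_cast; ring

theorem okF_cons {m : Term} {F : List Term} (h : okF (m :: F) = true) :
    okL 6 m.h = true ∧ okL 7 m.k = true ∧ okF F = true := by
  have e : okF (m :: F) = Bool.and (Bool.and (okL 6 m.h) (okL 7 m.k)) (okF F) := rfl
  rw [e] at h
  rcases h1 : okL 6 m.h with _ | _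
  · simp [h1] at h
  rcases h2 : okL 7 m.k with _ | _
  · simp [h1, h2] at h
  refine ⟨rfl, rfl, ?_⟩
  simpa [h1, h2] using h

theorem evT_F {a : ℕ → ℂ} (h1 : a 1 = 1) {K den T B : ℤ} {t β : ℝ}
    (hT : (T : ℝ) = den * t) (hB : (B : ℝ) = den * (β - t)) {F : List Term} (hF : okF F = true)
    (tr : Tr) :
    evT a (foldT (addT K den T B) F tr) = evT a tr + (K : ℝ) * den * (evL t β 1 1 a F).re := by
  rw [evL_eq]
  induction F generalizing tr with
  | nil => simp [foldT_nil]
  | cons m F ih =>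
    obtain ⟨h2, h3, h4⟩ := okF_cons hF
    rw [foldT_cons, ih h4, evT_addT h1 hT hB h2 h3, List.map_cons, List.sum_cons, add_re]
    ring

theorem evT_F0 {a : ℕ → ℂ} (h1 : a 1 = 1) {K : ℤ} {F : List Term} (hF : okF F = true)
    (tr : Tr) :
    evT a (foldT (addT0 K) F tr) = evT a tr + (K : ℝ) * (evF a F).re := by
  unfold evF
  induction F generalizing tr with
  | nil => simp [foldT_nil]
  | cons m F ih =>
    obtain ⟨h2, h3, h4⟩ := okF_cons hF
    rw [foldT_cons, ih h4, evT_addT0 h1 K h2 h3, List.map_cons, List.sum_cons, add_re]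
    ring

theorem posI_pos {c : ℤ} (h : posI c = true) : 0 < c := by
  cases c with
  | ofNat n =>
    have : Nat.blt 0 n = true := h
    have h2 : 0 < n := Nat.le_of_ble_eq_true this
    show (0 : ℤ) < (n : ℤ)
    exact_mod_cast h2
  | negSucc n => exact absurd h (by simp [posI])

theorem okF_idx {F : List Term} (hF : okF F = true) :
    ∀ T ∈ F, (∀ i ∈ T.h, 1 ≤ i) ∧ (∀ i ∈ T.k, 1 ≤ i) := by
  have hL : ∀ {m : ℕ} {l : List ℕ}, okL m l = true → ∀ i ∈ l, 1 ≤ i := by
    intro m l
    induction l with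
    | nil => intro _ i hi; simp at hi
    | cons n l ih =>
      intro h i hi
      obtain ⟨h2, h3, h4⟩ := okL_cons h
      rcases List.mem_cons.1 hi with rfl | hi
      · omega
      · exact ih h4 i hi
  induction F with
  | nil => intro T hT; simp at hT
  | cons m F ih =>
    intro T hT
    obtain ⟨h2, h3, h4⟩ := okF_cons hF
    rcases List.mem_cons.1 hT with rfl | hT
    · exact ⟨hL h2, hL h3⟩
    · exact ih h4 T hT

/-- Soundness of the checker. -/
theorem cert_of_check {K den T B : ℤ} {t β : ℝ} (hK : 0 < K) (hden : 0 < den)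
    (hT : (T : ℝ) = den * t) (hB : (B : ℝ) = den * (β - t)) {F : List Term}
    {sk : List (ℕ × ℕ)} {bl bp : List Blk} (hF : okF F = true) (hbl : ∀ b ∈ bl, BlkOk b)
    (hbp : ∀ b ∈ bp, BlkOk b) (hL : chkL K den T B F sk bl = true)
    {K' : ℤ} (hK' : 0 < K') (hP : chkF K' F sk bp = true) : Cert t β F := by
  have hKR : (0 : ℝ) < K := by exact_mod_cast hK
  have hdR : (0 : ℝ) < den := by exact_mod_cast hden
  have hKR' : (0 : ℝ) < K' := by exact_mod_cast hK'
  refine ⟨min (1 / ((K : ℝ) * den)) (1 / (K' : ℝ)), lt_min (by positivity) (by positivity), ?_⟩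
  intro a hb
  have h1 : a 1 = 1 := hb.1
  constructor
  · refine (min_le_right _ _).trans ?_
    have hp := posI_pos hP
    have h2 := slack_le hb (foldT addBlk bp (foldT (addT0 K') F (skel sk Tr.lf)))
    have h3 := evT_blks hb bp hbp (foldT (addT0 K') F (skel sk Tr.lf))
    rw [evT_F0 h1 hF, evT_skel] at h3
    have h4 : (1 : ℝ) ≤ (slack (foldT addBlk bp (foldT (addT0 K') F (skel sk Tr.lf))) : ℝ) := by
      exact_mod_cast hp
    have h5 : evT a Tr.lf = 0 := rfl
    rw [div_le_iff₀ hKR']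
    nlinarith
  · refine (min_le_left _ _).trans ?_
    have hp := posI_pos hL
    have h2 := slack_le hb (foldT addBlk bl (foldT (addT K den T B) F (skel sk Tr.lf)))
    have h3 := evT_blks hb bl hbl (foldT (addT K den T B) F (skel sk Tr.lf))
    rw [evT_F h1 hT hB hF, evT_skel] at h3
    have h4 : (1 : ℝ) ≤ (slack (foldT addBlk bl (foldT (addT K den T B) F (skel sk Tr.lf))) : ℝ) := by
      exact_mod_cast hp
    have h5 : evT a Tr.lf = 0 := rfl
    rw [div_le_iff₀ (by positivity)]
    nlinarith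

end Vale.Agent.Lib.P142.Chk
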