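import Vale.Agent.Lib.P142.ChkDefs

/-!
# P142: the checker for large certificates, in stages (definitions)
-/

namespace Vale.Agent.Lib.P142.Chk

noncomputable def addLit (x : ℕ × ℕ × ℤ) (t : Tr) : Tr := insC x.1 x.2.1 x.2.2 t

noncomputable def subLit (x : ℕ × ℕ × ℤ) (t : Tr) : Tr := insC x.1 x.2.1 (-x.2.2) t

noncomputable def isZ (c : ℤ) : Bool :=
  Int.rec (fun n => Nat.beq n 0) (fun _ => false) c

noncomputable def allZ (t : Tr) : Bool :=
  Tr.rec (motive := fun _ => Bool) true
    (fun _ _ _ _ c _ ihl ihr => Bool.and (Bool.and ihl (isZ c)) ihr) t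

/-- one stage: the literal list `l` is the sum of the blocks `bl` -/
noncomputable def stg (sk : List (ℕ × ℕ)) (bl : List Blk) (l : List (ℕ × ℕ × ℤ)) : Bool :=
  allZ (foldT addBlk bl (foldT addLit l (skel sk Tr.lf)))

noncomputable def finL (K den T B : ℤ) (F : List Term) (sk : List (ℕ × ℕ))
    (ls : List (List (ℕ × ℕ × ℤ))) : Bool :=
  posI (slack (foldT (foldT subLit) ls (foldT (addT K den T B) F (skel sk Tr.lf))))

noncomputable def finF (K : ℤ) (F : List Term) (sk : List (ℕ × ℕ))
    (ls : List (List (ℕ × ℕ × ℤ))) : Bool :=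
  posI (slack (foldT (foldT subLit) ls (foldT (addT0 K) F (skel sk Tr.lf))))

end Vale.Agent.Lib.P142.Chk
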