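import Vale.Agent.Lib.P142.ChkSound3
import Vale.Agent.Lib.P142.ChkSplitDefs

/-!
# P142: soundness of the checker in stages
-/

open Complex

namespace Vale.Agent.Lib.P142.Chk

theorem evT_addLit (a : ℕ → ℂ) (l : List (ℕ × ℕ × ℤ)) (t : Tr) :
    evT a (foldT addLit l t) = evT a t + evLst a l := by
  rw [evT_foldT a _ (fun x => (x.2.2 : ℝ) * V a x.1 x.2.1)]
  · rfl
  · intro x _ t
    unfold addLit
    rw [evT_insC]

theorem evT_subLit (a : ℕ → ℂ) (l : List (ℕ × ℕ × ℤ)) (t : Tr) :
    evT a (foldT subLit l t) = evT a t - evLst a l := by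
  rw [evT_foldT a _ (fun x => -((x.2.2 : ℝ) * V a x.1 x.2.1))]
  · rw [← sub_eq_zero]
    have : (l.map fun x => -((x.2.2 : ℝ) * V a x.1 x.2.1)).sum = - evLst a l := by
      unfold evLst
      rw [List.sum_neg]
      congr 1
      rw [List.map_map]
      rfl
    rw [this]; ring
  · intro x _ t
    unfold subLit
    rw [evT_insC]
    push_cast; ring

theorem evT_subLits (a : ℕ → ℂ) (ls : List (List (ℕ × ℕ × ℤ))) (t : Tr) :
    evT a (foldT (foldT subLit) ls t) = evT a t - (ls.map (evLst a)).sum := by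
  induction ls generalizing t with
  | nil => simp [foldT_nil]
  | cons l ls ih =>
    rw [foldT_cons, ih, evT_subLit, List.map_cons, List.sum_cons]
    ring

theorem isZ_eq {c : ℤ} (h : isZ c = true) : c = 0 := by
  cases c with
  | ofNat n =>
    have h1 : Nat.beq n 0 = true := h
    have h2 := Nat.eq_of_beq_eq_true h1
    subst h2
    rfl
  | negSucc n => exact absurd h (by simp [isZ])

theorem allZ_ev (a : ℕ → ℂ) {t : Tr} (h : allZ t = true) : evT a t = 0 := by
  induction t with
  | lf => rfl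
  | nd l key hh k c r ihl ihr =>
    have e : allZ (Tr.nd l key hh k c r) =
      Bool.and (Bool.and (allZ l) (isZ c)) (allZ r) := rfl
    rw [e] at h
    rcases h1 : allZ l with _ | _
    · simp [h1] at h
    rcases h2 : isZ c with _ | _
    · simp [h1, h2] at h
    rcases h3 : allZ r with _ | _
    · simp [h1, h2, h3] at h
    rw [evT, ihl h1, ihr h3, isZ_eq h2]
    simp

theorem stg_nonneg {a : ℕ → ℂ} (hb : Body a) {sk : List (ℕ × ℕ)} {bl : List Blk}
    {l : List (ℕ × ℕ × ℤ)} (hk : ∀ b ∈ bl, BlkOk b) (h : stg sk bl l = true) :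
    0 ≤ evLst a l := by
  have h1 := allZ_ev a h
  have h2 := evT_blks hb bl hk (foldT addLit l (skel sk Tr.lf))
  rw [evT_addLit, evT_skel, h1] at h2
  have h5 : evT a Tr.lf = 0 := rfl
  linarith

/-- A list of literal polynomials that are nonnegative on the body. -/
def Good (ls : List (List (ℕ × ℕ × ℤ))) : Prop :=
  ∀ l ∈ ls, ∀ a : ℕ → ℂ, Body a → 0 ≤ evLst a l

theorem Good.nil : Good [] := by
  intro l hl
  simp at hl

theorem Good.cons {l : List (ℕ × ℕ × ℤ)} {ls : List (List (ℕ × ℕ × ℤ))} {sk : List (ℕ × ℕ)}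
    {bl : List Blk} (hk : ∀ b ∈ bl, BlkOk b) (h : stg sk bl l = true) (hg : Good ls) :
    Good (l :: ls) := by
  intro l' hl a hb
  rcases List.mem_cons.1 hl with rfl | hl
  · exact stg_nonneg hb hk h
  · exact hg l' hl a hb

theorem Good.sum_nonneg {ls : List (List (ℕ × ℕ × ℤ))} (hg : Good ls) {a : ℕ → ℂ}
    (hb : Body a) : 0 ≤ (ls.map (evLst a)).sum := by
  refine List.sum_nonneg ?_
  intro x hx
  obtain ⟨l, hl, rfl⟩ := List.mem_map.1 hx
  exact hg l hl a hb

/-- Soundness of the checker in stages. -/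
theorem cert_of_split {K den T B : ℤ} {t β : ℝ} (hK : 0 < K) (hden : 0 < den)
    (hT : (T : ℝ) = den * t) (hB : (B : ℝ) = den * (β - t)) {F : List Term}
    {sk : List (ℕ × ℕ)} {ll lp : List (List (ℕ × ℕ × ℤ))} (hF : okF F = true) (hll : Good ll)
    (hlp : Good lp) (hL : finL K den T B F sk ll = true)
    {K' : ℤ} (hK' : 0 < K') (hP : finF K' F sk lp = true) : Cert t β F := by
  have hKR : (0 : ℝ) < K := by exact_mod_cast hK
  have hdR : (0 : ℝ) < den := by exact_mod_cast hden
  have hKR' : (0 : ℝ) < K' := by exact_mod_cast hK'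
  refine ⟨min (1 / ((K : ℝ) * den)) (1 / (K' : ℝ)), lt_min (by positivity) (by positivity), ?_⟩
  intro a hb
  have h1 : a 1 = 1 := hb.1
  have h5 : evT a Tr.lf = 0 := rfl
  constructor
  · refine (min_le_right _ _).trans ?_
    have hp := posI_pos hP
    have h2 := slack_le hb (foldT (foldT subLit) lp (foldT (addT0 K') F (skel sk Tr.lf)))
    have h3 := hlp.sum_nonneg hb
    rw [evT_subLits, evT_F0 h1 hF, evT_skel] at h2
    have h4 : (1 : ℝ) ≤
        (slack (foldT (foldT subLit) lp (foldT (addT0 K') F (skel sk Tr.lf))) : ℝ) := by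
      exact_mod_cast hp
    rw [div_le_iff₀ hKR']
    nlinarith
  · refine (min_le_left _ _).trans ?_
    have hp := posI_pos hL
    have h2 := slack_le hb (foldT (foldT subLit) ll (foldT (addT K den T B) F (skel sk Tr.lf)))
    have h3 := hll.sum_nonneg hb
    rw [evT_subLits, evT_F h1 hT hB hF, evT_skel] at h2
    have h4 : (1 : ℝ) ≤
        (slack (foldT (foldT subLit) ll (foldT (addT K den T B) F (skel sk Tr.lf))) : ℝ) := by
      exact_mod_cast hp
    rw [div_le_iff₀ (by positivity)]
    nlinarith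

end Vale.Agent.Lib.P142.Chk
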