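import Vale.Agent.Lib.P142.Stokes
import Vale.Agent.Lib.P142.Area

/-!
# P142: Prawitz inequality on a circle
-/

open Complex MeasureTheory Set Metric

namespace Vale.Agent.Lib.P142

theorem circle_norm_zp {r : ℝ} (hr0 : 0 < r) (φ : ℝ) : ‖zp r φ‖ = r := by
  rw [zp, norm_mul, norm_exp_ofReal_mul_I, mul_one, norm_real, Real.norm_eq_abs, abs_of_pos hr0]

theorem circle_zp_mem {r : ℝ} (hr0 : 0 < r) (hr1 : r < 1) (φ : ℝ) : zp r φ ∈ ball (0 : ℂ) 1 := by
  rw [mem_ball_zero_iff, circle_norm_zp hr0]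
  exact hr1

theorem circle_continuous_zp (r : ℝ) : Continuous (fun φ : ℝ => zp r φ) := by
  unfold zp
  fun_prop

theorem circle_continuous_g {g : ℂ → ℂ} (hg : DifferentiableOn ℂ g (ball 0 1)) {r : ℝ}
    (hr0 : 0 < r) (hr1 : r < 1) : Continuous (fun φ : ℝ => g (zp r φ)) := by
  refine hg.continuousOn.comp_continuous (circle_continuous_zp r) fun φ => ?_
  exact circle_zp_mem hr0 hr1 φ

theorem circle_continuous_deriv {g : ℂ → ℂ} (hg : DifferentiableOn ℂ g (ball 0 1)) {r : ℝ}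
    (hr0 : 0 < r) (hr1 : r < 1) : Continuous (fun φ : ℝ => deriv g (zp r φ)) := by
  refine (hg.deriv isOpen_ball).continuousOn.comp_continuous (circle_continuous_zp r) fun φ => ?_
  exact circle_zp_mem hr0 hr1 φ

theorem circle_ne_zero {g : ℂ → ℂ} (hg : Univ g) (h0 : g 0 = 0) {r : ℝ} (hr0 : 0 < r)
    (hr1 : r < 1) (φ : ℝ) : g (zp r φ) ≠ 0 := by
  intro h
  have h1 : zp r φ = 0 := hg.inj (circle_zp_mem hr0 hr1 φ) (mem_ball_self one_pos) (by rw [h, h0])
  have h2 := circle_norm_zp hr0 φ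
  rw [h1, norm_zero] at h2
  linarith

/-- the derivative of `(m + η)^{-1-θ}` -/
theorem circle_hasDerivAt {η th m : ℝ} (hη : 0 < η) (hm : 0 ≤ m) :
    HasDerivAt (fun m : ℝ => (m + η) ^ (-(1 + th))) (-(1 + th) * (m + η) ^ (-(2 + th))) m := by
  have h1 : HasDerivAt (fun m : ℝ => m + η) 1 m := (hasDerivAt_id m).add_const η
  have h2 := h1.rpow_const (p := -(1 + th)) (Or.inl (by linarith : m + η ≠ 0))
  have e : -(1 + th) - 1 = -(2 + th) := by ring
  rw [e, one_mul] at h2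
  exact h2

theorem circle_kEta {η th m : ℝ} (hη : 0 < η) (hm : 0 ≤ m) :
    (m + η) ^ (-(1 + th)) + m * (-(1 + th) * (m + η) ^ (-(2 + th))) = kEta η th m := by
  have hp : 0 < m + η := by linarith
  have e : (m + η) ^ (-(1 + th)) = (m + η) * (m + η) ^ (-(2 + th)) := by
    have e1 : -(1 + th) = 1 + -(2 + th) := by ring
    rw [e1, Real.rpow_add hp, Real.rpow_one]
  rw [e, kEta]
  ring

theorem circle_eta {g : ℂ → ℂ} (hg : Univ g) {th η : ℝ} (hη : 0 < η) {r : ℝ} (hr0 : 0 < r)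
    (hr1 : r < 1) :
    ∫ φ in (0 : ℝ)..2 * Real.pi,
        (zp r φ * deriv g (zp r φ) * (starRingEnd ℂ) (g (zp r φ))).re *
          (‖g (zp r φ)‖ ^ 2 + η) ^ (-(1 + th)) =
      ∫ ρ in (0 : ℝ)..r, ∫ φ in (0 : ℝ)..2 * Real.pi,
        2 * ρ * (‖deriv g (zp ρ φ)‖ ^ 2 * kEta η th (‖g (zp ρ φ)‖ ^ 2)) := by
  have h := stokes_disc hg.diff (k := fun m : ℝ => (m + η) ^ (-(1 + th)))
    (k' := fun m : ℝ => -(1 + th) * (m + η) ^ (-(2 + th)))
    (fun m hm => circle_hasDerivAt hη hm) (by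
      refine ContinuousOn.mul continuousOn_const ?_
      refine ContinuousOn.rpow_const (by fun_prop) fun m hm => Or.inl ?_
      have : (0 : ℝ) ≤ m := hm
      linarith) hr0 hr1
  simp only [circle_kEta hη (sq_nonneg _)] at h
  exact h

/-
PROOF.  Apply `stokes_disc` with `k m = (m + η)^{-1-θ}` (modify `k` for `m < 0` irrelevantly; for
`m ≥ 0` and `η > 0` it is differentiable), `k' m = -(1+θ) (m+η)^{-2-θ}`, so
`k + m k' = (η - θ m)(m+η)^{-2-θ} = kEta η θ m`; then `area_nonneg`; then let `η → 0+`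
(continuity under the integral sign: `g` does not vanish on the circle `|z| = r` since `g` is
injective with `g 0 = 0`, so `|g|^2 ≥ c > 0` there and the integrands converge uniformly or
dominatedly).
-/
theorem prawitz_circle {g : ℂ → ℂ} (hg : Univ g) (h0 : g 0 = 0)
    {th : ℝ} (hth : 0 < th) {r : ℝ} (hr0 : 0 < r) (hr1 : r < 1) :
    0 ≤ ∫ φ in (0 : ℝ)..2 * Real.pi,
        (zp r φ * deriv g (zp r φ) * (starRingEnd ℂ) (g (zp r φ))).re *
          (‖g (zp r φ)‖ ^ 2) ^ (-(1 + th)) := by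
  obtain ⟨η0, hη0, harea⟩ := area_nonneg hg h0 hth hr0 hr1
  have cz := circle_continuous_zp r
  have cg := circle_continuous_g hg.diff hr0 hr1
  have cd := circle_continuous_deriv hg.diff hr0 hr1
  have hpos : ∀ φ, 0 < ‖g (zp r φ)‖ ^ 2 := fun φ =>
    pow_pos (norm_pos_iff.2 (circle_ne_zero hg h0 hr0 hr1 φ)) 2
  have cre : Continuous (fun φ : ℝ =>
      (zp r φ * deriv g (zp r φ) * (starRingEnd ℂ) (g (zp r φ))).re) :=
    Complex.continuous_re.comp ((cz.mul cd).mul (Complex.continuous_conj.comp cg))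
  have cn : Continuous (fun φ : ℝ => ‖g (zp r φ)‖ ^ 2) := cg.norm.pow 2
  have cF : ∀ η : ℝ, 0 ≤ η → Continuous (fun φ : ℝ =>
      (zp r φ * deriv g (zp r φ) * (starRingEnd ℂ) (g (zp r φ))).re *
          (‖g (zp r φ)‖ ^ 2 + η) ^ (-(1 + th))) := by
    intro η hη
    refine cre.mul ((cn.add continuous_const).rpow_const fun φ => Or.inl ?_)
    have := hpos φ
    have h2 : ‖g (zp r φ)‖ ^ 2 + η ≠ 0 := by linarith
    exact h2
  have hlim : Filter.Tendsto (fun η : ℝ => ∫ φ in (0 : ℝ)..2 * Real.pi,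
      (zp r φ * deriv g (zp r φ) * (starRingEnd ℂ) (g (zp r φ))).re *
          (‖g (zp r φ)‖ ^ 2 + η) ^ (-(1 + th))) (nhdsWithin 0 (Ioi 0))
      (nhds (∫ φ in (0 : ℝ)..2 * Real.pi,
      (zp r φ * deriv g (zp r φ) * (starRingEnd ℂ) (g (zp r φ))).re *
          (‖g (zp r φ)‖ ^ 2 + 0) ^ (-(1 + th)))) := by
    refine intervalIntegral.tendsto_integral_filter_of_dominated_convergence
      (fun φ => |(zp r φ * deriv g (zp r φ) * (starRingEnd ℂ) (g (zp r φ))).re| *
        (‖g (zp r φ)‖ ^ 2 + 0) ^ (-(1 + th))) ?_ ?_ ?_ ?_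
    · filter_upwards [self_mem_nhdsWithin] with η hη
      exact (cF η (le_of_lt hη)).aestronglyMeasurable
    · filter_upwards [self_mem_nhdsWithin] with η hη
      filter_upwards with φ _
      have hη' : (0 : ℝ) < η := hη
      rw [Real.norm_eq_abs, abs_mul]
      refine mul_le_mul_of_nonneg_left ?_ (abs_nonneg _)
      rw [abs_of_nonneg (Real.rpow_nonneg (by have := hpos φ; linarith) _)]
      refine Real.rpow_le_rpow_of_nonpos (by have := hpos φ; linarith) (by linarith) (by linarith)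
    · refine Continuous.intervalIntegrable ?_ _ _
      refine cre.abs.mul ((cn.add continuous_const).rpow_const fun φ => Or.inl ?_)
      have := hpos φ
      have h2 : ‖g (zp r φ)‖ ^ 2 + 0 ≠ 0 := by linarith
      exact h2
    · filter_upwards with φ _
      refine Filter.Tendsto.const_mul _ ?_
      have hc : ContinuousAt (fun η : ℝ => (‖g (zp r φ)‖ ^ 2 + η) ^ (-(1 + th))) 0 := by
        refine ContinuousAt.rpow_const (by fun_prop) (Or.inl ?_)
        have := hpos φ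
        linarith
      exact hc.tendsto.mono_left nhdsWithin_le_nhds
  simp only [add_zero] at hlim
  refine ge_of_tendsto hlim ?_
  filter_upwards [Ioc_mem_nhdsGT hη0] with η hη
  rw [circle_eta hg hη.1 hr0 hr1]
  exact harea η hη.1 hη.2

end Vale.Agent.Lib.P142
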