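import Vale.Agent.Lib.P142.ChkSplitDefs

set_option maxRecDepth 100000

namespace Vale.Agent.Lib.P142.Chk

def d6a_F0 : List Term := [
  ⟨Int.ofNat 432276205941623, [], []⟩,
  ⟨Int.negSucc 1021750390597289, [2], []⟩,
  ⟨Int.ofNat 621474609121318, [], [2]⟩,
  ⟨Int.negSucc 259832276336548, [3], []⟩,
  ⟨Int.ofNat 219505753012377, [2, 2], []⟩,
  ⟨Int.ofNat 864537287580004, [2], [2]⟩,
  ⟨Int.ofNat 649239752771957, [], [3]⟩,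
  ⟨Int.negSucc 708054121653335, [], [2, 2]⟩,
  ⟨Int.negSucc 91905525647929, [4], []⟩,
  ⟨Int.negSucc 133300673911231, [2, 3], []⟩,
  ⟨Int.ofNat 11155176374838, [2, 2, 2], []⟩,
  ⟨Int.negSucc 374628420043062, [3], [2]⟩,
  ⟨Int.negSucc 122578562471236, [2, 2], [2]⟩,
  ⟨Int.negSucc 128462497058057, [2], [3]⟩,
  ⟨Int.ofNat 110018619543376, [2], [2, 2]⟩,
  ⟨Int.ofNat 55249559152238, [], [4]⟩,
  ⟨Int.negSucc 100122125457721, [], [2, 3]⟩,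
  ⟨Int.ofNat 82584948363267, [], [2, 2, 2]⟩,
  ⟨Int.ofNat 33377792614803, [5], []⟩,
  ⟨Int.ofNat 50155608148358, [3, 3], []⟩,
  ⟨Int.negSucc 27648100956158, [2, 4], []⟩,
  ⟨Int.negSucc 196735784898543, [2, 2, 3], []⟩,
  ⟨Int.ofNat 93858655069342, [2, 2, 2, 2], []⟩,
  ⟨Int.negSucc 120402899213590, [4], [2]⟩,
  ⟨Int.ofNat 141267269889611, [2, 3], [2]⟩,
  ⟨Int.ofNat 75052195096232, [2, 2, 2], [2]⟩,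
  ⟨Int.ofNat 211119825272914, [3], [3]⟩,
  ⟨Int.ofNat 337333466661487, [3], [2, 2]⟩,
  ⟨Int.negSucc 324611619456334, [2, 2], [3]⟩,
  ⟨Int.ofNat 107728625924467, [2, 2], [2, 2]⟩,
  ⟨Int.ofNat 236794873827565, [2], [4]⟩,
  ⟨Int.negSucc 285710889255359, [2], [2, 3]⟩,
  ⟨Int.negSucc 61163670376581, [2], [2, 2, 2]⟩,
  ⟨Int.negSucc 18473905119251, [], [5]⟩,
  ⟨Int.ofNat 146003794672176, [], [3, 3]⟩,
  ⟨Int.ofNat 145498864777974, [], [2, 4]⟩,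
  ⟨Int.negSucc 173473406067422, [], [2, 2, 3]⟩,
  ⟨Int.ofNat 370079148267, [], [2, 2, 2, 2]⟩,
  ⟨Int.negSucc 15439250498943, [6], []⟩,
  ⟨Int.negSucc 146117041657464, [3, 4], []⟩,
  ⟨Int.negSucc 164779325925355, [2, 5], []⟩,
  ⟨Int.ofNat 258536912357982, [2, 3, 3], []⟩,
  ⟨Int.ofNat 95248905116419, [2, 2, 4], []⟩,
  ⟨Int.negSucc 123473497632781, [2, 2, 2, 3], []⟩,
  ⟨Int.negSucc 15681637353853, [2, 2, 2, 2, 2], []⟩,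
  ⟨Int.ofNat 8538592110941, [5], [2]⟩,
  ⟨Int.ofNat 151682453068034, [3, 3], [2]⟩,
  ⟨Int.ofNat 198231307105962, [2, 4], [2]⟩,
  ⟨Int.negSucc 147214812670927, [2, 2, 3], [2]⟩,
  ⟨Int.negSucc 14091555470515, [2, 2, 2, 2], [2]⟩,
  ⟨Int.negSucc 317862895258666, [4], [3]⟩,
  ⟨Int.ofNat 39790059671370, [4], [2, 2]⟩,
  ⟨Int.ofNat 689369574869824, [2, 3], [3]⟩,
  ⟨Int.negSucc 512837448726802, [2, 3], [2, 2]⟩,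
  ⟨Int.negSucc 255080359910470, [2, 2, 2], [3]⟩,
  ⟨Int.ofNat 277126889085880, [2, 2, 2], [2, 2]⟩,
  ⟨Int.negSucc 267794121097158, [3], [4]⟩,
  ⟨Int.ofNat 344380511957207, [3], [2, 3]⟩,
  ⟨Int.negSucc 208994804684424, [3], [2, 2, 2]⟩,
  ⟨Int.ofNat 97123596599785, [2, 2], [4]⟩,
  ⟨Int.negSucc 32136490616729, [2, 2], [2, 3]⟩,
  ⟨Int.negSucc 21222207793153, [2, 2], [2, 2, 2]⟩,
  ⟨Int.negSucc 27632719150557, [2], [5]⟩,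
  ⟨Int.ofNat 109637293776636, [2], [3, 3]⟩,
  ⟨Int.negSucc 333109481013160, [2], [2, 4]⟩,
  ⟨Int.negSucc 4590109140045, [2], [2, 2, 3]⟩,
  ⟨Int.ofNat 146035272668769, [2], [2, 2, 2, 2]⟩,
  ⟨Int.negSucc 56055066794958, [], [6]⟩,
  ⟨Int.negSucc 105225738410457, [], [3, 4]⟩,
  ⟨Int.ofNat 100101390794496, [], [2, 5]⟩,
  ⟨Int.ofNat 140892926257868, [], [2, 3, 3]⟩,
  ⟨Int.ofNat 18949922503635, [], [2, 2, 4]⟩,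
  ⟨Int.negSucc 145673160965202, [], [2, 2, 2, 3]⟩,
  ⟨Int.ofNat 51274280934779, [], [2, 2, 2, 2, 2]⟩,
  ⟨Int.ofNat 89655192933030, [4, 4], []⟩,
  ⟨Int.ofNat 123012018661116, [3, 5], []⟩,
  ⟨Int.negSucc 138649814437366, [3, 3, 3], []⟩,
  ⟨Int.ofNat 41494078274911, [2, 6], []⟩,
  ⟨Int.negSucc 268900004523311, [2, 3, 4], []⟩,
  ⟨Int.negSucc 30311946625137, [2, 2, 5], []⟩,
  ⟨Int.ofNat 207015476846596, [2, 2, 3, 3], []⟩,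
  ⟨Int.ofNat 100934519656193, [2, 2, 2, 4], []⟩,
  ⟨Int.negSucc 78691193093409, [2, 2, 2, 2, 3], []⟩,
  ⟨Int.ofNat 18134204366565, [2, 2, 2, 2, 2, 2], []⟩,
  ⟨Int.negSucc 1819834881185, [6], [2]⟩,
  ⟨Int.negSucc 75981896698420, [3, 4], [2]⟩,
  ⟨Int.negSucc 40881684774216, [2, 5], [2]⟩,
  ⟨Int.ofNat 77708838705699, [2, 3, 3], [2]⟩,
  ⟨Int.ofNat 9667442721163, [2, 2, 4], [2]⟩,
  ⟨Int.negSucc 57938191059529, [2, 2, 2, 3], [2]⟩,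
  ⟨Int.ofNat 42214289631782, [2, 2, 2, 2, 2], [2]⟩,
  ⟨Int.negSucc 103430111560427, [5], [3]⟩,
  ⟨Int.ofNat 23496966686023, [5], [2, 2]⟩,
  ⟨Int.negSucc 67009454677003, [3, 3], [3]⟩,
  ⟨Int.negSucc 64296680880629, [3, 3], [2, 2]⟩,
  ⟨Int.negSucc 156381377395209, [2, 4], [3]⟩,
  ⟨Int.ofNat 156174636772939, [2, 4], [2, 2]⟩,
  ⟨Int.ofNat 263733717424144, [2, 2, 3], [3]⟩,
  ⟨Int.negSucc 176593495434574, [2, 2, 3], [2, 2]⟩,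
  ⟨Int.negSucc 146739897799842, [2, 2, 2, 2], [3]⟩]

def d6a_F1 : List Term := [
  ⟨Int.ofNat 130185890240442, [2, 2, 2, 2], [2, 2]⟩,
  ⟨Int.ofNat 204073716186, [4], [4]⟩,
  ⟨Int.ofNat 140698571189829, [4], [2, 3]⟩,
  ⟨Int.negSucc 17482667040262, [4], [2, 2, 2]⟩,
  ⟨Int.ofNat 336094871843806, [2, 3], [4]⟩,
  ⟨Int.negSucc 1060494124425075, [2, 3], [2, 3]⟩,
  ⟨Int.ofNat 656521560063109, [2, 3], [2, 2, 2]⟩,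
  ⟨Int.negSucc 273279022147572, [2, 2, 2], [4]⟩,
  ⟨Int.ofNat 753991809187137, [2, 2, 2], [2, 3]⟩,
  ⟨Int.negSucc 438468440310531, [2, 2, 2], [2, 2, 2]⟩,
  ⟨Int.ofNat 481470079438282, [3], [5]⟩,
  ⟨Int.negSucc 939131841304484, [3], [3, 3]⟩,
  ⟨Int.negSucc 253599590427647, [3], [2, 4]⟩,
  ⟨Int.ofNat 982193522531606, [3], [2, 2, 3]⟩,
  ⟨Int.negSucc 246493855006222, [3], [2, 2, 2, 2]⟩,
  ⟨Int.negSucc 143540163507668, [2, 2], [5]⟩,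
  ⟨Int.ofNat 564751991035366, [2, 2], [3, 3]⟩,
  ⟨Int.ofNat 121666039105363, [2, 2], [2, 4]⟩,
  ⟨Int.negSucc 738897500492576, [2, 2], [2, 2, 3]⟩,
  ⟨Int.ofNat 254263863450819, [2, 2], [2, 2, 2, 2]⟩,
  ⟨Int.ofNat 44839648989460, [2], [6]⟩,
  ⟨Int.negSucc 287569377183654, [2], [3, 4]⟩,
  ⟨Int.negSucc 46342806059693, [2], [2, 5]⟩,
  ⟨Int.ofNat 192868524592991, [2], [2, 3, 3]⟩,
  ⟨Int.ofNat 323942946711269, [2], [2, 2, 4]⟩,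
  ⟨Int.negSucc 294403041731771, [2], [2, 2, 2, 3]⟩,
  ⟨Int.ofNat 21110293906278, [2], [2, 2, 2, 2, 2]⟩,
  ⟨Int.ofNat 6188791196722, [], [7]⟩,
  ⟨Int.ofNat 104214769144250, [], [4, 4]⟩,
  ⟨Int.ofNat 79454358862162, [], [3, 5]⟩,
  ⟨Int.negSucc 135622232404303, [], [3, 3, 3]⟩,
  ⟨Int.ofNat 89412073751725, [], [2, 6]⟩,
  ⟨Int.negSucc 289983042822046, [], [2, 3, 4]⟩,
  ⟨Int.negSucc 131598438553293, [], [2, 2, 5]⟩,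
  ⟨Int.ofNat 312207257825801, [], [2, 2, 3, 3]⟩,
  ⟨Int.ofNat 95928225963162, [], [2, 2, 2, 4]⟩,
  ⟨Int.negSucc 85533002910204, [], [2, 2, 2, 2, 3]⟩,
  ⟨Int.negSucc 9341635649355, [], [2, 2, 2, 2, 2, 2]⟩,
  ⟨Int.negSucc 31774026968800, [4, 5], []⟩,
  ⟨Int.negSucc 27795485336420, [3, 6], []⟩,
  ⟨Int.ofNat 201801480203055, [3, 3, 4], []⟩,
  ⟨Int.ofNat 3781147930842, [2, 4, 4], []⟩,
  ⟨Int.ofNat 3711488611115, [2, 3, 5], []⟩,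
  ⟨Int.negSucc 83709813772420, [2, 3, 3, 3], []⟩,
  ⟨Int.ofNat 1827040958744, [2, 2, 6], []⟩,
  ⟨Int.negSucc 111241000666933, [2, 2, 3, 4], []⟩,
  ⟨Int.negSucc 3779608965912, [2, 2, 2, 5], []⟩,
  ⟨Int.ofNat 75749456796229, [2, 2, 2, 3, 3], []⟩,
  ⟨Int.negSucc 9537822783684, [2, 2, 2, 2, 4], []⟩,
  ⟨Int.negSucc 9878325451493, [2, 2, 2, 2, 2, 3], []⟩,
  ⟨Int.negSucc 2991639498176, [2, 2, 2, 2, 2, 2, 2], []⟩,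
  ⟨Int.ofNat 13218684157705, [4, 4], [2]⟩,
  ⟨Int.ofNat 88323328664389, [3, 5], [2]⟩,
  ⟨Int.negSucc 122977117071255, [3, 3, 3], [2]⟩,
  ⟨Int.negSucc 23683233119658, [2, 6], [2]⟩,
  ⟨Int.negSucc 17286364758431, [2, 3, 4], [2]⟩,
  ⟨Int.ofNat 36250766856966, [2, 2, 5], [2]⟩,
  ⟨Int.ofNat 131730022220453, [2, 2, 3, 3], [2]⟩,
  ⟨Int.ofNat 45790903336865, [2, 2, 2, 4], [2]⟩,
  ⟨Int.negSucc 63046944412722, [2, 2, 2, 2, 3], [2]⟩,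
  ⟨Int.negSucc 6779360110311, [2, 2, 2, 2, 2, 2], [2]⟩,
  ⟨Int.negSucc 25584279670094, [6], [3]⟩,
  ⟨Int.ofNat 18592305736392, [6], [2, 2]⟩,
  ⟨Int.ofNat 201112328081932, [3, 4], [3]⟩,
  ⟨Int.negSucc 157100157862141, [3, 4], [2, 2]⟩,
  ⟨Int.ofNat 198645130129300, [2, 5], [3]⟩,
  ⟨Int.negSucc 33441355170224, [2, 5], [2, 2]⟩,
  ⟨Int.negSucc 336978102041612, [2, 3, 3], [3]⟩,
  ⟨Int.ofNat 216380116382261, [2, 3, 3], [2, 2]⟩,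
  ⟨Int.negSucc 56582663742106, [2, 2, 4], [3]⟩,
  ⟨Int.ofNat 42697345077246, [2, 2, 4], [2, 2]⟩,
  ⟨Int.ofNat 170143544816472, [2, 2, 2, 3], [3]⟩,
  ⟨Int.negSucc 179847502935820, [2, 2, 2, 3], [2, 2]⟩,
  ⟨Int.negSucc 24619826756204, [2, 2, 2, 2, 2], [3]⟩,
  ⟨Int.ofNat 22529769743126, [2, 2, 2, 2, 2], [2, 2]⟩,
  ⟨Int.negSucc 137381841334772, [5], [4]⟩,
  ⟨Int.ofNat 189185248723469, [5], [2, 3]⟩,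
  ⟨Int.negSucc 64229615930234, [5], [2, 2, 2]⟩,
  ⟨Int.ofNat 181585309750742, [3, 3], [4]⟩,
  ⟨Int.negSucc 171588108884875, [3, 3], [2, 3]⟩,
  ⟨Int.ofNat 29384433342007, [3, 3], [2, 2, 2]⟩,
  ⟨Int.ofNat 349070465330972, [2, 4], [4]⟩,
  ⟨Int.negSucc 457076326205918, [2, 4], [2, 3]⟩,
  ⟨Int.ofNat 245185694578683, [2, 4], [2, 2, 2]⟩,
  ⟨Int.negSucc 571469640845852, [2, 2, 3], [4]⟩,
  ⟨Int.ofNat 827829221717971, [2, 2, 3], [2, 3]⟩,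
  ⟨Int.negSucc 435166130475450, [2, 2, 3], [2, 2, 2]⟩,
  ⟨Int.ofNat 220273740501201, [2, 2, 2, 2], [4]⟩,
  ⟨Int.negSucc 393005851103368, [2, 2, 2, 2], [2, 3]⟩,
  ⟨Int.ofNat 186450885344466, [2, 2, 2, 2], [2, 2, 2]⟩,
  ⟨Int.negSucc 280887643202409, [4], [5]⟩,
  ⟨Int.ofNat 420988351109609, [4], [3, 3]⟩,
  ⟨Int.ofNat 169779725716355, [4], [2, 4]⟩,
  ⟨Int.negSucc 398033149967066, [4], [2, 2, 3]⟩,
  ⟨Int.ofNat 81655090546505, [4], [2, 2, 2, 2]⟩,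
  ⟨Int.ofNat 417669708205735, [2, 3], [5]⟩,
  ⟨Int.negSucc 564189839039105, [2, 3], [3, 3]⟩,
  ⟨Int.negSucc 351364396999820, [2, 3], [2, 4]⟩,
  ⟨Int.ofNat 770770929051842, [2, 3], [2, 2, 3]⟩,
  ⟨Int.negSucc 231086524657123, [2, 3], [2, 2, 2, 2]⟩]

def d6a_F2 : List Term := [
  ⟨Int.negSucc 196944528174726, [2, 2, 2], [5]⟩,
  ⟨Int.ofNat 183356730327773, [2, 2, 2], [3, 3]⟩,
  ⟨Int.ofNat 182449608607098, [2, 2, 2], [2, 4]⟩,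
  ⟨Int.negSucc 335123454173155, [2, 2, 2], [2, 2, 3]⟩,
  ⟨Int.ofNat 120013580025642, [2, 2, 2], [2, 2, 2, 2]⟩,
  ⟨Int.negSucc 40232848815892, [3], [6]⟩,
  ⟨Int.ofNat 536120184650208, [3], [3, 4]⟩,
  ⟨Int.negSucc 78841797459434, [3], [2, 5]⟩,
  ⟨Int.negSucc 295426870414748, [3], [2, 3, 3]⟩,
  ⟨Int.negSucc 436555967553938, [3], [2, 2, 4]⟩,
  ⟨Int.ofNat 567149696970553, [3], [2, 2, 2, 3]⟩,
  ⟨Int.negSucc 201998683678003, [3], [2, 2, 2, 2, 2]⟩,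
  ⟨Int.ofNat 27230899312714, [2, 2], [6]⟩,
  ⟨Int.negSucc 265585434957765, [2, 2], [3, 4]⟩,
  ⟨Int.ofNat 8177042443345, [2, 2], [2, 5]⟩,
  ⟨Int.ofNat 175366197451352, [2, 2], [2, 3, 3]⟩,
  ⟨Int.ofNat 357003805622262, [2, 2], [2, 2, 4]⟩,
  ⟨Int.negSucc 445338964933220, [2, 2], [2, 2, 2, 3]⟩,
  ⟨Int.ofNat 174373113356794, [2, 2], [2, 2, 2, 2, 2]⟩,
  ⟨Int.ofNat 9481739212586, [2], [7]⟩,
  ⟨Int.ofNat 44953158672579, [2], [4, 4]⟩,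
  ⟨Int.ofNat 148653579111278, [2], [3, 5]⟩,
  ⟨Int.negSucc 78696955890692, [2], [3, 3, 3]⟩,
  ⟨Int.negSucc 24846309137281, [2], [2, 6]⟩,
  ⟨Int.negSucc 149585298281867, [2], [2, 3, 4]⟩,
  ⟨Int.negSucc 126258940398904, [2], [2, 2, 5]⟩,
  ⟨Int.ofNat 237469131043290, [2], [2, 2, 3, 3]⟩,
  ⟨Int.ofNat 65726567377553, [2], [2, 2, 2, 4]⟩,
  ⟨Int.negSucc 178431932536563, [2], [2, 2, 2, 2, 3]⟩,
  ⟨Int.ofNat 49205220838523, [2], [2, 2, 2, 2, 2, 2]⟩,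
  ⟨Int.negSucc 99220241214599, [], [4, 5]⟩,
  ⟨Int.negSucc 99650453406088, [], [3, 6]⟩,
  ⟨Int.ofNat 287482584943462, [], [3, 3, 4]⟩,
  ⟨Int.negSucc 23420014291379, [], [2, 7]⟩,
  ⟨Int.ofNat 66691990462328, [], [2, 4, 4]⟩,
  ⟨Int.ofNat 129419637475568, [], [2, 3, 5]⟩,
  ⟨Int.negSucc 174639277452973, [], [2, 3, 3, 3]⟩,
  ⟨Int.ofNat 35308094290958, [], [2, 2, 6]⟩,
  ⟨Int.negSucc 357345333438932, [], [2, 2, 3, 4]⟩,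
  ⟨Int.negSucc 29273537335062, [], [2, 2, 2, 5]⟩,
  ⟨Int.ofNat 223114043152944, [], [2, 2, 2, 3, 3]⟩,
  ⟨Int.ofNat 102623254393832, [], [2, 2, 2, 2, 4]⟩,
  ⟨Int.negSucc 110703124089910, [], [2, 2, 2, 2, 2, 3]⟩,
  ⟨Int.ofNat 23285946094156, [], [2, 2, 2, 2, 2, 2, 2]⟩,
  ⟨Int.ofNat 25417296736496, [5, 5], []⟩,
  ⟨Int.ofNat 17049964833499, [4, 6], []⟩,
  ⟨Int.ofNat 4837905747204, [3, 4, 4], []⟩,
  ⟨Int.negSucc 29818856735106, [3, 3, 5], []⟩,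
  ⟨Int.ofNat 32500940969270, [3, 3, 3, 3], []⟩,
  ⟨Int.negSucc 61261966558047, [2, 4, 5], []⟩,
  ⟨Int.ofNat 844348829198, [2, 3, 6], []⟩,
  ⟨Int.negSucc 2263215684243, [2, 3, 3, 4], []⟩,
  ⟨Int.ofNat 42589964348371, [2, 2, 4, 4], []⟩,
  ⟨Int.ofNat 41250999160676, [2, 2, 3, 5], []⟩,
  ⟨Int.negSucc 40208904810048, [2, 2, 3, 3, 3], []⟩,
  ⟨Int.negSucc 5498016614128, [2, 2, 2, 6], []⟩,
  ⟨Int.negSucc 43225556824818, [2, 2, 2, 3, 4], []⟩,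
  ⟨Int.negSucc 2977773890458, [2, 2, 2, 2, 5], []⟩,
  ⟨Int.ofNat 5435590799474, [2, 2, 2, 2, 3, 3], []⟩,
  ⟨Int.ofNat 15117116426078, [2, 2, 2, 2, 2, 4], []⟩,
  ⟨Int.ofNat 6319970784552, [2, 2, 2, 2, 2, 2, 3], []⟩,
  ⟨Int.negSucc 1166880894210, [2, 2, 2, 2, 2, 2, 2, 2], []⟩,
  ⟨Int.negSucc 54585391388347, [4, 5], [2]⟩,
  ⟨Int.negSucc 11056234485343, [3, 6], [2]⟩,
  ⟨Int.ofNat 47543750936383, [3, 3, 4], [2]⟩,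
  ⟨Int.ofNat 40432911096851, [2, 4, 4], [2]⟩,
  ⟨Int.ofNat 5500007233479, [2, 3, 5], [2]⟩,
  ⟨Int.negSucc 43451612685090, [2, 3, 3, 3], [2]⟩,
  ⟨Int.ofNat 15331408901861, [2, 2, 6], [2]⟩,
  ⟨Int.negSucc 79143229771970, [2, 2, 3, 4], [2]⟩,
  ⟨Int.negSucc 11138971836563, [2, 2, 2, 5], [2]⟩,
  ⟨Int.ofNat 63284272823352, [2, 2, 2, 3, 3], [2]⟩,
  ⟨Int.ofNat 31739523959684, [2, 2, 2, 2, 4], [2]⟩,
  ⟨Int.negSucc 29396384534891, [2, 2, 2, 2, 2, 3], [2]⟩,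
  ⟨Int.ofNat 5106882479558, [2, 2, 2, 2, 2, 2, 2], [2]⟩,
  ⟨Int.ofNat 2962601372627, [4, 4], [3]⟩,
  ⟨Int.ofNat 16647211345746, [4, 4], [2, 2]⟩,
  ⟨Int.negSucc 52647398818379, [3, 5], [3]⟩,
  ⟨Int.negSucc 25913030070349, [3, 5], [2, 2]⟩,
  ⟨Int.ofNat 162736053945357, [3, 3, 3], [3]⟩,
  ⟨Int.negSucc 53073185995745, [3, 3, 3], [2, 2]⟩,
  ⟨Int.ofNat 172204055359, [2, 6], [3]⟩,
  ⟨Int.ofNat 3212637452180, [2, 6], [2, 2]⟩,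
  ⟨Int.ofNat 26693469215382, [2, 3, 4], [3]⟩,
  ⟨Int.negSucc 22981040937460, [2, 3, 4], [2, 2]⟩,
  ⟨Int.ofNat 10306726010439, [2, 2, 5], [3]⟩,
  ⟨Int.negSucc 62340583252185, [2, 2, 5], [2, 2]⟩,
  ⟨Int.negSucc 97932196178742, [2, 2, 3, 3], [3]⟩,
  ⟨Int.ofNat 73683956232866, [2, 2, 3, 3], [2, 2]⟩,
  ⟨Int.negSucc 121644762140690, [2, 2, 2, 4], [3]⟩,
  ⟨Int.ofNat 77463313526840, [2, 2, 2, 4], [2, 2]⟩,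
  ⟨Int.ofNat 77385840311550, [2, 2, 2, 2, 3], [3]⟩,
  ⟨Int.negSucc 61153140389378, [2, 2, 2, 2, 3], [2, 2]⟩,
  ⟨Int.negSucc 4346206533184, [2, 2, 2, 2, 2, 2], [3]⟩,
  ⟨Int.ofNat 5620300265969, [2, 2, 2, 2, 2, 2], [2, 2]⟩,
  ⟨Int.ofNat 24126772466505, [6], [4]⟩,
  ⟨Int.negSucc 23465801605962, [6], [2, 3]⟩,
  ⟨Int.negSucc 1483312883182, [6], [2, 2, 2]⟩,
  ⟨Int.negSucc 2505771826389, [3, 4], [4]⟩,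
  ⟨Int.negSucc 77957387195128, [3, 4], [2, 3]⟩]

def d6a_F3 : List Term := [
  ⟨Int.ofNat 22367621284387, [3, 4], [2, 2, 2]⟩,
  ⟨Int.ofNat 44333346828588, [2, 5], [4]⟩,
  ⟨Int.negSucc 38325629014137, [2, 5], [2, 3]⟩,
  ⟨Int.ofNat 26089602288389, [2, 5], [2, 2, 2]⟩,
  ⟨Int.negSucc 74072343997621, [2, 3, 3], [4]⟩,
  ⟨Int.ofNat 216428138124008, [2, 3, 3], [2, 3]⟩,
  ⟨Int.negSucc 52469943503319, [2, 3, 3], [2, 2, 2]⟩,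
  ⟨Int.ofNat 190786047642907, [2, 2, 4], [4]⟩,
  ⟨Int.negSucc 229411304888618, [2, 2, 4], [2, 3]⟩,
  ⟨Int.ofNat 81030103394758, [2, 2, 4], [2, 2, 2]⟩,
  ⟨Int.negSucc 278334460213477, [2, 2, 2, 3], [4]⟩,
  ⟨Int.ofNat 325786602539484, [2, 2, 2, 3], [2, 3]⟩,
  ⟨Int.negSucc 137621263607575, [2, 2, 2, 3], [2, 2, 2]⟩,
  ⟨Int.ofNat 100742463148426, [2, 2, 2, 2, 2], [4]⟩,
  ⟨Int.negSucc 139455486589778, [2, 2, 2, 2, 2], [2, 3]⟩,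
  ⟨Int.ofNat 72497578485304, [2, 2, 2, 2, 2], [2, 2, 2]⟩,
  ⟨Int.negSucc 107290702465499, [5], [5]⟩,
  ⟨Int.ofNat 24494472464644, [5], [3, 3]⟩,
  ⟨Int.ofNat 157499417051022, [5], [2, 4]⟩,
  ⟨Int.negSucc 200275044091861, [5], [2, 2, 3]⟩,
  ⟨Int.ofNat 59542711259768, [5], [2, 2, 2, 2]⟩,
  ⟨Int.negSucc 95734549206488, [3, 3], [5]⟩,
  ⟨Int.ofNat 267915695001276, [3, 3], [3, 3]⟩,
  ⟨Int.ofNat 25786611214438, [3, 3], [2, 4]⟩,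
  ⟨Int.negSucc 274213898715514, [3, 3], [2, 2, 3]⟩,
  ⟨Int.ofNat 97942223831265, [3, 3], [2, 2, 2, 2]⟩,
  ⟨Int.ofNat 713271334615739, [2, 4], [5]⟩,
  ⟨Int.negSucc 727650619980411, [2, 4], [3, 3]⟩,
  ⟨Int.negSucc 1683226607875465, [2, 4], [2, 4]⟩,
  ⟨Int.ofNat 2518357303731803, [2, 4], [2, 2, 3]⟩,
  ⟨Int.negSucc 912041290466390, [2, 4], [2, 2, 2, 2]⟩,
  ⟨Int.negSucc 789694806213946, [2, 2, 3], [5]⟩,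
  ⟨Int.ofNat 923153637621730, [2, 2, 3], [3, 3]⟩,
  ⟨Int.ofNat 2215511214257232, [2, 2, 3], [2, 4]⟩,
  ⟨Int.negSucc 3545535712770452, [2, 2, 3], [2, 2, 3]⟩,
  ⟨Int.ofNat 1300919275951793, [2, 2, 3], [2, 2, 2, 2]⟩,
  ⟨Int.ofNat 328314653718853, [2, 2, 2, 2], [5]⟩,
  ⟨Int.negSucc 485511442870976, [2, 2, 2, 2], [3, 3]⟩,
  ⟨Int.negSucc 857435259870520, [2, 2, 2, 2], [2, 4]⟩,
  ⟨Int.ofNat 1563010571842570, [2, 2, 2, 2], [2, 2, 3]⟩,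
  ⟨Int.negSucc 576048356821883, [2, 2, 2, 2], [2, 2, 2, 2]⟩,
  ⟨Int.ofNat 264852834573000, [4], [6]⟩,
  ⟨Int.negSucc 777213933667364, [4], [3, 4]⟩,
  ⟨Int.negSucc 295872498793033, [4], [2, 5]⟩,
  ⟨Int.ofNat 842389802982449, [4], [2, 3, 3]⟩,
  ⟨Int.ofNat 729626185573545, [4], [2, 2, 4]⟩,
  ⟨Int.negSucc 1017230007319820, [4], [2, 2, 2, 3]⟩,
  ⟨Int.ofNat 253614530152428, [4], [2, 2, 2, 2, 2]⟩,
  ⟨Int.negSucc 329518134088415, [2, 3], [6]⟩,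
  ⟨Int.ofNat 1098529545229951, [2, 3], [3, 4]⟩,
  ⟨Int.ofNat 388427899454069, [2, 3], [2, 5]⟩,
  ⟨Int.negSucc 1369083834138695, [2, 3], [2, 3, 3]⟩,
  ⟨Int.negSucc 1161434610178614, [2, 3], [2, 2, 4]⟩,
  ⟨Int.ofNat 1913767024988824, [2, 3], [2, 2, 2, 3]⟩,
  ⟨Int.negSucc 577674572600862, [2, 3], [2, 2, 2, 2, 2]⟩,
  ⟨Int.ofNat 101683938863193, [2, 2, 2], [6]⟩,
  ⟨Int.negSucc 406127093258135, [2, 2, 2], [3, 4]⟩,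
  ⟨Int.negSucc 215509241099487, [2, 2, 2], [2, 5]⟩,
  ⟨Int.ofNat 643688827012850, [2, 2, 2], [2, 3, 3]⟩,
  ⟨Int.ofNat 613538255872695, [2, 2, 2], [2, 2, 4]⟩,
  ⟨Int.negSucc 1052998435975270, [2, 2, 2], [2, 2, 2, 3]⟩,
  ⟨Int.ofNat 317742350154794, [2, 2, 2], [2, 2, 2, 2, 2]⟩,
  ⟨Int.ofNat 8452628075628, [3], [7]⟩,
  ⟨Int.negSucc 111069544897673, [3], [4, 4]⟩,
  ⟨Int.negSucc 223353840678537, [3], [3, 5]⟩,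
  ⟨Int.ofNat 261561050592940, [3], [3, 3, 3]⟩,
  ⟨Int.negSucc 52931808564032, [3], [2, 6]⟩,
  ⟨Int.ofNat 310784162884049, [3], [2, 3, 4]⟩,
  ⟨Int.ofNat 250141717045173, [3], [2, 2, 5]⟩,
  ⟨Int.negSucc 597565015953530, [3], [2, 2, 3, 3]⟩,
  ⟨Int.negSucc 154350078060359, [3], [2, 2, 2, 4]⟩,
  ⟨Int.ofNat 302957516400334, [3], [2, 2, 2, 2, 3]⟩,
  ⟨Int.negSucc 30077467433441, [3], [2, 2, 2, 2, 2, 2]⟩,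
  ⟨Int.negSucc 9629003678160, [2, 2], [7]⟩,
  ⟨Int.ofNat 68804135017045, [2, 2], [4, 4]⟩,
  ⟨Int.ofNat 192913676735714, [2, 2], [3, 5]⟩,
  ⟨Int.negSucc 203905320143886, [2, 2], [3, 3, 3]⟩,
  ⟨Int.ofNat 18520147520645, [2, 2], [2, 6]⟩,
  ⟨Int.negSucc 262068537547840, [2, 2], [2, 3, 4]⟩,
  ⟨Int.negSucc 191095436023939, [2, 2], [2, 2, 5]⟩,
  ⟨Int.ofNat 506868645376149, [2, 2], [2, 2, 3, 3]⟩,
  ⟨Int.ofNat 170995599135436, [2, 2], [2, 2, 2, 4]⟩,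
  ⟨Int.negSucc 302704238550986, [2, 2], [2, 2, 2, 2, 3]⟩,
  ⟨Int.ofNat 47874563657275, [2, 2], [2, 2, 2, 2, 2, 2]⟩,
  ⟨Int.negSucc 55023470081160, [2], [4, 5]⟩,
  ⟨Int.negSucc 79263378090493, [2], [3, 6]⟩,
  ⟨Int.ofNat 213634818243952, [2], [3, 3, 4]⟩,
  ⟨Int.ofNat 5671158991844, [2], [2, 7]⟩,
  ⟨Int.ofNat 16294595764544, [2], [2, 4, 4]⟩,
  ⟨Int.negSucc 18873325147266, [2], [2, 3, 5]⟩,
  ⟨Int.negSucc 166726525822690, [2], [2, 3, 3, 3]⟩,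
  ⟨Int.ofNat 40921863082162, [2], [2, 2, 6]⟩,
  ⟨Int.negSucc 248139476372922, [2], [2, 2, 3, 4]⟩,
  ⟨Int.ofNat 39184179616270, [2], [2, 2, 2, 5]⟩,
  ⟨Int.ofNat 207231361072525, [2], [2, 2, 2, 3, 3]⟩,
  ⟨Int.ofNat 75189591024588, [2], [2, 2, 2, 2, 4]⟩,
  ⟨Int.negSucc 73849137734740, [2], [2, 2, 2, 2, 2, 3]⟩,
  ⟨Int.negSucc 2679466081853, [2], [2, 2, 2, 2, 2, 2, 2]⟩,
  ⟨Int.ofNat 21875136526498, [], [5, 5]⟩,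
  ⟨Int.ofNat 57613567455953, [], [4, 6]⟩]

def d6a_F4 : List Term := [
  ⟨Int.ofNat 7502963042496, [], [3, 7]⟩,
  ⟨Int.negSucc 155858033430628, [], [3, 4, 4]⟩,
  ⟨Int.negSucc 85996990552668, [], [3, 3, 5]⟩,
  ⟨Int.ofNat 42659589511168, [], [3, 3, 3, 3]⟩,
  ⟨Int.negSucc 52707172428775, [], [2, 4, 5]⟩,
  ⟨Int.negSucc 12412838944739, [], [2, 3, 6]⟩,
  ⟨Int.ofNat 226920303196275, [], [2, 3, 3, 4]⟩,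
  ⟨Int.ofNat 1664160278303, [], [2, 2, 7]⟩,
  ⟨Int.ofNat 68076719184235, [], [2, 2, 4, 4]⟩,
  ⟨Int.ofNat 63661047719772, [], [2, 2, 3, 5]⟩,
  ⟨Int.negSucc 112259247332762, [], [2, 2, 3, 3, 3]⟩,
  ⟨Int.negSucc 3560422961756, [], [2, 2, 2, 6]⟩,
  ⟨Int.negSucc 105188833907425, [], [2, 2, 2, 3, 4]⟩,
  ⟨Int.negSucc 9367149337316, [], [2, 2, 2, 2, 5]⟩,
  ⟨Int.ofNat 54571718042184, [], [2, 2, 2, 2, 3, 3]⟩,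
  ⟨Int.negSucc 7521377797331, [], [2, 2, 2, 2, 2, 4]⟩,
  ⟨Int.ofNat 6298976895003, [], [2, 2, 2, 2, 2, 2, 3]⟩,
  ⟨Int.negSucc 4011420030942, [], [2, 2, 2, 2, 2, 2, 2, 2]⟩,
  ⟨Int.ofNat 2721659608922, [5, 6], []⟩,
  ⟨Int.negSucc 333347671703, [4, 4, 4], []⟩,
  ⟨Int.ofNat 20098087749687, [3, 4, 5], []⟩,
  ⟨Int.ofNat 2408456362607, [3, 3, 6], []⟩,
  ⟨Int.negSucc 8068512377585, [3, 3, 3, 4], []⟩,
  ⟨Int.negSucc 2303734152183, [2, 5, 5], []⟩,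
  ⟨Int.negSucc 5617486284418, [2, 4, 6], []⟩,
  ⟨Int.negSucc 13991530320015, [2, 3, 4, 4], []⟩,
  ⟨Int.negSucc 27269105193317, [2, 3, 3, 5], []⟩,
  ⟨Int.ofNat 4092602083556, [2, 3, 3, 3, 3], []⟩,
  ⟨Int.negSucc 10842953257241, [2, 2, 4, 5], []⟩,
  ⟨Int.ofNat 2168143364154, [2, 2, 3, 6], []⟩,
  ⟨Int.ofNat 23200620999149, [2, 2, 3, 3, 4], []⟩,
  ⟨Int.ofNat 12369306385304, [2, 2, 2, 4, 4], []⟩,
  ⟨Int.ofNat 10766431484268, [2, 2, 2, 3, 5], []⟩,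
  ⟨Int.negSucc 3282131335201, [2, 2, 2, 3, 3, 3], []⟩,
  ⟨Int.negSucc 533684702115, [2, 2, 2, 2, 6], []⟩,
  ⟨Int.negSucc 10758795973852, [2, 2, 2, 2, 3, 4], []⟩,
  ⟨Int.ofNat 2603889135892, [2, 2, 2, 2, 2, 5], []⟩,
  ⟨Int.ofNat 2711968890266, [2, 2, 2, 2, 2, 3, 3], []⟩,
  ⟨Int.negSucc 3807556240204, [2, 2, 2, 2, 2, 2, 4], []⟩,
  ⟨Int.ofNat 837007596831, [2, 2, 2, 2, 2, 2, 2, 3], []⟩,
  ⟨Int.negSucc 508090144404, [2, 2, 2, 2, 2, 2, 2, 2, 2], []⟩,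
  ⟨Int.negSucc 11395495223994, [5, 5], [2]⟩,
  ⟨Int.ofNat 3833611926712, [4, 6], [2]⟩,
  ⟨Int.negSucc 11867085151514, [3, 4, 4], [2]⟩,
  ⟨Int.negSucc 6226872085221, [3, 3, 5], [2]⟩,
  ⟨Int.ofNat 6515913620295, [3, 3, 3, 3], [2]⟩,
  ⟨Int.ofNat 18999496519918, [2, 4, 5], [2]⟩,
  ⟨Int.negSucc 4358368601871, [2, 3, 6], [2]⟩,
  ⟨Int.ofNat 11416374489744, [2, 3, 3, 4], [2]⟩,
  ⟨Int.ofNat 8920236228997, [2, 2, 4, 4], [2]⟩,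
  ⟨Int.ofNat 17006768754395, [2, 2, 3, 5], [2]⟩,
  ⟨Int.negSucc 24422875997068, [2, 2, 3, 3, 3], [2]⟩,
  ⟨Int.ofNat 1751940467787, [2, 2, 2, 6], [2]⟩,
  ⟨Int.negSucc 30344601183331, [2, 2, 2, 3, 4], [2]⟩,
  ⟨Int.ofNat 3905366664912, [2, 2, 2, 2, 5], [2]⟩,
  ⟨Int.ofNat 28336269267069, [2, 2, 2, 2, 3, 3], [2]⟩,
  ⟨Int.ofNat 2673781991183, [2, 2, 2, 2, 2, 4], [2]⟩,
  ⟨Int.negSucc 10636750642091, [2, 2, 2, 2, 2, 2, 3], [2]⟩,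
  ⟨Int.ofNat 1084285385220, [2, 2, 2, 2, 2, 2, 2, 2], [2]⟩,
  ⟨Int.negSucc 4784586756844, [4, 5], [3]⟩,
  ⟨Int.negSucc 13831851272931, [4, 5], [2, 2]⟩,
  ⟨Int.ofNat 30050284639874, [3, 6], [3]⟩,
  ⟨Int.negSucc 8675679924948, [3, 6], [2, 2]⟩,
  ⟨Int.negSucc 51011071905891, [3, 3, 4], [3]⟩,
  ⟨Int.ofNat 18368046365696, [3, 3, 4], [2, 2]⟩,
  ⟨Int.ofNat 1738693659277, [2, 4, 4], [3]⟩,
  ⟨Int.negSucc 1983824994632, [2, 4, 4], [2, 2]⟩,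
  ⟨Int.negSucc 37032356423160, [2, 3, 5], [3]⟩,
  ⟨Int.ofNat 38608472815254, [2, 3, 5], [2, 2]⟩,
  ⟨Int.ofNat 11751553175080, [2, 3, 3, 3], [3]⟩,
  ⟨Int.negSucc 12063031521347, [2, 3, 3, 3], [2, 2]⟩,
  ⟨Int.negSucc 14844197184189, [2, 2, 6], [3]⟩,
  ⟨Int.ofNat 2953819290964, [2, 2, 6], [2, 2]⟩,
  ⟨Int.ofNat 65769892329453, [2, 2, 3, 4], [3]⟩,
  ⟨Int.negSucc 34935827310455, [2, 2, 3, 4], [2, 2]⟩,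
  ⟨Int.ofNat 35460244878529, [2, 2, 2, 5], [3]⟩,
  ⟨Int.negSucc 26294409687839, [2, 2, 2, 5], [2, 2]⟩,
  ⟨Int.negSucc 56495225722250, [2, 2, 2, 3, 3], [3]⟩,
  ⟨Int.ofNat 38933392683878, [2, 2, 2, 3, 3], [2, 2]⟩,
  ⟨Int.negSucc 30474591839006, [2, 2, 2, 2, 4], [3]⟩,
  ⟨Int.ofNat 26309284830712, [2, 2, 2, 2, 4], [2, 2]⟩,
  ⟨Int.ofNat 45889343791975, [2, 2, 2, 2, 2, 3], [3]⟩,
  ⟨Int.negSucc 39568248698862, [2, 2, 2, 2, 2, 3], [2, 2]⟩,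
  ⟨Int.negSucc 6719125679392, [2, 2, 2, 2, 2, 2, 2], [3]⟩,
  ⟨Int.ofNat 6454911097435, [2, 2, 2, 2, 2, 2, 2], [2, 2]⟩,
  ⟨Int.ofNat 6929296942450, [4, 4], [4]⟩,
  ⟨Int.negSucc 26053680704466, [4, 4], [2, 3]⟩,
  ⟨Int.negSucc 7401163260107, [4, 4], [2, 2, 2]⟩,
  ⟨Int.negSucc 27499893913359, [3, 5], [4]⟩,
  ⟨Int.ofNat 64015249803955, [3, 5], [2, 3]⟩,
  ⟨Int.negSucc 38405714161864, [3, 5], [2, 2, 2]⟩,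
  ⟨Int.ofNat 50271826960543, [3, 3, 3], [4]⟩,
  ⟨Int.negSucc 132754494230471, [3, 3, 3], [2, 3]⟩,
  ⟨Int.ofNat 63005465251076, [3, 3, 3], [2, 2, 2]⟩,
  ⟨Int.negSucc 2039016630969, [2, 6], [4]⟩,
  ⟨Int.ofNat 238888249727, [2, 6], [2, 3]⟩,
  ⟨Int.ofNat 4655910784485, [2, 6], [2, 2, 2]⟩,
  ⟨Int.negSucc 96643023640456, [2, 3, 4], [4]⟩,
  ⟨Int.ofNat 119251112043328, [2, 3, 4], [2, 3]⟩,
  ⟨Int.negSucc 18279195413695, [2, 3, 4], [2, 2, 2]⟩]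

def d6a_F5 : List Term := [
  ⟨Int.negSucc 72534274298161, [2, 2, 5], [4]⟩,
  ⟨Int.ofNat 30592881102418, [2, 2, 5], [2, 3]⟩,
  ⟨Int.negSucc 7025575891137, [2, 2, 5], [2, 2, 2]⟩,
  ⟨Int.ofNat 113439408204100, [2, 2, 3, 3], [4]⟩,
  ⟨Int.negSucc 99571733714322, [2, 2, 3, 3], [2, 3]⟩,
  ⟨Int.ofNat 26808352249290, [2, 2, 3, 3], [2, 2, 2]⟩,
  ⟨Int.ofNat 31665417552798, [2, 2, 2, 4], [4]⟩,
  ⟨Int.negSucc 51907337780032, [2, 2, 2, 4], [2, 3]⟩,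
  ⟨Int.ofNat 54449593468037, [2, 2, 2, 4], [2, 2, 2]⟩,
  ⟨Int.negSucc 48659290853528, [2, 2, 2, 2, 3], [4]⟩,
  ⟨Int.ofNat 73977393612615, [2, 2, 2, 2, 3], [2, 3]⟩,
  ⟨Int.negSucc 57222333449558, [2, 2, 2, 2, 3], [2, 2, 2]⟩,
  ⟨Int.ofNat 4400690697462, [2, 2, 2, 2, 2, 2], [4]⟩,
  ⟨Int.negSucc 6224912243712, [2, 2, 2, 2, 2, 2], [2, 3]⟩,
  ⟨Int.ofNat 10280486681387, [2, 2, 2, 2, 2, 2], [2, 2, 2]⟩,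
  ⟨Int.ofNat 9510158954054, [6], [5]⟩,
  ⟨Int.ofNat 22305482591824, [6], [3, 3]⟩,
  ⟨Int.negSucc 33621063015786, [6], [2, 4]⟩,
  ⟨Int.ofNat 13017905073631, [6], [2, 2, 3]⟩,
  ⟨Int.negSucc 5705400040390, [6], [2, 2, 2, 2]⟩,
  ⟨Int.ofNat 18883242497910, [3, 4], [5]⟩,
  ⟨Int.negSucc 42677842033065, [3, 4], [3, 3]⟩,
  ⟨Int.ofNat 174590636675834, [3, 4], [2, 4]⟩,
  ⟨Int.negSucc 255950030096242, [3, 4], [2, 2, 3]⟩,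
  ⟨Int.ofNat 145000954495254, [3, 4], [2, 2, 2, 2]⟩,
  ⟨Int.ofNat 214289178096357, [2, 5], [5]⟩,
  ⟨Int.negSucc 84634789188499, [2, 5], [3, 3]⟩,
  ⟨Int.negSucc 54835887934634, [2, 5], [2, 4]⟩,
  ⟨Int.ofNat 49184536557359, [2, 5], [2, 2, 3]⟩,
  ⟨Int.negSucc 10450832760855, [2, 5], [2, 2, 2, 2]⟩,
  ⟨Int.negSucc 150189400482543, [2, 3, 3], [5]⟩,
  ⟨Int.ofNat 82128368245041, [2, 3, 3], [3, 3]⟩,
  ⟨Int.negSucc 257720800756768, [2, 3, 3], [2, 4]⟩,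
  ⟨Int.ofNat 444696757390376, [2, 3, 3], [2, 2, 3]⟩,
  ⟨Int.negSucc 238768975157171, [2, 3, 3], [2, 2, 2, 2]⟩,
  ⟨Int.negSucc 291811660284654, [2, 2, 4], [5]⟩,
  ⟨Int.ofNat 196478103214431, [2, 2, 4], [3, 3]⟩,
  ⟨Int.ofNat 451309667618012, [2, 2, 4], [2, 4]⟩,
  ⟨Int.negSucc 535774343973080, [2, 2, 4], [2, 2, 3]⟩,
  ⟨Int.ofNat 179733566954304, [2, 2, 4], [2, 2, 2, 2]⟩,
  ⟨Int.ofNat 284701601266260, [2, 2, 2, 3], [5]⟩,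
  ⟨Int.negSucc 230968444946842, [2, 2, 2, 3], [3, 3]⟩,
  ⟨Int.negSucc 349742435046672, [2, 2, 2, 3], [2, 4]⟩,
  ⟨Int.ofNat 394561091735133, [2, 2, 2, 3], [2, 2, 3]⟩,
  ⟨Int.negSucc 85804231312191, [2, 2, 2, 3], [2, 2, 2, 2]⟩,
  ⟨Int.negSucc 82224626428154, [2, 2, 2, 2, 2], [5]⟩,
  ⟨Int.ofNat 102189492384488, [2, 2, 2, 2, 2], [3, 3]⟩,
  ⟨Int.ofNat 166201966437063, [2, 2, 2, 2, 2], [2, 4]⟩,
  ⟨Int.negSucc 226666373070638, [2, 2, 2, 2, 2], [2, 2, 3]⟩,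
  ⟨Int.ofNat 56542655139020, [2, 2, 2, 2, 2], [2, 2, 2, 2]⟩,
  ⟨Int.negSucc 241635598811905, [5], [6]⟩,
  ⟨Int.ofNat 503122558023310, [5], [3, 4]⟩,
  ⟨Int.ofNat 275841801197706, [5], [2, 5]⟩,
  ⟨Int.negSucc 647588311053324, [5], [2, 3, 3]⟩,
  ⟨Int.negSucc 546222402648976, [5], [2, 2, 4]⟩,
  ⟨Int.ofNat 839852403286075, [5], [2, 2, 2, 3]⟩,
  ⟨Int.negSucc 211630379429346, [5], [2, 2, 2, 2, 2]⟩,
  ⟨Int.ofNat 266714158532126, [3, 3], [6]⟩,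
  ⟨Int.negSucc 598952262862734, [3, 3], [3, 4]⟩,
  ⟨Int.negSucc 243054672232886, [3, 3], [2, 5]⟩,
  ⟨Int.ofNat 629724657262595, [3, 3], [2, 3, 3]⟩,
  ⟨Int.ofNat 449271487362769, [3, 3], [2, 2, 4]⟩,
  ⟨Int.negSucc 565415269794328, [3, 3], [2, 2, 2, 3]⟩,
  ⟨Int.ofNat 87615112784627, [3, 3], [2, 2, 2, 2, 2]⟩,
  ⟨Int.ofNat 303136161514292, [2, 4], [6]⟩,
  ⟨Int.negSucc 647098599483998, [2, 4], [3, 4]⟩,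
  ⟨Int.negSucc 629332611773685, [2, 4], [2, 5]⟩,
  ⟨Int.ofNat 1001814875778570, [2, 4], [2, 3, 3]⟩,
  ⟨Int.ofNat 1077660058066010, [2, 4], [2, 2, 4]⟩,
  ⟨Int.negSucc 1559820980641803, [2, 4], [2, 2, 2, 3]⟩,
  ⟨Int.ofNat 447934210377481, [2, 4], [2, 2, 2, 2, 2]⟩,
  ⟨Int.negSucc 406261855468166, [2, 2, 3], [6]⟩,
  ⟨Int.ofNat 1009617284438039, [2, 2, 3], [3, 4]⟩,
  ⟨Int.ofNat 871996024216333, [2, 2, 3], [2, 5]⟩,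
  ⟨Int.negSucc 1518442543989116, [2, 2, 3], [2, 3, 3]⟩,
  ⟨Int.negSucc 1603656508756980, [2, 2, 3], [2, 2, 4]⟩,
  ⟨Int.ofNat 2253934525981973, [2, 2, 3], [2, 2, 2, 3]⟩,
  ⟨Int.negSucc 612371804723138, [2, 2, 3], [2, 2, 2, 2, 2]⟩,
  ⟨Int.ofNat 120644982520025, [2, 2, 2, 2], [6]⟩,
  ⟨Int.negSucc 337202222203357, [2, 2, 2, 2], [3, 4]⟩,
  ⟨Int.negSucc 299152214167033, [2, 2, 2, 2], [2, 5]⟩,
  ⟨Int.ofNat 543856721842888, [2, 2, 2, 2], [2, 3, 3]⟩,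
  ⟨Int.ofNat 576754096866049, [2, 2, 2, 2], [2, 2, 4]⟩,
  ⟨Int.negSucc 871865317909103, [2, 2, 2, 2], [2, 2, 2, 3]⟩,
  ⟨Int.ofNat 263258955605691, [2, 2, 2, 2], [2, 2, 2, 2, 2]⟩,
  ⟨Int.negSucc 24665491712394, [4], [7]⟩,
  ⟨Int.ofNat 49338196889651, [4], [4, 4]⟩,
  ⟨Int.ofNat 159065194619672, [4], [3, 5]⟩,
  ⟨Int.negSucc 148164876813358, [4], [3, 3, 3]⟩,
  ⟨Int.negSucc 16130749439077, [4], [2, 6]⟩,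
  ⟨Int.negSucc 151215912048587, [4], [2, 3, 4]⟩,
  ⟨Int.negSucc 266809633970085, [4], [2, 2, 5]⟩,
  ⟨Int.ofNat 479170361888425, [4], [2, 2, 3, 3]⟩,
  ⟨Int.ofNat 437824242755553, [4], [2, 2, 2, 4]⟩,
  ⟨Int.negSucc 685682024069796, [4], [2, 2, 2, 2, 3]⟩,
  ⟨Int.ofNat 188541537061345, [4], [2, 2, 2, 2, 2, 2]⟩,
  ⟨Int.ofNat 35371818377941, [2, 3], [7]⟩,
  ⟨Int.negSucc 60855278702425, [2, 3], [4, 4]⟩,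
  ⟨Int.negSucc 381839121749442, [2, 3], [3, 5]⟩,
  ⟨Int.ofNat 346001974798252, [2, 3], [3, 3, 3]⟩]

def d6a_F6 : List Term := [
  ⟨Int.negSucc 43554834904397, [2, 3], [2, 6]⟩,
  ⟨Int.ofNat 286071811450820, [2, 3], [2, 3, 4]⟩,
  ⟨Int.ofNat 569935915250778, [2, 3], [2, 2, 5]⟩,
  ⟨Int.negSucc 901962228658264, [2, 3], [2, 2, 3, 3]⟩,
  ⟨Int.negSucc 751061740456917, [2, 3], [2, 2, 2, 4]⟩,
  ⟨Int.ofNat 1144892441227783, [2, 3], [2, 2, 2, 2, 3]⟩,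
  ⟨Int.negSucc 295828905266638, [2, 3], [2, 2, 2, 2, 2, 2]⟩,
  ⟨Int.negSucc 9555583808233, [2, 2, 2], [7]⟩,
  ⟨Int.ofNat 35960510441319, [2, 2, 2], [4, 4]⟩,
  ⟨Int.ofNat 192982348299085, [2, 2, 2], [3, 5]⟩,
  ⟨Int.negSucc 197140831744218, [2, 2, 2], [3, 3, 3]⟩,
  ⟨Int.ofNat 30662038964322, [2, 2, 2], [2, 6]⟩,
  ⟨Int.negSucc 254470696922768, [2, 2, 2], [2, 3, 4]⟩,
  ⟨Int.negSucc 276425195073577, [2, 2, 2], [2, 2, 5]⟩,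
  ⟨Int.ofNat 558718592413015, [2, 2, 2], [2, 2, 3, 3]⟩,
  ⟨Int.ofNat 374653547738514, [2, 2, 2], [2, 2, 2, 4]⟩,
  ⟨Int.negSucc 593336755842226, [2, 2, 2], [2, 2, 2, 2, 3]⟩,
  ⟨Int.ofNat 143172542912556, [2, 2, 2], [2, 2, 2, 2, 2, 2]⟩,
  ⟨Int.ofNat 37801213141501, [3], [4, 5]⟩,
  ⟨Int.ofNat 151587847285985, [3], [3, 6]⟩,
  ⟨Int.negSucc 356175122108206, [3], [3, 3, 4]⟩,
  ⟨Int.negSucc 5395792366449, [3], [2, 7]⟩,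
  ⟨Int.ofNat 6637830312220, [3], [2, 4, 4]⟩,
  ⟨Int.ofNat 8359728487500, [3], [2, 3, 5]⟩,
  ⟨Int.ofNat 192205399408103, [3], [2, 3, 3, 3]⟩,
  ⟨Int.negSucc 87175940170076, [3], [2, 2, 6]⟩,
  ⟨Int.ofNat 308642408746565, [3], [2, 2, 3, 4]⟩,
  ⟨Int.ofNat 20423702729369, [3], [2, 2, 2, 5]⟩,
  ⟨Int.negSucc 213005020924258, [3], [2, 2, 2, 3, 3]⟩,
  ⟨Int.negSucc 159010197948537, [3], [2, 2, 2, 2, 4]⟩,
  ⟨Int.ofNat 134438578209534, [3], [2, 2, 2, 2, 2, 3]⟩,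
  ⟨Int.negSucc 16420548719415, [3], [2, 2, 2, 2, 2, 2, 2]⟩,
  ⟨Int.negSucc 42576525884250, [2, 2], [4, 5]⟩,
  ⟨Int.negSucc 48661668566120, [2, 2], [3, 6]⟩,
  ⟨Int.ofNat 181322265619698, [2, 2], [3, 3, 4]⟩,
  ⟨Int.ofNat 2645822088936, [2, 2], [2, 7]⟩,
  ⟨Int.ofNat 48132276906018, [2, 2], [2, 4, 4]⟩,
  ⟨Int.ofNat 23193130578741, [2, 2], [2, 3, 5]⟩,
  ⟨Int.negSucc 135450402597603, [2, 2], [2, 3, 3, 3]⟩,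
  ⟨Int.ofNat 64613802166906, [2, 2], [2, 2, 6]⟩,
  ⟨Int.negSucc 277586146247490, [2, 2], [2, 2, 3, 4]⟩,
  ⟨Int.negSucc 47127422240050, [2, 2], [2, 2, 2, 5]⟩,
  ⟨Int.ofNat 223907252211071, [2, 2], [2, 2, 2, 3, 3]⟩,
  ⟨Int.ofNat 139570794700292, [2, 2], [2, 2, 2, 2, 4]⟩,
  ⟨Int.negSucc 138332205831400, [2, 2], [2, 2, 2, 2, 2, 3]⟩,
  ⟨Int.ofNat 17271841980920, [2, 2], [2, 2, 2, 2, 2, 2, 2]⟩,
  ⟨Int.ofNat 25198941675537, [2], [5, 5]⟩,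
  ⟨Int.ofNat 38518217086650, [2], [4, 6]⟩,
  ⟨Int.ofNat 3975792346189, [2], [3, 7]⟩,
  ⟨Int.negSucc 62996669761030, [2], [3, 4, 4]⟩,
  ⟨Int.negSucc 63698597889672, [2], [3, 3, 5]⟩,
  ⟨Int.ofNat 29582654616143, [2], [3, 3, 3, 3]⟩,
  ⟨Int.negSucc 63597035010059, [2], [2, 4, 5]⟩,
  ⟨Int.negSucc 15532495379912, [2], [2, 3, 6]⟩,
  ⟨Int.ofNat 142764329858158, [2], [2, 3, 3, 4]⟩,
  ⟨Int.negSucc 4817215708477, [2], [2, 2, 7]⟩,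
  ⟨Int.ofNat 67465339935217, [2], [2, 2, 4, 4]⟩,
  ⟨Int.ofNat 93743486934874, [2], [2, 2, 3, 5]⟩,
  ⟨Int.negSucc 114899110459237, [2], [2, 2, 3, 3, 3]⟩,
  ⟨Int.ofNat 11739298692263, [2], [2, 2, 2, 6]⟩,
  ⟨Int.negSucc 160718329837475, [2], [2, 2, 2, 3, 4]⟩,
  ⟨Int.negSucc 41711701178389, [2], [2, 2, 2, 2, 5]⟩,
  ⟨Int.ofNat 113065676361878, [2], [2, 2, 2, 2, 3, 3]⟩,
  ⟨Int.ofNat 39472274382942, [2], [2, 2, 2, 2, 2, 4]⟩,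
  ⟨Int.negSucc 36123735845750, [2], [2, 2, 2, 2, 2, 2, 3]⟩,
  ⟨Int.ofNat 3474413921998, [2], [2, 2, 2, 2, 2, 2, 2, 2]⟩,
  ⟨Int.negSucc 13966095905101, [], [5, 6]⟩,
  ⟨Int.negSucc 5710996874826, [], [4, 7]⟩,
  ⟨Int.ofNat 338144475976, [], [4, 4, 4]⟩,
  ⟨Int.ofNat 32319875968056, [], [3, 4, 5]⟩,
  ⟨Int.ofNat 22255412612573, [], [3, 3, 6]⟩,
  ⟨Int.negSucc 49462930429518, [], [3, 3, 3, 4]⟩,
  ⟨Int.ofNat 26856938266198, [], [2, 5, 5]⟩,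
  ⟨Int.negSucc 4052018617812, [], [2, 4, 6]⟩,
  ⟨Int.negSucc 1200941738131, [], [2, 3, 7]⟩,
  ⟨Int.negSucc 1736685537917, [], [2, 3, 4, 4]⟩,
  ⟨Int.negSucc 43989959880425, [], [2, 3, 3, 5]⟩,
  ⟨Int.ofNat 38713781064463, [], [2, 3, 3, 3, 3]⟩,
  ⟨Int.negSucc 80116055924840, [], [2, 2, 4, 5]⟩,
  ⟨Int.negSucc 4775026232424, [], [2, 2, 3, 6]⟩,
  ⟨Int.ofNat 75870314034313, [], [2, 2, 3, 3, 4]⟩,
  ⟨Int.ofNat 1109415722002, [], [2, 2, 2, 7]⟩,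
  ⟨Int.ofNat 51885127711648, [], [2, 2, 2, 4, 4]⟩,
  ⟨Int.ofNat 47805230680315, [], [2, 2, 2, 3, 5]⟩,
  ⟨Int.negSucc 37425944126582, [], [2, 2, 2, 3, 3, 3]⟩,
  ⟨Int.negSucc 1117287350092, [], [2, 2, 2, 2, 6]⟩,
  ⟨Int.negSucc 68361307663375, [], [2, 2, 2, 2, 3, 4]⟩,
  ⟨Int.negSucc 376045664412, [], [2, 2, 2, 2, 2, 5]⟩,
  ⟨Int.negSucc 6862632338684, [], [2, 2, 2, 2, 2, 3, 3]⟩,
  ⟨Int.ofNat 8455755382374, [], [2, 2, 2, 2, 2, 2, 4]⟩,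
  ⟨Int.ofNat 13866280483862, [], [2, 2, 2, 2, 2, 2, 2, 3]⟩,
  ⟨Int.negSucc 2389090011800, [], [2, 2, 2, 2, 2, 2, 2, 2, 2]⟩,
  ⟨Int.ofNat 2125112671874, [6, 6], []⟩,
  ⟨Int.ofNat 898407257627, [4, 4, 5], []⟩,
  ⟨Int.negSucc 2246018144066, [3, 5, 5], []⟩,
  ⟨Int.ofNat 466108137375, [3, 4, 6], []⟩,
  ⟨Int.negSucc 1370730571726, [3, 3, 4, 4], []⟩,
  ⟨Int.ofNat 5792176605917, [3, 3, 3, 5], []⟩,
  ⟨Int.negSucc 1394384933382, [3, 3, 3, 3, 3], []⟩,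
  ⟨Int.negSucc 6091590442175, [2, 5, 6], []⟩]

def d6a_F7 : List Term := [
  ⟨Int.ofNat 2075156055729, [2, 4, 4, 4], []⟩,
  ⟨Int.negSucc 4130788992938, [2, 3, 4, 5], []⟩,
  ⟨Int.negSucc 3358173451394, [2, 3, 3, 6], []⟩,
  ⟨Int.ofNat 4104385024574, [2, 3, 3, 3, 4], []⟩,
  ⟨Int.ofNat 3349426863485, [2, 2, 5, 5], []⟩,
  ⟨Int.ofNat 1765923027181, [2, 2, 4, 6], []⟩,
  ⟨Int.negSucc 6900574883027, [2, 2, 3, 4, 4], []⟩,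
  ⟨Int.negSucc 2220176892439, [2, 2, 3, 3, 5], []⟩,
  ⟨Int.ofNat 85036004295, [2, 2, 3, 3, 3, 3], []⟩,
  ⟨Int.negSucc 1994113030285, [2, 2, 2, 4, 5], []⟩,
  ⟨Int.ofNat 2631360489157, [2, 2, 2, 3, 6], []⟩,
  ⟨Int.ofNat 1183308643126, [2, 2, 2, 3, 3, 4], []⟩,
  ⟨Int.ofNat 4297861727840, [2, 2, 2, 2, 4, 4], []⟩,
  ⟨Int.ofNat 4377235017276, [2, 2, 2, 2, 3, 5], []⟩,
  ⟨Int.ofNat 636799208697, [2, 2, 2, 2, 3, 3, 3], []⟩,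
  ⟨Int.negSucc 1090050419425, [2, 2, 2, 2, 2, 6], []⟩,
  ⟨Int.negSucc 706545475247, [2, 2, 2, 2, 2, 3, 4], []⟩,
  ⟨Int.negSucc 1842109282847, [2, 2, 2, 2, 2, 2, 5], []⟩,
  ⟨Int.negSucc 3308902404866, [2, 2, 2, 2, 2, 2, 3, 3], []⟩,
  ⟨Int.negSucc 238646890394, [2, 2, 2, 2, 2, 2, 2, 4], []⟩,
  ⟨Int.ofNat 1757874177921, [2, 2, 2, 2, 2, 2, 2, 2, 3], []⟩,
  ⟨Int.negSucc 149311186495, [2, 2, 2, 2, 2, 2, 2, 2, 2, 2], []⟩,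
  ⟨Int.negSucc 712127618308, [5, 6], [2]⟩,
  ⟨Int.ofNat 260666333846, [4, 4, 4], [2]⟩,
  ⟨Int.negSucc 2590196214237, [3, 4, 5], [2]⟩,
  ⟨Int.negSucc 354946910895, [3, 3, 6], [2]⟩,
  ⟨Int.ofNat 1179775287860, [3, 3, 3, 4], [2]⟩,
  ⟨Int.ofNat 11355572531179, [2, 5, 5], [2]⟩,
  ⟨Int.negSucc 1673071305909, [2, 4, 6], [2]⟩,
  ⟨Int.negSucc 507349512857, [2, 3, 4, 4], [2]⟩,
  ⟨Int.negSucc 938073607640, [2, 3, 3, 5], [2]⟩,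
  ⟨Int.ofNat 909306200673, [2, 3, 3, 3, 3], [2]⟩,
  ⟨Int.negSucc 3388313087302, [2, 2, 4, 5], [2]⟩,
  ⟨Int.negSucc 611249054094, [2, 2, 3, 6], [2]⟩,
  ⟨Int.ofNat 7550505921912, [2, 2, 3, 3, 4], [2]⟩,
  ⟨Int.negSucc 1928419899267, [2, 2, 2, 4, 4], [2]⟩,
  ⟨Int.ofNat 1915616217881, [2, 2, 2, 3, 5], [2]⟩,
  ⟨Int.negSucc 5560553348238, [2, 2, 2, 3, 3, 3], [2]⟩,
  ⟨Int.ofNat 2660351117200, [2, 2, 2, 2, 6], [2]⟩,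
  ⟨Int.negSucc 9100972834310, [2, 2, 2, 2, 3, 4], [2]⟩,
  ⟨Int.negSucc 4869898038933, [2, 2, 2, 2, 2, 5], [2]⟩,
  ⟨Int.ofNat 7272594837056, [2, 2, 2, 2, 2, 3, 3], [2]⟩,
  ⟨Int.ofNat 3875558900228, [2, 2, 2, 2, 2, 2, 4], [2]⟩,
  ⟨Int.negSucc 2729944835168, [2, 2, 2, 2, 2, 2, 2, 3], [2]⟩,
  ⟨Int.ofNat 674436462216, [2, 2, 2, 2, 2, 2, 2, 2, 2], [2]⟩,
  ⟨Int.negSucc 18122294286324, [5, 5], [3]⟩,
  ⟨Int.ofNat 11256234370148, [5, 5], [2, 2]⟩,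
  ⟨Int.negSucc 1908538262089, [4, 6], [3]⟩,
  ⟨Int.negSucc 2719061656485, [4, 6], [2, 2]⟩,
  ⟨Int.negSucc 5113449343933, [3, 4, 4], [3]⟩,
  ⟨Int.negSucc 2905826883134, [3, 4, 4], [2, 2]⟩,
  ⟨Int.ofNat 19324497146692, [3, 3, 5], [3]⟩,
  ⟨Int.negSucc 15798948651932, [3, 3, 5], [2, 2]⟩,
  ⟨Int.negSucc 8661218331243, [3, 3, 3, 3], [3]⟩,
  ⟨Int.ofNat 7880727552740, [3, 3, 3, 3], [2, 2]⟩,
  ⟨Int.ofNat 9551918513094, [2, 4, 5], [3]⟩,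
  ⟨Int.ofNat 8904414432044, [2, 4, 5], [2, 2]⟩,
  ⟨Int.negSucc 2210998553196, [2, 3, 6], [3]⟩,
  ⟨Int.ofNat 714119857107, [2, 3, 6], [2, 2]⟩,
  ⟨Int.negSucc 47907653231, [2, 3, 3, 4], [3]⟩,
  ⟨Int.ofNat 5556707804844, [2, 3, 3, 4], [2, 2]⟩,
  ⟨Int.negSucc 250716278899, [2, 2, 4, 4], [3]⟩,
  ⟨Int.negSucc 10534989644738, [2, 2, 4, 4], [2, 2]⟩,
  ⟨Int.ofNat 1318347489507, [2, 2, 3, 5], [3]⟩,
  ⟨Int.ofNat 5524444202144, [2, 2, 3, 5], [2, 2]⟩,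
  ⟨Int.ofNat 3532456135077, [2, 2, 3, 3, 3], [3]⟩,
  ⟨Int.negSucc 6484448649123, [2, 2, 3, 3, 3], [2, 2]⟩,
  ⟨Int.negSucc 425567149601, [2, 2, 2, 6], [3]⟩,
  ⟨Int.ofNat 2080423859184, [2, 2, 2, 6], [2, 2]⟩,
  ⟨Int.negSucc 2470187055608, [2, 2, 2, 3, 4], [3]⟩,
  ⟨Int.negSucc 2883116034302, [2, 2, 2, 3, 4], [2, 2]⟩,
  ⟨Int.negSucc 867485326347, [2, 2, 2, 2, 5], [3]⟩,
  ⟨Int.negSucc 10751997030773, [2, 2, 2, 2, 5], [2, 2]⟩,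
  ⟨Int.ofNat 4456505305786, [2, 2, 2, 2, 3, 3], [3]⟩,
  ⟨Int.ofNat 8411090211671, [2, 2, 2, 2, 3, 3], [2, 2]⟩,
  ⟨Int.negSucc 7055524548282, [2, 2, 2, 2, 2, 4], [3]⟩,
  ⟨Int.ofNat 8246094478536, [2, 2, 2, 2, 2, 4], [2, 2]⟩,
  ⟨Int.ofNat 3616622654089, [2, 2, 2, 2, 2, 2, 3], [3]⟩,
  ⟨Int.negSucc 7870759123547, [2, 2, 2, 2, 2, 2, 3], [2, 2]⟩,
  ⟨Int.negSucc 1693084563331, [2, 2, 2, 2, 2, 2, 2, 2], [3]⟩,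
  ⟨Int.ofNat 1892278181645, [2, 2, 2, 2, 2, 2, 2, 2], [2, 2]⟩,
  ⟨Int.negSucc 4970980835217, [4, 5], [4]⟩,
  ⟨Int.ofNat 12100568620768, [4, 5], [2, 3]⟩,
  ⟨Int.ofNat 3246596354690, [4, 5], [2, 2, 2]⟩,
  ⟨Int.ofNat 3237453130973, [3, 6], [4]⟩,
  ⟨Int.negSucc 11130797201444, [3, 6], [2, 3]⟩,
  ⟨Int.ofNat 4994746462247, [3, 6], [2, 2, 2]⟩,
  ⟨Int.negSucc 21429148785154, [3, 3, 4], [4]⟩,
  ⟨Int.ofNat 23908278624056, [3, 3, 4], [2, 3]⟩,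
  ⟨Int.negSucc 8560716398939, [3, 3, 4], [2, 2, 2]⟩,
  ⟨Int.ofNat 14281915353223, [2, 4, 4], [4]⟩,
  ⟨Int.negSucc 31184590859659, [2, 4, 4], [2, 3]⟩,
  ⟨Int.ofNat 8896854297960, [2, 4, 4], [2, 2, 2]⟩,
  ⟨Int.negSucc 34347445587609, [2, 3, 5], [4]⟩,
  ⟨Int.ofNat 78446085095921, [2, 3, 5], [2, 3]⟩,
  ⟨Int.negSucc 18918358277774, [2, 3, 5], [2, 2, 2]⟩,
  ⟨Int.ofNat 19509558679470, [2, 3, 3, 3], [4]⟩,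
  ⟨Int.negSucc 31222370586749, [2, 3, 3, 3], [2, 3]⟩,
  ⟨Int.ofNat 6874675650173, [2, 3, 3, 3], [2, 2, 2]⟩,
  ⟨Int.ofNat 9931175059849, [2, 2, 6], [4]⟩]

def d6a_F8 : List Term := [
  ⟨Int.negSucc 5594238338529, [2, 2, 6], [2, 3]⟩,
  ⟨Int.ofNat 942924096949, [2, 2, 6], [2, 2, 2]⟩,
  ⟨Int.negSucc 10592901701328, [2, 2, 3, 4], [4]⟩,
  ⟨Int.negSucc 11971519300839, [2, 2, 3, 4], [2, 3]⟩,
  ⟨Int.ofNat 3314637539301, [2, 2, 3, 4], [2, 2, 2]⟩,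
  ⟨Int.ofNat 1670015431568, [2, 2, 2, 5], [4]⟩,
  ⟨Int.negSucc 2945052595395, [2, 2, 2, 5], [2, 3]⟩,
  ⟨Int.negSucc 4999780670857, [2, 2, 2, 5], [2, 2, 2]⟩,
  ⟨Int.ofNat 7793992284347, [2, 2, 2, 3, 3], [4]⟩,
  ⟨Int.ofNat 18217202049308, [2, 2, 2, 3, 3], [2, 3]⟩,
  ⟨Int.ofNat 4116388981581, [2, 2, 2, 3, 3], [2, 2, 2]⟩,
  ⟨Int.ofNat 17758749077676, [2, 2, 2, 2, 4], [4]⟩,
  ⟨Int.negSucc 11662453060667, [2, 2, 2, 2, 4], [2, 3]⟩,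
  ⟨Int.ofNat 7285002668118, [2, 2, 2, 2, 4], [2, 2, 2]⟩,
  ⟨Int.negSucc 6424441932417, [2, 2, 2, 2, 2, 3], [4]⟩,
  ⟨Int.negSucc 25238196117001, [2, 2, 2, 2, 2, 3], [2, 3]⟩,
  ⟨Int.ofNat 5552259767118, [2, 2, 2, 2, 2, 3], [2, 2, 2]⟩,
  ⟨Int.negSucc 5408264466601, [2, 2, 2, 2, 2, 2, 2], [4]⟩,
  ⟨Int.ofNat 18423377585317, [2, 2, 2, 2, 2, 2, 2], [2, 3]⟩,
  ⟨Int.negSucc 8482553344719, [2, 2, 2, 2, 2, 2, 2], [2, 2, 2]⟩,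
  ⟨Int.ofNat 1567513561695, [4, 4], [5]⟩,
  ⟨Int.negSucc 14177033694332, [4, 4], [3, 3]⟩,
  ⟨Int.ofNat 13668327315063, [4, 4], [2, 4]⟩,
  ⟨Int.ofNat 15552594126838, [4, 4], [2, 2, 3]⟩,
  ⟨Int.negSucc 8123120802298, [4, 4], [2, 2, 2, 2]⟩,
  ⟨Int.ofNat 17425921094896, [3, 5], [5]⟩,
  ⟨Int.negSucc 7738182244303, [3, 5], [3, 3]⟩,
  ⟨Int.negSucc 47985750448713, [3, 5], [2, 4]⟩,
  ⟨Int.ofNat 44607510136190, [3, 5], [2, 2, 3]⟩,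
  ⟨Int.negSucc 1652070674037, [3, 5], [2, 2, 2, 2]⟩,
  ⟨Int.negSucc 10704818523802, [3, 3, 3], [5]⟩,
  ⟨Int.negSucc 4055596049753, [3, 3, 3], [3, 3]⟩,
  ⟨Int.ofNat 27670123096916, [3, 3, 3], [2, 4]⟩,
  ⟨Int.ofNat 13638941747488, [3, 3, 3], [2, 2, 3]⟩,
  ⟨Int.negSucc 21527083156478, [3, 3, 3], [2, 2, 2, 2]⟩,
  ⟨Int.negSucc 19173643298046, [2, 6], [5]⟩,
  ⟨Int.ofNat 4949947824569, [2, 6], [3, 3]⟩,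
  ⟨Int.ofNat 10558010738760, [2, 6], [2, 4]⟩,
  ⟨Int.negSucc 10588906848882, [2, 6], [2, 2, 3]⟩,
  ⟨Int.ofNat 5328346464523, [2, 6], [2, 2, 2, 2]⟩,
  ⟨Int.negSucc 10786594880395, [2, 3, 4], [5]⟩,
  ⟨Int.ofNat 58247917732695, [2, 3, 4], [3, 3]⟩,
  ⟨Int.ofNat 18914348235317, [2, 3, 4], [2, 4]⟩,
  ⟨Int.negSucc 77584598199504, [2, 3, 4], [2, 2, 3]⟩,
  ⟨Int.ofNat 14073981436697, [2, 3, 4], [2, 2, 2, 2]⟩,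
  ⟨Int.ofNat 1026176374003, [2, 2, 5], [5]⟩,
  ⟨Int.ofNat 23940824853597, [2, 2, 5], [3, 3]⟩,
  ⟨Int.ofNat 36093013672783, [2, 2, 5], [2, 4]⟩,
  ⟨Int.negSucc 92356129935910, [2, 2, 5], [2, 2, 3]⟩,
  ⟨Int.ofNat 28471258157556, [2, 2, 5], [2, 2, 2, 2]⟩,
  ⟨Int.ofNat 4842194221582, [2, 2, 3, 3], [5]⟩,
  ⟨Int.negSucc 35847658578297, [2, 2, 3, 3], [3, 3]⟩,
  ⟨Int.negSucc 54334554795579, [2, 2, 3, 3], [2, 4]⟩,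
  ⟨Int.ofNat 87824578586504, [2, 2, 3, 3], [2, 2, 3]⟩,
  ⟨Int.negSucc 11294430250279, [2, 2, 3, 3], [2, 2, 2, 2]⟩,
  ⟨Int.negSucc 35186124936707, [2, 2, 2, 4], [5]⟩,
  ⟨Int.negSucc 46636411866728, [2, 2, 2, 4], [3, 3]⟩,
  ⟨Int.negSucc 1398006528719, [2, 2, 2, 4], [2, 4]⟩,
  ⟨Int.ofNat 95557930786535, [2, 2, 2, 4], [2, 2, 3]⟩,
  ⟨Int.negSucc 38688638800842, [2, 2, 2, 4], [2, 2, 2, 2]⟩,
  ⟨Int.ofNat 59899978113653, [2, 2, 2, 2, 3], [5]⟩,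
  ⟨Int.ofNat 28595986756746, [2, 2, 2, 2, 3], [3, 3]⟩,
  ⟨Int.negSucc 35202674942868, [2, 2, 2, 2, 3], [2, 4]⟩,
  ⟨Int.negSucc 8270693044801, [2, 2, 2, 2, 3], [2, 2, 3]⟩,
  ⟨Int.negSucc 14407370329622, [2, 2, 2, 2, 3], [2, 2, 2, 2]⟩,
  ⟨Int.negSucc 20141892701062, [2, 2, 2, 2, 2, 2], [5]⟩,
  ⟨Int.negSucc 6105139053631, [2, 2, 2, 2, 2, 2], [3, 3]⟩,
  ⟨Int.ofNat 35297151718642, [2, 2, 2, 2, 2, 2], [2, 4]⟩,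
  ⟨Int.negSucc 53427304457089, [2, 2, 2, 2, 2, 2], [2, 2, 3]⟩,
  ⟨Int.ofNat 32895214499279, [2, 2, 2, 2, 2, 2], [2, 2, 2, 2]⟩,
  ⟨Int.ofNat 13156641429206, [6], [6]⟩,
  ⟨Int.ofNat 15213598337060, [6], [3, 4]⟩,
  ⟨Int.ofNat 11682821248508, [6], [2, 5]⟩,
  ⟨Int.negSucc 56927780557980, [6], [2, 3, 3]⟩,
  ⟨Int.negSucc 21089422884899, [6], [2, 2, 4]⟩,
  ⟨Int.ofNat 48403110315517, [6], [2, 2, 2, 3]⟩,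
  ⟨Int.negSucc 5511299486281, [6], [2, 2, 2, 2, 2]⟩,
  ⟨Int.ofNat 19041156623261, [3, 4], [6]⟩,
  ⟨Int.negSucc 890062810073, [3, 4], [3, 4]⟩,
  ⟨Int.ofNat 79478281983348, [3, 4], [2, 5]⟩,
  ⟨Int.negSucc 52580426204116, [3, 4], [2, 3, 3]⟩,
  ⟨Int.negSucc 245451294462699, [3, 4], [2, 2, 4]⟩,
  ⟨Int.ofNat 363641027481999, [3, 4], [2, 2, 2, 3]⟩,
  ⟨Int.negSucc 148388504260866, [3, 4], [2, 2, 2, 2, 2]⟩,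
  ⟨Int.ofNat 642420535666571, [2, 5], [6]⟩,
  ⟨Int.negSucc 1116048503736345, [2, 5], [3, 4]⟩,
  ⟨Int.negSucc 1117610004444497, [2, 5], [2, 5]⟩,
  ⟨Int.ofNat 1702962442042526, [2, 5], [2, 3, 3]⟩,
  ⟨Int.ofNat 1613207723097838, [2, 5], [2, 2, 4]⟩,
  ⟨Int.negSucc 2259037755977873, [2, 5], [2, 2, 2, 3]⟩,
  ⟨Int.ofNat 575060341583219, [2, 5], [2, 2, 2, 2, 2]⟩,
  ⟨Int.negSucc 516424392947424, [2, 3, 3], [6]⟩,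
  ⟨Int.ofNat 856910190893911, [2, 3, 3], [3, 4]⟩,
  ⟨Int.ofNat 712759132035167, [2, 3, 3], [2, 5]⟩,
  ⟨Int.negSucc 1194990692325920, [2, 3, 3], [2, 3, 3]⟩,
  ⟨Int.negSucc 831384989135845, [2, 3, 3], [2, 2, 4]⟩,
  ⟨Int.ofNat 1161011606793212, [2, 3, 3], [2, 2, 2, 3]⟩,
  ⟨Int.negSucc 220924792610037, [2, 3, 3], [2, 2, 2, 2, 2]⟩,
  ⟨Int.negSucc 820014517933582, [2, 2, 4], [6]⟩,
  ⟨Int.ofNat 1628729877716108, [2, 2, 4], [3, 4]⟩]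

def d6a_F9 : List Term := [
  ⟨Int.ofNat 1650961850580563, [2, 2, 4], [2, 5]⟩,
  ⟨Int.negSucc 2549338983241842, [2, 2, 4], [2, 3, 3]⟩,
  ⟨Int.negSucc 2560142422418246, [2, 2, 4], [2, 2, 4]⟩,
  ⟨Int.ofNat 3580440270864459, [2, 2, 4], [2, 2, 2, 3]⟩,
  ⟨Int.negSucc 952039967988352, [2, 2, 4], [2, 2, 2, 2, 2]⟩,
  ⟨Int.ofNat 947138105618029, [2, 2, 2, 3], [6]⟩,
  ⟨Int.negSucc 2006491162116476, [2, 2, 2, 3], [3, 4]⟩,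
  ⟨Int.negSucc 1922048299263999, [2, 2, 2, 3], [2, 5]⟩,
  ⟨Int.ofNat 3184019823374022, [2, 2, 2, 3], [2, 3, 3]⟩,
  ⟨Int.ofNat 3034502640478506, [2, 2, 2, 3], [2, 2, 4]⟩,
  ⟨Int.negSucc 4340703410861430, [2, 2, 2, 3], [2, 2, 2, 3]⟩,
  ⟨Int.ofNat 1121107957568823, [2, 2, 2, 3], [2, 2, 2, 2, 2]⟩,
  ⟨Int.negSucc 235295532762549, [2, 2, 2, 2, 2], [6]⟩,
  ⟨Int.ofNat 570064758174166, [2, 2, 2, 2, 2], [3, 4]⟩,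
  ⟨Int.ofNat 537582284561767, [2, 2, 2, 2, 2], [2, 5]⟩,
  ⟨Int.negSucc 944864576074852, [2, 2, 2, 2, 2], [2, 3, 3]⟩,
  ⟨Int.negSucc 919881683201765, [2, 2, 2, 2, 2], [2, 2, 4]⟩,
  ⟨Int.ofNat 1352712100686198, [2, 2, 2, 2, 2], [2, 2, 2, 3]⟩,
  ⟨Int.negSucc 359991617343524, [2, 2, 2, 2, 2], [2, 2, 2, 2, 2]⟩,
  ⟨Int.ofNat 14993320453026, [5], [7]⟩,
  ⟨Int.negSucc 49610307302323, [5], [4, 4]⟩,
  ⟨Int.negSucc 379822614991418, [5], [3, 5]⟩,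
  ⟨Int.ofNat 280444843395918, [5], [3, 3, 3]⟩,
  ⟨Int.negSucc 220436769486055, [5], [2, 6]⟩,
  ⟨Int.ofNat 713799729094539, [5], [2, 3, 4]⟩,
  ⟨Int.ofNat 415823659983493, [5], [2, 2, 5]⟩,
  ⟨Int.negSucc 762319610504434, [5], [2, 2, 3, 3]⟩,
  ⟨Int.negSucc 326817455093329, [5], [2, 2, 2, 4]⟩,
  ⟨Int.ofNat 271190482300398, [5], [2, 2, 2, 2, 3]⟩,
  ⟨Int.ofNat 12546078742389, [5], [2, 2, 2, 2, 2, 2]⟩,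
  ⟨Int.negSucc 46611289834122, [3, 3], [7]⟩,
  ⟨Int.ofNat 76040687525423, [3, 3], [4, 4]⟩,
  ⟨Int.ofNat 377632635988013, [3, 3], [3, 5]⟩,
  ⟨Int.negSucc 285025783581320, [3, 3], [3, 3, 3]⟩,
  ⟨Int.ofNat 105639466804198, [3, 3], [2, 6]⟩,
  ⟨Int.negSucc 590686846320944, [3, 3], [2, 3, 4]⟩,
  ⟨Int.negSucc 268686032870703, [3, 3], [2, 2, 5]⟩,
  ⟨Int.ofNat 681140963272150, [3, 3], [2, 2, 3, 3]⟩,
  ⟨Int.ofNat 236961476857823, [3, 3], [2, 2, 2, 4]⟩,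
  ⟨Int.negSucc 318398538101317, [3, 3], [2, 2, 2, 2, 3]⟩,
  ⟨Int.ofNat 42944763804180, [3, 3], [2, 2, 2, 2, 2, 2]⟩,
  ⟨Int.negSucc 9970862128668, [2, 4], [7]⟩,
  ⟨Int.negSucc 73432914378294, [2, 4], [4, 4]⟩,
  ⟨Int.ofNat 280967543772134, [2, 4], [3, 5]⟩,
  ⟨Int.negSucc 187835196600985, [2, 4], [3, 3, 3]⟩,
  ⟨Int.ofNat 107657603259703, [2, 4], [2, 6]⟩,
  ⟨Int.negSucc 324851398340964, [2, 4], [2, 3, 4]⟩,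
  ⟨Int.negSucc 381611630860256, [2, 4], [2, 2, 5]⟩,
  ⟨Int.ofNat 577784951926027, [2, 4], [2, 2, 3, 3]⟩,
  ⟨Int.ofNat 437571413099739, [2, 4], [2, 2, 2, 4]⟩,
  ⟨Int.negSucc 502981809959891, [2, 4], [2, 2, 2, 2, 3]⟩,
  ⟨Int.ofNat 81706427539542, [2, 4], [2, 2, 2, 2, 2, 2]⟩,
  ⟨Int.ofNat 42488671664309, [2, 2, 3], [7]⟩,
  ⟨Int.ofNat 53674548846779, [2, 2, 3], [4, 4]⟩,
  ⟨Int.negSucc 497956338354152, [2, 2, 3], [3, 5]⟩,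
  ⟨Int.ofNat 338519528476825, [2, 2, 3], [3, 3, 3]⟩,
  ⟨Int.negSucc 182811389360013, [2, 2, 3], [2, 6]⟩,
  ⟨Int.ofNat 600534319201205, [2, 2, 3], [2, 3, 4]⟩,
  ⟨Int.ofNat 605013681950810, [2, 2, 3], [2, 2, 5]⟩,
  ⟨Int.negSucc 1028693898698420, [2, 2, 3], [2, 2, 3, 3]⟩,
  ⟨Int.negSucc 664348728646434, [2, 2, 3], [2, 2, 2, 4]⟩,
  ⟨Int.ofNat 894296075822065, [2, 2, 3], [2, 2, 2, 2, 3]⟩,
  ⟨Int.negSucc 177666209670998, [2, 2, 3], [2, 2, 2, 2, 2, 2]⟩,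
  ⟨Int.negSucc 8353163072174, [2, 2, 2, 2], [7]⟩,
  ⟨Int.negSucc 46716611337233, [2, 2, 2, 2], [4, 4]⟩,
  ⟨Int.ofNat 110856699672390, [2, 2, 2, 2], [3, 5]⟩,
  ⟨Int.negSucc 74313755165790, [2, 2, 2, 2], [3, 3, 3]⟩,
  ⟨Int.ofNat 70017242797238, [2, 2, 2, 2], [2, 6]⟩,
  ⟨Int.negSucc 135745267137153, [2, 2, 2, 2], [2, 3, 4]⟩,
  ⟨Int.negSucc 231155086248656, [2, 2, 2, 2], [2, 2, 5]⟩,
  ⟨Int.ofNat 321901159215601, [2, 2, 2, 2], [2, 2, 3, 3]⟩,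
  ⟨Int.ofNat 279647650158801, [2, 2, 2, 2], [2, 2, 2, 4]⟩,
  ⟨Int.negSucc 365417871114814, [2, 2, 2, 2], [2, 2, 2, 2, 3]⟩,
  ⟨Int.ofNat 79229943280268, [2, 2, 2, 2], [2, 2, 2, 2, 2, 2]⟩,
  ⟨Int.negSucc 23435339908515, [4], [4, 5]⟩,
  ⟨Int.negSucc 54150004284982, [4], [3, 6]⟩,
  ⟨Int.ofNat 130927175180220, [4], [3, 3, 4]⟩,
  ⟨Int.ofNat 3467346224580, [4], [2, 7]⟩,
  ⟨Int.ofNat 72622890420637, [4], [2, 4, 4]⟩,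
  ⟨Int.ofNat 100765956777388, [4], [2, 3, 5]⟩,
  ⟨Int.negSucc 121864736481046, [4], [2, 3, 3, 3]⟩,
  ⟨Int.ofNat 101645065865293, [4], [2, 2, 6]⟩,
  ⟨Int.negSucc 418427712577396, [4], [2, 2, 3, 4]⟩,
  ⟨Int.negSucc 102584391465605, [4], [2, 2, 2, 5]⟩,
  ⟨Int.ofNat 263925516529765, [4], [2, 2, 2, 3, 3]⟩,
  ⟨Int.ofNat 117316509093983, [4], [2, 2, 2, 2, 4]⟩,
  ⟨Int.negSucc 29739509412880, [4], [2, 2, 2, 2, 2, 3]⟩,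
  ⟨Int.negSucc 31076170979531, [4], [2, 2, 2, 2, 2, 2, 2]⟩,
  ⟨Int.ofNat 49148293085417, [2, 3], [4, 5]⟩,
  ⟨Int.ofNat 40311273930481, [2, 3], [3, 6]⟩,
  ⟨Int.negSucc 105558076702747, [2, 3], [3, 3, 4]⟩,
  ⟨Int.negSucc 1705748840151, [2, 3], [2, 7]⟩,
  ⟨Int.negSucc 122013965417750, [2, 3], [2, 4, 4]⟩,
  ⟨Int.negSucc 48818706203374, [2, 3], [2, 3, 5]⟩,
  ⟨Int.ofNat 82638332364910, [2, 3], [2, 3, 3, 3]⟩,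
  ⟨Int.negSucc 134249686338226, [2, 3], [2, 2, 6]⟩,
  ⟨Int.ofNat 608152971810579, [2, 3], [2, 2, 3, 4]⟩,
  ⟨Int.ofNat 112677562331205, [2, 3], [2, 2, 2, 5]⟩,
  ⟨Int.negSucc 336004714434436, [2, 3], [2, 2, 2, 3, 3]⟩,
  ⟨Int.negSucc 225070002584057, [2, 3], [2, 2, 2, 2, 4]⟩]

def d6a_F10 : List Term := [
  ⟨Int.ofNat 45340773073692, [2, 3], [2, 2, 2, 2, 2, 3]⟩,
  ⟨Int.ofNat 52676433619221, [2, 3], [2, 2, 2, 2, 2, 2, 2]⟩,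
  ⟨Int.negSucc 15567453336523, [2, 2, 2], [4, 5]⟩,
  ⟨Int.negSucc 2116549341855, [2, 2, 2], [3, 6]⟩,
  ⟨Int.ofNat 15914611646154, [2, 2, 2], [3, 3, 4]⟩,
  ⟨Int.negSucc 2745163763328, [2, 2, 2], [2, 7]⟩,
  ⟨Int.ofNat 47997744435316, [2, 2, 2], [2, 4, 4]⟩,
  ⟨Int.ofNat 11398089032027, [2, 2, 2], [2, 3, 5]⟩,
  ⟨Int.negSucc 21186098737935, [2, 2, 2], [2, 3, 3, 3]⟩,
  ⟨Int.ofNat 64164506164327, [2, 2, 2], [2, 2, 6]⟩,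
  ⟨Int.negSucc 284914642173664, [2, 2, 2], [2, 2, 3, 4]⟩,
  ⟨Int.negSucc 84197988698635, [2, 2, 2], [2, 2, 2, 5]⟩,
  ⟨Int.ofNat 180406327957479, [2, 2, 2], [2, 2, 2, 3, 3]⟩,
  ⟨Int.ofNat 167059967401714, [2, 2, 2], [2, 2, 2, 2, 4]⟩,
  ⟨Int.negSucc 75871889614027, [2, 2, 2], [2, 2, 2, 2, 2, 3]⟩,
  ⟨Int.negSucc 15348417246372, [2, 2, 2], [2, 2, 2, 2, 2, 2, 2]⟩,
  ⟨Int.negSucc 7035390433494, [3], [5, 5]⟩,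
  ⟨Int.negSucc 14004327252301, [3], [4, 6]⟩,
  ⟨Int.negSucc 11922034883085, [3], [3, 7]⟩,
  ⟨Int.ofNat 62748363785179, [3], [3, 4, 4]⟩,
  ⟨Int.ofNat 90309184639445, [3], [3, 3, 5]⟩,
  ⟨Int.negSucc 28022270579304, [3], [3, 3, 3, 3]⟩,
  ⟨Int.ofNat 18301950435378, [3], [2, 4, 5]⟩,
  ⟨Int.ofNat 21194530518767, [3], [2, 3, 6]⟩,
  ⟨Int.negSucc 139943682020532, [3], [2, 3, 3, 4]⟩,
  ⟨Int.ofNat 8392954398575, [3], [2, 2, 7]⟩,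
  ⟨Int.negSucc 52512567233622, [3], [2, 2, 4, 4]⟩,
  ⟨Int.negSucc 145236928722631, [3], [2, 2, 3, 5]⟩,
  ⟨Int.ofNat 104497464964123, [3], [2, 2, 3, 3, 3]⟩,
  ⟨Int.negSucc 28318571155481, [3], [2, 2, 2, 6]⟩,
  ⟨Int.ofNat 222340751386910, [3], [2, 2, 2, 3, 4]⟩,
  ⟨Int.ofNat 81274806608042, [3], [2, 2, 2, 2, 5]⟩,
  ⟨Int.negSucc 164079533694802, [3], [2, 2, 2, 2, 3, 3]⟩,
  ⟨Int.negSucc 83486791274914, [3], [2, 2, 2, 2, 2, 4]⟩,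
  ⟨Int.ofNat 73797961559626, [3], [2, 2, 2, 2, 2, 2, 3]⟩,
  ⟨Int.negSucc 4267433935407, [3], [2, 2, 2, 2, 2, 2, 2, 2]⟩,
  ⟨Int.ofNat 14581889871268, [2, 2], [5, 5]⟩,
  ⟨Int.ofNat 14066322077225, [2, 2], [4, 6]⟩,
  ⟨Int.ofNat 4724846633749, [2, 2], [3, 7]⟩,
  ⟨Int.negSucc 38695759392039, [2, 2], [3, 4, 4]⟩,
  ⟨Int.negSucc 61779344191106, [2, 2], [3, 3, 5]⟩,
  ⟨Int.ofNat 17216401833594, [2, 2], [3, 3, 3, 3]⟩,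
  ⟨Int.negSucc 14700978018457, [2, 2], [2, 4, 5]⟩,
  ⟨Int.negSucc 19544663622950, [2, 2], [2, 3, 6]⟩,
  ⟨Int.ofNat 112369748840634, [2, 2], [2, 3, 3, 4]⟩,
  ⟨Int.negSucc 3564852360408, [2, 2], [2, 2, 7]⟩,
  ⟨Int.ofNat 29646887976994, [2, 2], [2, 2, 4, 4]⟩,
  ⟨Int.ofNat 117097161643945, [2, 2], [2, 2, 3, 5]⟩,
  ⟨Int.negSucc 88791451827544, [2, 2], [2, 2, 3, 3, 3]⟩,
  ⟨Int.ofNat 16549461505131, [2, 2], [2, 2, 2, 6]⟩,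
  ⟨Int.negSucc 172462839753077, [2, 2], [2, 2, 2, 3, 4]⟩,
  ⟨Int.negSucc 65690039883880, [2, 2], [2, 2, 2, 2, 5]⟩,
  ⟨Int.ofNat 139281559726754, [2, 2], [2, 2, 2, 2, 3, 3]⟩,
  ⟨Int.ofNat 72012326935874, [2, 2], [2, 2, 2, 2, 2, 4]⟩,
  ⟨Int.negSucc 69360114321291, [2, 2], [2, 2, 2, 2, 2, 2, 3]⟩,
  ⟨Int.ofNat 6222878229330, [2, 2], [2, 2, 2, 2, 2, 2, 2, 2]⟩,
  ⟨Int.negSucc 3061787213872, [2], [5, 6]⟩,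
  ⟨Int.negSucc 2859135581229, [2], [4, 7]⟩,
  ⟨Int.ofNat 5516639226828, [2], [4, 4, 4]⟩,
  ⟨Int.ofNat 15608205083997, [2], [3, 4, 5]⟩,
  ⟨Int.ofNat 4482688180844, [2], [3, 3, 6]⟩,
  ⟨Int.negSucc 15193774144953, [2], [3, 3, 3, 4]⟩,
  ⟨Int.ofNat 1486902099612, [2], [2, 5, 5]⟩,
  ⟨Int.ofNat 3341704693931, [2], [2, 4, 6]⟩,
  ⟨Int.ofNat 1733709708190, [2], [2, 3, 7]⟩,
  ⟨Int.negSucc 29998021802664, [2], [2, 3, 4, 4]⟩,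
  ⟨Int.negSucc 25447932180528, [2], [2, 3, 3, 5]⟩,
  ⟨Int.ofNat 22082039174698, [2], [2, 3, 3, 3, 3]⟩,
  ⟨Int.negSucc 23255470713873, [2], [2, 2, 4, 5]⟩,
  ⟨Int.negSucc 14748171531418, [2], [2, 2, 3, 6]⟩,
  ⟨Int.ofNat 81894635940955, [2], [2, 2, 3, 3, 4]⟩,
  ⟨Int.ofNat 234113932586, [2], [2, 2, 2, 7]⟩,
  ⟨Int.ofNat 24242973358420, [2], [2, 2, 2, 4, 4]⟩,
  ⟨Int.ofNat 37390681902308, [2], [2, 2, 2, 3, 5]⟩,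
  ⟨Int.negSucc 64242678862760, [2], [2, 2, 2, 3, 3, 3]⟩,
  ⟨Int.negSucc 444275869505, [2], [2, 2, 2, 2, 6]⟩,
  ⟨Int.negSucc 68538584828422, [2], [2, 2, 2, 2, 3, 4]⟩,
  ⟨Int.negSucc 480122406059, [2], [2, 2, 2, 2, 2, 5]⟩,
  ⟨Int.ofNat 46980158035400, [2], [2, 2, 2, 2, 2, 3, 3]⟩,
  ⟨Int.ofNat 9098261912859, [2], [2, 2, 2, 2, 2, 2, 4]⟩,
  ⟨Int.negSucc 10180130673995, [2], [2, 2, 2, 2, 2, 2, 2, 3]⟩,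
  ⟨Int.ofNat 186256481030, [2], [2, 2, 2, 2, 2, 2, 2, 2, 2]⟩,
  ⟨Int.ofNat 3186290390522, [], [6, 6]⟩,
  ⟨Int.negSucc 669867285277, [], [5, 7]⟩,
  ⟨Int.negSucc 3582525975264, [], [4, 4, 5]⟩,
  ⟨Int.negSucc 2536187095665, [], [3, 5, 5]⟩,
  ⟨Int.negSucc 10712430761865, [], [3, 4, 6]⟩,
  ⟨Int.ofNat 1567617918312, [], [3, 3, 7]⟩,
  ⟨Int.ofNat 9688458086341, [], [3, 3, 4, 4]⟩,
  ⟨Int.ofNat 8910553963606, [], [3, 3, 3, 5]⟩,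
  ⟨Int.negSucc 1264347545928, [], [3, 3, 3, 3, 3]⟩,
  ⟨Int.negSucc 7224161991580, [], [2, 5, 6]⟩,
  ⟨Int.ofNat 303395042017, [], [2, 4, 7]⟩,
  ⟨Int.ofNat 3559304173743, [], [2, 4, 4, 4]⟩,
  ⟨Int.ofNat 35785457786473, [], [2, 3, 4, 5]⟩,
  ⟨Int.ofNat 1269080898193, [], [2, 3, 3, 6]⟩,
  ⟨Int.negSucc 12998993311735, [], [2, 3, 3, 3, 4]⟩,
  ⟨Int.ofNat 5237802321531, [], [2, 2, 5, 5]⟩,
  ⟨Int.ofNat 13798807660856, [], [2, 2, 4, 6]⟩,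
  ⟨Int.negSucc 900394621221, [], [2, 2, 3, 7]⟩]

def d6a_F11 : List Term := [
  ⟨Int.negSucc 36619632185786, [], [2, 2, 3, 4, 4]⟩,
  ⟨Int.negSucc 34576745312926, [], [2, 2, 3, 3, 5]⟩,
  ⟨Int.ofNat 6300887164772, [], [2, 2, 3, 3, 3, 3]⟩,
  ⟨Int.negSucc 17616005625850, [], [2, 2, 2, 4, 5]⟩,
  ⟨Int.ofNat 2123144394658, [], [2, 2, 2, 3, 6]⟩,
  ⟨Int.ofNat 29256981727161, [], [2, 2, 2, 3, 3, 4]⟩,
  ⟨Int.ofNat 206822394577, [], [2, 2, 2, 2, 7]⟩,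
  ⟨Int.ofNat 12059769301824, [], [2, 2, 2, 2, 4, 4]⟩,
  ⟨Int.ofNat 11276935536951, [], [2, 2, 2, 2, 3, 5]⟩,
  ⟨Int.negSucc 5872649560241, [], [2, 2, 2, 2, 3, 3, 3]⟩,
  ⟨Int.negSucc 2699862052311, [], [2, 2, 2, 2, 2, 6]⟩,
  ⟨Int.negSucc 4193008152817, [], [2, 2, 2, 2, 2, 3, 4]⟩,
  ⟨Int.ofNat 829314943249, [], [2, 2, 2, 2, 2, 2, 5]⟩,
  ⟨Int.negSucc 319394246973, [], [2, 2, 2, 2, 2, 2, 3, 3]⟩,
  ⟨Int.negSucc 3812851400342, [], [2, 2, 2, 2, 2, 2, 2, 4]⟩,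
  ⟨Int.ofNat 2633062396874, [], [2, 2, 2, 2, 2, 2, 2, 2, 3]⟩,
  ⟨Int.negSucc 604702884454, [], [2, 2, 2, 2, 2, 2, 2, 2, 2, 2]⟩,
  ⟨Int.negSucc 220751114790, [4, 4, 6], []⟩,
  ⟨Int.ofNat 551877786978, [3, 5, 6], []⟩,
  ⟨Int.ofNat 512171948828, [3, 4, 4, 4], []⟩,
  ⟨Int.negSucc 630295250944, [3, 3, 4, 5], []⟩,
  ⟨Int.ofNat 284486140159, [3, 3, 3, 6], []⟩,
  ⟨Int.ofNat 302806554462, [3, 3, 3, 3, 4], []⟩,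
  ⟨Int.negSucc 1103755573954, [2, 6, 6], []⟩,
  ⟨Int.negSucc 66481125922, [2, 4, 4, 5], []⟩,
  ⟨Int.ofNat 166202814808, [2, 3, 5, 5], []⟩,
  ⟨Int.ofNat 122645941254, [2, 3, 4, 6], []⟩,
  ⟨Int.negSucc 963028698033, [2, 3, 3, 4, 4], []⟩,
  ⟨Int.negSucc 670531474694, [2, 3, 3, 3, 5], []⟩,
  ⟨Int.ofNat 173127468826, [2, 3, 3, 3, 3, 3], []⟩,
  ⟨Int.ofNat 724965745436, [2, 2, 5, 6], []⟩,
  ⟨Int.negSucc 173320826130, [2, 2, 4, 4, 4], []⟩,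
  ⟨Int.ofNat 701880326370, [2, 2, 3, 4, 5], []⟩,
  ⟨Int.ofNat 53497219563, [2, 2, 3, 3, 6], []⟩,
  ⟨Int.ofNat 145078469079, [2, 2, 3, 3, 3, 4], []⟩,
  ⟨Int.ofNat 89429091712, [2, 2, 2, 5, 5], []⟩,
  ⟨Int.ofNat 425775582294, [2, 2, 2, 4, 6], []⟩,
  ⟨Int.ofNat 249577275862, [2, 2, 2, 3, 4, 4], []⟩,
  ⟨Int.negSucc 203270115944, [2, 2, 2, 3, 3, 5], []⟩,
  ⟨Int.negSucc 47750428482, [2, 2, 2, 3, 3, 3, 3], []⟩,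
  ⟨Int.negSucc 161575741268, [2, 2, 2, 2, 4, 5], []⟩,
  ⟨Int.negSucc 137516117574, [2, 2, 2, 2, 3, 6], []⟩,
  ⟨Int.ofNat 88215266057, [2, 2, 2, 2, 3, 3, 4], []⟩,
  ⟨Int.ofNat 362582742, [2, 2, 2, 2, 2, 4, 4], []⟩,
  ⟨Int.negSucc 50887554727, [2, 2, 2, 2, 2, 3, 5], []⟩,
  ⟨Int.ofNat 14434332671, [2, 2, 2, 2, 2, 3, 3, 3], []⟩,
  ⟨Int.negSucc 146943939186, [2, 2, 2, 2, 2, 2, 6], []⟩,
  ⟨Int.negSucc 299650920348, [2, 2, 2, 2, 2, 2, 3, 4], []⟩,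
  ⟨Int.ofNat 179881479316, [2, 2, 2, 2, 2, 2, 2, 5], []⟩,
  ⟨Int.ofNat 43495289309, [2, 2, 2, 2, 2, 2, 2, 3, 3], []⟩,
  ⟨Int.ofNat 78470244021, [2, 2, 2, 2, 2, 2, 2, 2, 4], []⟩,
  ⟨Int.ofNat 17223767218, [2, 2, 2, 2, 2, 2, 2, 2, 2, 3], []⟩,
  ⟨Int.negSucc 28636059332, [2, 2, 2, 2, 2, 2, 2, 2, 2, 2, 2], []⟩,
  ⟨Int.ofNat 138020939289, [6, 6], [2]⟩,
  ⟨Int.negSucc 358569529370, [4, 4, 5], [2]⟩,
  ⟨Int.ofNat 896423823427, [3, 5, 5], [2]⟩,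
  ⟨Int.negSucc 1118171080608, [3, 4, 6], [2]⟩,
  ⟨Int.ofNat 902855094338, [3, 3, 4, 4], [2]⟩,
  ⟨Int.negSucc 903641458776, [3, 3, 3, 5], [2]⟩,
  ⟨Int.ofNat 178567549871, [3, 3, 3, 3, 3], [2]⟩,
  ⟨Int.ofNat 802171847500, [2, 5, 6], [2]⟩,
  ⟨Int.negSucc 354974971703, [2, 4, 4, 4], [2]⟩,
  ⟨Int.ofNat 1888555612752, [2, 3, 4, 5], [2]⟩,
  ⟨Int.negSucc 285979106891, [2, 3, 3, 6], [2]⟩,
  ⟨Int.negSucc 1489583573948, [2, 3, 3, 3, 4], [2]⟩,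
  ⟨Int.negSucc 2299612299088, [2, 2, 5, 5], [2]⟩,
  ⟨Int.ofNat 897807083477, [2, 2, 4, 6], [2]⟩,
  ⟨Int.ofNat 719893330911, [2, 2, 3, 4, 4], [2]⟩,
  ⟨Int.ofNat 1102733066508, [2, 2, 3, 3, 5], [2]⟩,
  ⟨Int.negSucc 89537427398, [2, 2, 3, 3, 3, 3], [2]⟩,
  ⟨Int.ofNat 138592433381, [2, 2, 2, 4, 5], [2]⟩,
  ⟨Int.negSucc 277263504063, [2, 2, 2, 3, 6], [2]⟩,
  ⟨Int.ofNat 298778188804, [2, 2, 2, 3, 3, 4], [2]⟩,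
  ⟨Int.negSucc 813675372104, [2, 2, 2, 2, 4, 4], [2]⟩,
  ⟨Int.negSucc 478642020258, [2, 2, 2, 2, 3, 5], [2]⟩,
  ⟨Int.negSucc 160379503735, [2, 2, 2, 2, 3, 3, 3], [2]⟩,
  ⟨Int.ofNat 40785077529, [2, 2, 2, 2, 2, 6], [2]⟩,
  ⟨Int.ofNat 307835377804, [2, 2, 2, 2, 2, 3, 4], [2]⟩,
  ⟨Int.ofNat 285682534197, [2, 2, 2, 2, 2, 2, 5], [2]⟩,
  ⟨Int.ofNat 313929050126, [2, 2, 2, 2, 2, 2, 3, 3], [2]⟩,
  ⟨Int.ofNat 84353933702, [2, 2, 2, 2, 2, 2, 2, 4], [2]⟩,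
  ⟨Int.negSucc 224056791649, [2, 2, 2, 2, 2, 2, 2, 2, 3], [2]⟩,
  ⟨Int.ofNat 23666996422, [2, 2, 2, 2, 2, 2, 2, 2, 2, 2], [2]⟩,
  ⟨Int.ofNat 98015570843, [5, 6], [3]⟩,
  ⟨Int.negSucc 362025542463, [5, 6], [2, 2]⟩,
  ⟨Int.negSucc 937339565351, [4, 4, 4], [3]⟩,
  ⟨Int.ofNat 317004088499, [4, 4, 4], [2, 2]⟩,
  ⟨Int.ofNat 28936566217, [3, 4, 5], [3]⟩,
  ⟨Int.negSucc 179966636981, [3, 4, 5], [2, 2]⟩,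
  ⟨Int.negSucc 410032192977, [3, 3, 6], [3]⟩,
  ⟨Int.negSucc 469197972376, [3, 3, 6], [2, 2]⟩,
  ⟨Int.ofNat 1180670778661, [3, 3, 3, 4], [3]⟩,
  ⟨Int.negSucc 1266687981165, [3, 3, 3, 4], [2, 2]⟩,
  ⟨Int.negSucc 695668466022, [2, 5, 5], [3]⟩,
  ⟨Int.negSucc 824553573218, [2, 5, 5], [2, 2]⟩,
  ⟨Int.ofNat 1102203369113, [2, 4, 6], [3]⟩,
  ⟨Int.ofNat 661220991860, [2, 4, 6], [2, 2]⟩,
  ⟨Int.negSucc 118327887395, [2, 3, 4, 4], [3]⟩,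
  ⟨Int.ofNat 2513310832573, [2, 3, 4, 4], [2, 2]⟩,
  ⟨Int.ofNat 1973718613010, [2, 3, 3, 5], [3]⟩]

def d6a_F12 : List Term := [
  ⟨Int.ofNat 961013523761, [2, 3, 3, 5], [2, 2]⟩,
  ⟨Int.negSucc 855357418580, [2, 3, 3, 3, 3], [3]⟩,
  ⟨Int.ofNat 75161579815, [2, 3, 3, 3, 3], [2, 2]⟩,
  ⟨Int.negSucc 1237848454126, [2, 2, 4, 5], [3]⟩,
  ⟨Int.negSucc 842735212403, [2, 2, 4, 5], [2, 2]⟩,
  ⟨Int.ofNat 24381089052, [2, 2, 3, 6], [3]⟩,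
  ⟨Int.ofNat 361592432658, [2, 2, 3, 6], [2, 2]⟩,
  ⟨Int.ofNat 1715982743572, [2, 2, 3, 3, 4], [3]⟩,
  ⟨Int.negSucc 2949668541067, [2, 2, 3, 3, 4], [2, 2]⟩,
  ⟨Int.negSucc 109253595752, [2, 2, 2, 4, 4], [3]⟩,
  ⟨Int.negSucc 468246622854, [2, 2, 2, 4, 4], [2, 2]⟩,
  ⟨Int.ofNat 2272667932321, [2, 2, 2, 3, 5], [3]⟩,
  ⟨Int.negSucc 2158336081445, [2, 2, 2, 3, 5], [2, 2]⟩,
  ⟨Int.negSucc 2090988080746, [2, 2, 2, 3, 3, 3], [3]⟩,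
  ⟨Int.ofNat 2522662086839, [2, 2, 2, 3, 3, 3], [2, 2]⟩,
  ⟨Int.negSucc 473023771723, [2, 2, 2, 2, 6], [3]⟩,
  ⟨Int.negSucc 220891577930, [2, 2, 2, 2, 6], [2, 2]⟩,
  ⟨Int.negSucc 2930669746242, [2, 2, 2, 2, 3, 4], [3]⟩,
  ⟨Int.ofNat 3429909213613, [2, 2, 2, 2, 3, 4], [2, 2]⟩,
  ⟨Int.negSucc 1556351604903, [2, 2, 2, 2, 2, 5], [3]⟩,
  ⟨Int.ofNat 1808786472269, [2, 2, 2, 2, 2, 5], [2, 2]⟩,
  ⟨Int.ofNat 2630971481284, [2, 2, 2, 2, 2, 3, 3], [3]⟩,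
  ⟨Int.negSucc 3017891639726, [2, 2, 2, 2, 2, 3, 3], [2, 2]⟩,
  ⟨Int.ofNat 1342473265586, [2, 2, 2, 2, 2, 2, 4], [3]⟩,
  ⟨Int.negSucc 1045684038808, [2, 2, 2, 2, 2, 2, 4], [2, 2]⟩,
  ⟨Int.negSucc 634761697220, [2, 2, 2, 2, 2, 2, 2, 3], [3]⟩,
  ⟨Int.ofNat 830627843974, [2, 2, 2, 2, 2, 2, 2, 3], [2, 2]⟩,
  ⟨Int.negSucc 83301700465, [2, 2, 2, 2, 2, 2, 2, 2, 2], [3]⟩,
  ⟨Int.negSucc 102711535596, [2, 2, 2, 2, 2, 2, 2, 2, 2], [2, 2]⟩,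
  ⟨Int.negSucc 5299646591006, [5, 5], [4]⟩,
  ⟨Int.ofNat 16104105353718, [5, 5], [2, 3]⟩,
  ⟨Int.negSucc 7882952576235, [5, 5], [2, 2, 2]⟩,
  ⟨Int.negSucc 875764577197, [4, 6], [4]⟩,
  ⟨Int.negSucc 794269321435, [4, 6], [2, 3]⟩,
  ⟨Int.ofNat 491544334906, [4, 6], [2, 2, 2]⟩,
  ⟨Int.negSucc 3981234870531, [3, 4, 4], [4]⟩,
  ⟨Int.ofNat 3758638611674, [3, 4, 4], [2, 3]⟩,
  ⟨Int.negSucc 661667479793, [3, 4, 4], [2, 2, 2]⟩,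
  ⟨Int.ofNat 5480578499006, [3, 3, 5], [4]⟩,
  ⟨Int.negSucc 21593918172577, [3, 3, 5], [2, 3]⟩,
  ⟨Int.ofNat 13247566476522, [3, 3, 5], [2, 2, 2]⟩,
  ⟨Int.negSucc 3466207568799, [3, 3, 3, 3], [4]⟩,
  ⟨Int.ofNat 10782001527670, [3, 3, 3, 3], [2, 3]⟩,
  ⟨Int.negSucc 7264878825864, [3, 3, 3, 3], [2, 2, 2]⟩,
  ⟨Int.ofNat 3652400934487, [2, 4, 5], [4]⟩,
  ⟨Int.negSucc 6347401601097, [2, 4, 5], [2, 3]⟩,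
  ⟨Int.ofNat 461101403547, [2, 4, 5], [2, 2, 2]⟩,
  ⟨Int.negSucc 61617349202, [2, 3, 6], [4]⟩,
  ⟨Int.ofNat 1447283985009, [2, 3, 6], [2, 3]⟩,
  ⟨Int.negSucc 387459444120, [2, 3, 6], [2, 2, 2]⟩,
  ⟨Int.ofNat 401229225343, [2, 3, 3, 4], [4]⟩,
  ⟨Int.ofNat 7001883322954, [2, 3, 3, 4], [2, 3]⟩,
  ⟨Int.negSucc 3642643505398, [2, 3, 3, 4], [2, 2, 2]⟩,
  ⟨Int.negSucc 3059062953232, [2, 2, 4, 4], [4]⟩,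
  ⟨Int.ofNat 3788525736633, [2, 2, 4, 4], [2, 3]⟩,
  ⟨Int.negSucc 221031428004, [2, 2, 4, 4], [2, 2, 2]⟩,
  ⟨Int.negSucc 1956767055466, [2, 2, 3, 5], [4]⟩,
  ⟨Int.ofNat 10827357748903, [2, 2, 3, 5], [2, 3]⟩,
  ⟨Int.negSucc 9467200121459, [2, 2, 3, 5], [2, 2, 2]⟩,
  ⟨Int.ofNat 4169379693983, [2, 2, 3, 3, 3], [4]⟩,
  ⟨Int.negSucc 13675013971448, [2, 2, 3, 3, 3], [2, 3]⟩,
  ⟨Int.ofNat 9771687768922, [2, 2, 3, 3, 3], [2, 2, 2]⟩,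
  ⟨Int.negSucc 540528374399, [2, 2, 2, 6], [4]⟩,
  ⟨Int.ofNat 1285185052385, [2, 2, 2, 6], [2, 3]⟩,
  ⟨Int.negSucc 1266770714852, [2, 2, 2, 6], [2, 2, 2]⟩,
  ⟨Int.ofNat 9571551005681, [2, 2, 2, 3, 4], [4]⟩,
  ⟨Int.negSucc 26506511466050, [2, 2, 2, 3, 4], [2, 3]⟩,
  ⟨Int.ofNat 16373956294636, [2, 2, 2, 3, 4], [2, 2, 2]⟩,
  ⟨Int.negSucc 818098226142, [2, 2, 2, 2, 5], [4]⟩,
  ⟨Int.negSucc 1626048575888, [2, 2, 2, 2, 5], [2, 3]⟩,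
  ⟨Int.ofNat 3177650863652, [2, 2, 2, 2, 5], [2, 2, 2]⟩,
  ⟨Int.ofNat 318118740411, [2, 2, 2, 2, 3, 3], [4]⟩,
  ⟨Int.ofNat 8147517396633, [2, 2, 2, 2, 3, 3], [2, 3]⟩,
  ⟨Int.negSucc 8803463668846, [2, 2, 2, 2, 3, 3], [2, 2, 2]⟩,
  ⟨Int.negSucc 5434015045031, [2, 2, 2, 2, 2, 4], [4]⟩,
  ⟨Int.ofNat 12827801077178, [2, 2, 2, 2, 2, 4], [2, 3]⟩,
  ⟨Int.negSucc 7931439394167, [2, 2, 2, 2, 2, 4], [2, 2, 2]⟩,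
  ⟨Int.negSucc 5663540643504, [2, 2, 2, 2, 2, 2, 3], [4]⟩,
  ⟨Int.ofNat 7773462268597, [2, 2, 2, 2, 2, 2, 3], [2, 3]⟩,
  ⟨Int.negSucc 1774308903202, [2, 2, 2, 2, 2, 2, 3], [2, 2, 2]⟩,
  ⟨Int.ofNat 3887432929779, [2, 2, 2, 2, 2, 2, 2, 2], [4]⟩,
  ⟨Int.negSucc 7443999543148, [2, 2, 2, 2, 2, 2, 2, 2], [2, 3]⟩,
  ⟨Int.ofNat 3611549152193, [2, 2, 2, 2, 2, 2, 2, 2], [2, 2, 2]⟩,
  ⟨Int.negSucc 5299646591006, [4, 5], [5]⟩,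
  ⟨Int.ofNat 13154709024830, [4, 5], [3, 3]⟩,
  ⟨Int.ofNat 18694413135446, [4, 5], [2, 4]⟩,
  ⟨Int.negSucc 30919839135925, [4, 5], [2, 2, 3]⟩,
  ⟨Int.ofNat 8659324005153, [4, 5], [2, 2, 2, 2]⟩,
  ⟨Int.ofNat 2713001880333, [3, 6], [5]⟩,
  ⟨Int.negSucc 5181212113748, [3, 6], [3, 3]⟩,
  ⟨Int.ofNat 251575724967, [3, 6], [2, 4]⟩,
  ⟨Int.ofNat 1602512343330, [3, 6], [2, 2, 3]⟩,
  ⟨Int.ofNat 462212610728, [3, 6], [2, 2, 2, 2]⟩,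
  ⟨Int.ofNat 4763496419499, [3, 3, 4], [5]⟩,
  ⟨Int.negSucc 15694347631290, [3, 3, 4], [3, 3]⟩,
  ⟨Int.negSucc 30435067483440, [3, 3, 4], [2, 4]⟩,
  ⟨Int.ofNat 71358203525032, [3, 3, 4], [2, 2, 3]⟩,
  ⟨Int.negSucc 31373931865989, [3, 3, 4], [2, 2, 2, 2]⟩,
  ⟨Int.ofNat 7162099810839, [2, 4, 4], [5]⟩,
  ⟨Int.negSucc 7531637029064, [2, 4, 4], [3, 3]⟩]

def d6a_F13 : List Term := [
  ⟨Int.negSucc 17857700787854, [2, 4, 4], [2, 4]⟩,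
  ⟨Int.ofNat 18859574288878, [2, 4, 4], [2, 2, 3]⟩,
  ⟨Int.negSucc 2829342431230, [2, 4, 4], [2, 2, 2, 2]⟩,
  ⟨Int.negSucc 19230161253049, [2, 3, 5], [5]⟩,
  ⟨Int.ofNat 20760890695694, [2, 3, 5], [3, 3]⟩,
  ⟨Int.ofNat 47780561736315, [2, 3, 5], [2, 4]⟩,
  ⟨Int.negSucc 60171500572277, [2, 3, 5], [2, 2, 3]⟩,
  ⟨Int.ofNat 11185346740101, [2, 3, 5], [2, 2, 2, 2]⟩,
  ⟨Int.ofNat 27087888550969, [2, 3, 3, 3], [5]⟩,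
  ⟨Int.negSucc 20512491096893, [2, 3, 3, 3], [3, 3]⟩,
  ⟨Int.negSucc 43036754409848, [2, 3, 3, 3], [2, 4]⟩,
  ⟨Int.ofNat 44509615148433, [2, 3, 3, 3], [2, 2, 3]⟩,
  ⟨Int.negSucc 7110510670921, [2, 3, 3, 3], [2, 2, 2, 2]⟩,
  ⟨Int.ofNat 7825098545624, [2, 2, 6], [5]⟩,
  ⟨Int.negSucc 3422600582496, [2, 2, 6], [3, 3]⟩,
  ⟨Int.negSucc 14501293185625, [2, 2, 6], [2, 4]⟩,
  ⟨Int.ofNat 15702198130722, [2, 2, 6], [2, 2, 3]⟩,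
  ⟨Int.negSucc 5039178822978, [2, 2, 6], [2, 2, 2, 2]⟩,
  ⟨Int.negSucc 25978475685028, [2, 2, 3, 4], [5]⟩,
  ⟨Int.ofNat 20751085360251, [2, 2, 3, 4], [3, 3]⟩,
  ⟨Int.ofNat 50900215429046, [2, 2, 3, 4], [2, 4]⟩,
  ⟨Int.negSucc 85643971970433, [2, 2, 3, 4], [2, 2, 3]⟩,
  ⟨Int.ofNat 36418302336769, [2, 2, 3, 4], [2, 2, 2, 2]⟩,
  ⟨Int.negSucc 893155014476, [2, 2, 2, 5], [5]⟩,
  ⟨Int.ofNat 2810742580797, [2, 2, 2, 5], [3, 3]⟩,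
  ⟨Int.ofNat 2466582320049, [2, 2, 2, 5], [2, 4]⟩,
  ⟨Int.negSucc 18633644319941, [2, 2, 2, 5], [2, 2, 3]⟩,
  ⟨Int.ofNat 13068537582994, [2, 2, 2, 5], [2, 2, 2, 2]⟩,
  ⟨Int.negSucc 12641381541880, [2, 2, 2, 3, 3], [5]⟩,
  ⟨Int.ofNat 19081706000502, [2, 2, 2, 3, 3], [3, 3]⟩,
  ⟨Int.ofNat 33129220586778, [2, 2, 2, 3, 3], [2, 4]⟩,
  ⟨Int.negSucc 35220642430812, [2, 2, 2, 3, 3], [2, 2, 3]⟩,
  ⟨Int.negSucc 386218867621, [2, 2, 2, 3, 3], [2, 2, 2, 2]⟩,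
  ⟨Int.negSucc 7116648197671, [2, 2, 2, 2, 4], [5]⟩,
  ⟨Int.ofNat 9132446245091, [2, 2, 2, 2, 4], [3, 3]⟩,
  ⟨Int.ofNat 9419524032722, [2, 2, 2, 2, 4], [2, 4]⟩,
  ⟨Int.negSucc 898577039497, [2, 2, 2, 2, 4], [2, 2, 3]⟩,
  ⟨Int.negSucc 7648857726148, [2, 2, 2, 2, 4], [2, 2, 2, 2]⟩,
  ⟨Int.ofNat 31168522103308, [2, 2, 2, 2, 2, 3], [5]⟩,
  ⟨Int.negSucc 37706318646224, [2, 2, 2, 2, 2, 3], [3, 3]⟩,
  ⟨Int.negSucc 68909344154868, [2, 2, 2, 2, 2, 3], [2, 4]⟩,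
  ⟨Int.ofNat 95324341422956, [2, 2, 2, 2, 2, 3], [2, 2, 3]⟩,
  ⟨Int.negSucc 22995231360979, [2, 2, 2, 2, 2, 3], [2, 2, 2, 2]⟩,
  ⟨Int.negSucc 14319654946492, [2, 2, 2, 2, 2, 2, 2], [5]⟩,
  ⟨Int.ofNat 15737405470610, [2, 2, 2, 2, 2, 2, 2], [3, 3]⟩,
  ⟨Int.ofNat 29382747785130, [2, 2, 2, 2, 2, 2, 2], [2, 4]⟩,
  ⟨Int.negSucc 43389194988531, [2, 2, 2, 2, 2, 2, 2], [2, 2, 3]⟩,
  ⟨Int.ofNat 12951822239993, [2, 2, 2, 2, 2, 2, 2], [2, 2, 2, 2]⟩,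
  ⟨Int.ofNat 9439968596987, [4, 4], [6]⟩,
  ⟨Int.ofNat 5951912038503, [4, 4], [3, 4]⟩,
  ⟨Int.ofNat 5260579732633, [4, 4], [2, 5]⟩,
  ⟨Int.negSucc 32069695025920, [4, 4], [2, 3, 3]⟩,
  ⟨Int.negSucc 32938677577645, [4, 4], [2, 2, 4]⟩,
  ⟨Int.ofNat 64636803758632, [4, 4], [2, 2, 2, 3]⟩,
  ⟨Int.negSucc 18136803010858, [4, 4], [2, 2, 2, 2, 2]⟩,
  ⟨Int.negSucc 31549391378977, [3, 5], [6]⟩,
  ⟨Int.ofNat 25198818018299, [3, 5], [3, 4]⟩,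
  ⟨Int.ofNat 27238147980689, [3, 5], [2, 5]⟩,
  ⟨Int.negSucc 7787745250112, [3, 5], [2, 3, 3]⟩,
  ⟨Int.negSucc 8667853682224, [3, 5], [2, 2, 4]⟩,
  ⟨Int.negSucc 9953480932689, [3, 5], [2, 2, 2, 3]⟩,
  ⟨Int.ofNat 1911093291322, [3, 5], [2, 2, 2, 2, 2]⟩,
  ⟨Int.ofNat 27788913934318, [3, 3, 3], [6]⟩,
  ⟨Int.negSucc 30382260252405, [3, 3, 3], [3, 4]⟩,
  ⟨Int.negSucc 13523806410365, [3, 3, 3], [2, 5]⟩,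
  ⟨Int.ofNat 31548950376960, [3, 3, 3], [2, 3, 3]⟩,
  ⟨Int.ofNat 3377425897066, [3, 3, 3], [2, 2, 4]⟩,
  ⟨Int.negSucc 24201415957533, [3, 3, 3], [2, 2, 2, 3]⟩,
  ⟨Int.ofNat 10961890427212, [3, 3, 3], [2, 2, 2, 2, 2]⟩,
  ⟨Int.negSucc 12654022649060, [2, 6], [6]⟩,
  ⟨Int.ofNat 5135204913566, [2, 6], [3, 4]⟩,
  ⟨Int.ofNat 14178724376431, [2, 6], [2, 5]⟩,
  ⟨Int.negSucc 14186672141103, [2, 6], [2, 3, 3]⟩,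
  ⟨Int.negSucc 15022799950146, [2, 6], [2, 2, 4]⟩,
  ⟨Int.ofNat 33855569279304, [2, 6], [2, 2, 2, 3]⟩,
  ⟨Int.negSucc 13881283545055, [2, 6], [2, 2, 2, 2, 2]⟩,
  ⟨Int.ofNat 85727399956277, [2, 3, 4], [6]⟩,
  ⟨Int.negSucc 132510958653228, [2, 3, 4], [3, 4]⟩,
  ⟨Int.negSucc 234446608278195, [2, 3, 4], [2, 5]⟩,
  ⟨Int.ofNat 272422422101156, [2, 3, 4], [2, 3, 3]⟩,
  ⟨Int.ofNat 361545166389794, [2, 3, 4], [2, 2, 4]⟩,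
  ⟨Int.negSucc 506114475738796, [2, 3, 4], [2, 2, 2, 3]⟩,
  ⟨Int.ofNat 151774806897847, [2, 3, 4], [2, 2, 2, 2, 2]⟩,
  ⟨Int.negSucc 85789037193519, [2, 2, 5], [6]⟩,
  ⟨Int.ofNat 247424280476943, [2, 2, 5], [3, 4]⟩,
  ⟨Int.ofNat 194625491119461, [2, 2, 5], [2, 5]⟩,
  ⟨Int.negSucc 385751658456134, [2, 2, 5], [2, 3, 3]⟩,
  ⟨Int.negSucc 339044415059236, [2, 2, 5], [2, 2, 4]⟩,
  ⟨Int.ofNat 476795686778539, [2, 2, 5], [2, 2, 2, 3]⟩,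
  ⟨Int.negSucc 106025770052744, [2, 2, 5], [2, 2, 2, 2, 2]⟩,
  ⟨Int.negSucc 37932896346558, [2, 2, 3, 3], [6]⟩,
  ⟨Int.ofNat 11696608827734, [2, 2, 3, 3], [3, 4]⟩,
  ⟨Int.ofNat 102202554348456, [2, 2, 3, 3], [2, 5]⟩,
  ⟨Int.negSucc 75242642493456, [2, 2, 3, 3], [2, 3, 3]⟩,
  ⟨Int.negSucc 140709857118281, [2, 2, 3, 3], [2, 2, 4]⟩,
  ⟨Int.ofNat 232127272177940, [2, 2, 3, 3], [2, 2, 2, 3]⟩,
  ⟨Int.negSucc 93641309759375, [2, 2, 3, 3], [2, 2, 2, 2, 2]⟩,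
  ⟨Int.ofNat 91814326504519, [2, 2, 2, 4], [6]⟩,
  ⟨Int.negSucc 275584882262155, [2, 2, 2, 4], [3, 4]⟩,
  ⟨Int.negSucc 201369506176446, [2, 2, 2, 4], [2, 5]⟩]

def d6a_F14 : List Term := [
  ⟨Int.ofNat 363468358443636, [2, 2, 2, 4], [2, 3, 3]⟩,
  ⟨Int.ofNat 310611642171548, [2, 2, 2, 4], [2, 2, 4]⟩,
  ⟨Int.negSucc 349599455300461, [2, 2, 2, 4], [2, 2, 2, 3]⟩,
  ⟨Int.ofNat 49250946748784, [2, 2, 2, 4], [2, 2, 2, 2, 2]⟩,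
  ⟨Int.negSucc 93913231753700, [2, 2, 2, 2, 3], [6]⟩,
  ⟨Int.ofNat 308936442588704, [2, 2, 2, 2, 3], [3, 4]⟩,
  ⟨Int.ofNat 219597994273941, [2, 2, 2, 2, 3], [2, 5]⟩,
  ⟨Int.negSucc 414961620767546, [2, 2, 2, 2, 3], [2, 3, 3]⟩,
  ⟨Int.negSucc 345670354098044, [2, 2, 2, 2, 3], [2, 2, 4]⟩,
  ⟨Int.ofNat 377859897328778, [2, 2, 2, 2, 3], [2, 2, 2, 3]⟩,
  ⟨Int.negSucc 40513018957941, [2, 2, 2, 2, 3], [2, 2, 2, 2, 2]⟩,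
  ⟨Int.ofNat 38626620389782, [2, 2, 2, 2, 2, 2], [6]⟩,
  ⟨Int.negSucc 122247095131583, [2, 2, 2, 2, 2, 2], [3, 4]⟩,
  ⟨Int.negSucc 98653859091009, [2, 2, 2, 2, 2, 2], [2, 5]⟩,
  ⟨Int.ofNat 183045659216996, [2, 2, 2, 2, 2, 2], [2, 3, 3]⟩,
  ⟨Int.ofNat 158159858242161, [2, 2, 2, 2, 2, 2], [2, 2, 4]⟩,
  ⟨Int.negSucc 197360610065654, [2, 2, 2, 2, 2, 2], [2, 2, 2, 3]⟩,
  ⟨Int.ofNat 34611515487426, [2, 2, 2, 2, 2, 2], [2, 2, 2, 2, 2]⟩,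
  ⟨Int.negSucc 43421462629150, [6], [7]⟩,
  ⟨Int.ofNat 49883950612577, [6], [4, 4]⟩,
  ⟨Int.ofNat 123436487133438, [6], [3, 5]⟩,
  ⟨Int.negSucc 73991277788043, [6], [3, 3, 3]⟩,
  ⟨Int.ofNat 145248794355969, [6], [2, 6]⟩,
  ⟨Int.negSucc 428206043811557, [6], [2, 3, 4]⟩,
  ⟨Int.negSucc 249482464809635, [6], [2, 2, 5]⟩,
  ⟨Int.ofNat 473347668640304, [6], [2, 2, 3, 3]⟩,
  ⟨Int.ofNat 329556940644940, [6], [2, 2, 2, 4]⟩,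
  ⟨Int.negSucc 397762079371208, [6], [2, 2, 2, 2, 3]⟩,
  ⟨Int.ofNat 72638442830131, [6], [2, 2, 2, 2, 2, 2]⟩,
  ⟨Int.ofNat 70919409466453, [3, 4], [7]⟩,
  ⟨Int.negSucc 73309384604075, [3, 4], [4, 4]⟩,
  ⟨Int.negSucc 206060078853814, [3, 4], [3, 5]⟩,
  ⟨Int.ofNat 129056605085005, [3, 4], [3, 3, 3]⟩,
  ⟨Int.negSucc 204156861255765, [3, 4], [2, 6]⟩,
  ⟨Int.ofNat 611757197451975, [3, 4], [2, 3, 4]⟩,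
  ⟨Int.ofNat 316013720375275, [3, 4], [2, 2, 5]⟩,
  ⟨Int.negSucc 658102766805975, [3, 4], [2, 2, 3, 3]⟩,
  ⟨Int.negSucc 382701676862690, [3, 4], [2, 2, 2, 4]⟩,
  ⟨Int.ofNat 463129381813922, [3, 4], [2, 2, 2, 2, 3]⟩,
  ⟨Int.negSucc 70607316407876, [3, 4], [2, 2, 2, 2, 2, 2]⟩,
  ⟨Int.ofNat 11054660914009, [2, 5], [7]⟩,
  ⟨Int.negSucc 40998086191251, [2, 5], [4, 4]⟩,
  ⟨Int.negSucc 42008469322189, [2, 5], [3, 5]⟩,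
  ⟨Int.ofNat 27149561141252, [2, 5], [3, 3, 3]⟩,
  ⟨Int.negSucc 292013252100428, [2, 5], [2, 6]⟩,
  ⟨Int.ofNat 759651837552352, [2, 5], [2, 3, 4]⟩,
  ⟨Int.ofNat 615388554774015, [2, 5], [2, 2, 5]⟩,
  ⟨Int.negSucc 1017187640339303, [2, 5], [2, 2, 3, 3]⟩,
  ⟨Int.negSucc 956777475586797, [2, 5], [2, 2, 2, 4]⟩,
  ⟨Int.ofNat 1209006139806710, [2, 5], [2, 2, 2, 2, 3]⟩,
  ⟨Int.negSucc 270073973798121, [2, 5], [2, 2, 2, 2, 2, 2]⟩,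
  ⟨Int.negSucc 36280179696376, [2, 3, 3], [7]⟩,
  ⟨Int.ofNat 48046664149495, [2, 3, 3], [4, 4]⟩,
  ⟨Int.ofNat 146186906126673, [2, 3, 3], [3, 5]⟩,
  ⟨Int.negSucc 99412912774328, [2, 3, 3], [3, 3, 3]⟩,
  ⟨Int.ofNat 292058339611415, [2, 3, 3], [2, 6]⟩,
  ⟨Int.negSucc 770367017257572, [2, 3, 3], [2, 3, 4]⟩,
  ⟨Int.negSucc 550247685704945, [2, 3, 3], [2, 2, 5]⟩,
  ⟨Int.ofNat 1004934811341578, [2, 3, 3], [2, 2, 3, 3]⟩,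
  ⟨Int.ofNat 763811858661716, [2, 3, 3], [2, 2, 2, 4]⟩,
  ⟨Int.negSucc 970977281575453, [2, 3, 3], [2, 2, 2, 2, 3]⟩,
  ⟨Int.ofNat 184456098254213, [2, 3, 3], [2, 2, 2, 2, 2, 2]⟩,
  ⟨Int.negSucc 18426184903400, [2, 2, 4], [7]⟩,
  ⟨Int.ofNat 83376111045084, [2, 2, 4], [4, 4]⟩,
  ⟨Int.ofNat 59174857024662, [2, 2, 4], [3, 5]⟩,
  ⟨Int.negSucc 59612090078011, [2, 2, 4], [3, 3, 3]⟩,
  ⟨Int.ofNat 373281592272184, [2, 2, 4], [2, 6]⟩,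
  ⟨Int.negSucc 1080109589691100, [2, 2, 4], [2, 3, 4]⟩,
  ⟨Int.negSucc 805828168336244, [2, 2, 4], [2, 2, 5]⟩,
  ⟨Int.ofNat 1398666939226935, [2, 2, 4], [2, 2, 3, 3]⟩,
  ⟨Int.ofNat 1288333134349237, [2, 2, 4], [2, 2, 2, 4]⟩,
  ⟨Int.negSucc 1615308232355162, [2, 2, 4], [2, 2, 2, 2, 3]⟩,
  ⟨Int.ofNat 359289985488752, [2, 2, 4], [2, 2, 2, 2, 2, 2]⟩,
  ⟨Int.ofNat 24380581461098, [2, 2, 2, 3], [7]⟩,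
  ⟨Int.negSucc 76339173158144, [2, 2, 2, 3], [4, 4]⟩,
  ⟨Int.negSucc 107394623008265, [2, 2, 2, 3], [3, 5]⟩,
  ⟨Int.ofNat 93350718233600, [2, 2, 2, 3], [3, 3, 3]⟩,
  ⟨Int.negSucc 449786783109305, [2, 2, 2, 3], [2, 6]⟩,
  ⟨Int.ofNat 1290053902102687, [2, 2, 2, 3], [2, 3, 4]⟩,
  ⟨Int.ofNat 1013887604674153, [2, 2, 2, 3], [2, 2, 5]⟩,
  ⟨Int.negSucc 1764346986905757, [2, 2, 2, 3], [2, 2, 3, 3]⟩,
  ⟨Int.negSucc 1616680317439466, [2, 2, 2, 3], [2, 2, 2, 4]⟩,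
  ⟨Int.ofNat 2063462441718158, [2, 2, 2, 3], [2, 2, 2, 2, 3]⟩,
  ⟨Int.negSucc 457947677847430, [2, 2, 2, 3], [2, 2, 2, 2, 2, 2]⟩,
  ⟨Int.negSucc 10746374145867, [2, 2, 2, 2, 2], [7]⟩,
  ⟨Int.ofNat 21137621152132, [2, 2, 2, 2, 2], [4, 4]⟩,
  ⟨Int.ofNat 37844162530796, [2, 2, 2, 2, 2], [3, 5]⟩,
  ⟨Int.negSucc 35379817433000, [2, 2, 2, 2, 2], [3, 3, 3]⟩,
  ⟨Int.ofNat 133053982555020, [2, 2, 2, 2, 2], [2, 6]⟩,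
  ⟨Int.negSucc 396160022669605, [2, 2, 2, 2, 2], [2, 3, 4]⟩,
  ⟨Int.negSucc 311553205357943, [2, 2, 2, 2, 2], [2, 2, 5]⟩,
  ⟨Int.ofNat 563686918307499, [2, 2, 2, 2, 2], [2, 2, 3, 3]⟩,
  ⟨Int.ofNat 518453037858082, [2, 2, 2, 2, 2], [2, 2, 2, 4]⟩,
  ⟨Int.negSucc 688061908825794, [2, 2, 2, 2, 2], [2, 2, 2, 2, 3]⟩,
  ⟨Int.ofNat 161648552644858, [2, 2, 2, 2, 2], [2, 2, 2, 2, 2, 2]⟩,
  ⟨Int.ofNat 5299646591007, [5], [4, 5]⟩,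
  ⟨Int.ofNat 37876402703508, [5], [3, 6]⟩,
  ⟨Int.negSucc 98441527846774, [5], [3, 3, 4]⟩,
  ⟨Int.ofNat 14279894090647, [5], [2, 7]⟩,
  ⟨Int.negSucc 48612272867177, [5], [2, 4, 4]⟩]

def d6a_F15 : List Term := [
  ⟨Int.negSucc 24269048002775, [5], [2, 3, 5]⟩,
  ⟨Int.ofNat 79351078941620, [5], [2, 3, 3, 3]⟩,
  ⟨Int.negSucc 107555469207876, [5], [2, 2, 6]⟩,
  ⟨Int.ofNat 399103726628757, [5], [2, 2, 3, 4]⟩,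
  ⟨Int.ofNat 185765189707179, [5], [2, 2, 2, 5]⟩,
  ⟨Int.negSucc 437050227000549, [5], [2, 2, 2, 3, 3]⟩,
  ⟨Int.negSucc 346241835199861, [5], [2, 2, 2, 2, 4]⟩,
  ⟨Int.ofNat 442336941336692, [5], [2, 2, 2, 2, 2, 3]⟩,
  ⟨Int.negSucc 95605530128431, [5], [2, 2, 2, 2, 2, 2, 2]⟩,
  ⟨Int.negSucc 8584137013511, [3, 3], [4, 5]⟩,
  ⟨Int.negSucc 15132574980692, [3, 3], [3, 6]⟩,
  ⟨Int.ofNat 56749107874009, [3, 3], [3, 3, 4]⟩,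
  ⟨Int.negSucc 1561658021453, [3, 3], [2, 7]⟩,
  ⟨Int.ofNat 7696208227948, [3, 3], [2, 4, 4]⟩,
  ⟨Int.negSucc 75060726182499, [3, 3], [2, 3, 5]⟩,
  ⟨Int.negSucc 20388210614245, [3, 3], [2, 3, 3, 3]⟩,
  ⟨Int.ofNat 41964813391996, [3, 3], [2, 2, 6]⟩,
  ⟨Int.negSucc 130792968284623, [3, 3], [2, 2, 3, 4]⟩,
  ⟨Int.negSucc 48000313217920, [3, 3], [2, 2, 2, 5]⟩,
  ⟨Int.ofNat 174398942426596, [3, 3], [2, 2, 2, 3, 3]⟩,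
  ⟨Int.ofNat 160874569352903, [3, 3], [2, 2, 2, 2, 4]⟩,
  ⟨Int.negSucc 199086833334276, [3, 3], [2, 2, 2, 2, 2, 3]⟩,
  ⟨Int.ofNat 37623799038838, [3, 3], [2, 2, 2, 2, 2, 2, 2]⟩,
  ⟨Int.negSucc 28071960577010, [2, 4], [4, 5]⟩,
  ⟨Int.negSucc 15179307668316, [2, 4], [3, 6]⟩,
  ⟨Int.ofNat 91223079753463, [2, 4], [3, 3, 4]⟩,
  ⟨Int.negSucc 8006916417722, [2, 4], [2, 7]⟩,
  ⟨Int.ofNat 156247944705433, [2, 4], [2, 4, 4]⟩,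
  ⟨Int.negSucc 12023851389512, [2, 4], [2, 3, 5]⟩,
  ⟨Int.negSucc 54434572845822, [2, 4], [2, 3, 3, 3]⟩,
  ⟨Int.ofNat 143637741614469, [2, 4], [2, 2, 6]⟩,
  ⟨Int.negSucc 696101246686735, [2, 4], [2, 2, 3, 4]⟩,
  ⟨Int.negSucc 244356871545671, [2, 4], [2, 2, 2, 5]⟩,
  ⟨Int.ofNat 605290246617612, [2, 4], [2, 2, 2, 3, 3]⟩,
  ⟨Int.ofNat 492545767843224, [2, 4], [2, 2, 2, 2, 4]⟩,
  ⟨Int.negSucc 538511154891484, [2, 4], [2, 2, 2, 2, 2, 3]⟩,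
  ⟨Int.ofNat 95359060306189, [2, 4], [2, 2, 2, 2, 2, 2, 2]⟩,
  ⟨Int.ofNat 44616629579958, [2, 2, 3], [4, 5]⟩,
  ⟨Int.ofNat 1812261734498, [2, 2, 3], [3, 6]⟩,
  ⟨Int.negSucc 132013270617367, [2, 2, 3], [3, 3, 4]⟩,
  ⟨Int.ofNat 14965100303235, [2, 2, 3], [2, 7]⟩,
  ⟨Int.negSucc 195738472956175, [2, 2, 3], [2, 4, 4]⟩,
  ⟨Int.ofNat 94907204790572, [2, 2, 3], [2, 3, 5]⟩,
  ⟨Int.ofNat 77897236744731, [2, 2, 3], [2, 3, 3, 3]⟩,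
  ⟨Int.negSucc 144552409122716, [2, 2, 3], [2, 2, 6]⟩,
  ⟨Int.ofNat 866050087118554, [2, 2, 3], [2, 2, 3, 4]⟩,
  ⟨Int.ofNat 256789839273122, [2, 2, 3], [2, 2, 2, 5]⟩,
  ⟨Int.negSucc 783345854905647, [2, 2, 3], [2, 2, 2, 3, 3]⟩,
  ⟨Int.negSucc 649815543888479, [2, 2, 3], [2, 2, 2, 2, 4]⟩,
  ⟨Int.ofNat 700288033178002, [2, 2, 3], [2, 2, 2, 2, 2, 3]⟩,
  ⟨Int.negSucc 113835805302397, [2, 2, 3], [2, 2, 2, 2, 2, 2, 2]⟩,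
  ⟨Int.negSucc 16723106832608, [2, 2, 2, 2], [4, 5]⟩,
  ⟨Int.negSucc 2628410753936, [2, 2, 2, 2], [3, 6]⟩,
  ⟨Int.ofNat 57825726385160, [2, 2, 2, 2], [3, 3, 4]⟩,
  ⟨Int.negSucc 9657708231100, [2, 2, 2, 2], [2, 7]⟩,
  ⟨Int.ofNat 77313433376631, [2, 2, 2, 2], [2, 4, 4]⟩,
  ⟨Int.ofNat 1084178412881, [2, 2, 2, 2], [2, 3, 5]⟩,
  ⟨Int.negSucc 57067700160084, [2, 2, 2, 2], [2, 3, 3, 3]⟩,
  ⟨Int.ofNat 56378784180791, [2, 2, 2, 2], [2, 2, 6]⟩,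
  ⟨Int.negSucc 369562474746615, [2, 2, 2, 2], [2, 2, 3, 4]⟩,
  ⟨Int.negSucc 115806910412324, [2, 2, 2, 2], [2, 2, 2, 5]⟩,
  ⟨Int.ofNat 357319142424191, [2, 2, 2, 2], [2, 2, 2, 3, 3]⟩,
  ⟨Int.ofNat 264297848732958, [2, 2, 2, 2], [2, 2, 2, 2, 4]⟩,
  ⟨Int.negSucc 303316384071637, [2, 2, 2, 2], [2, 2, 2, 2, 2, 3]⟩,
  ⟨Int.ofNat 50285984414770, [2, 2, 2, 2], [2, 2, 2, 2, 2, 2, 2]⟩,
  ⟨Int.ofNat 5299646591007, [4], [5, 5]⟩,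
  ⟨Int.ofNat 4189174404942, [4], [4, 6]⟩,
  ⟨Int.ofNat 2785035582830, [4], [3, 7]⟩,
  ⟨Int.negSucc 16357276755701, [4], [3, 4, 4]⟩,
  ⟨Int.negSucc 15109321004681, [4], [3, 3, 5]⟩,
  ⟨Int.ofNat 4529999315575, [4], [3, 3, 3, 3]⟩,
  ⟨Int.negSucc 5299646528446, [4], [2, 4, 5]⟩,
  ⟨Int.ofNat 12650168937439, [4], [2, 3, 6]⟩,
  ⟨Int.ofNat 29915065259753, [4], [2, 3, 3, 4]⟩,
  ⟨Int.negSucc 14711812859441, [4], [2, 2, 7]⟩,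
  ⟨Int.ofNat 34535274281503, [4], [2, 2, 4, 4]⟩,
  ⟨Int.ofNat 43545351698165, [4], [2, 2, 3, 5]⟩,
  ⟨Int.negSucc 45208560273673, [4], [2, 2, 3, 3, 3]⟩,
  ⟨Int.ofNat 19654335107387, [4], [2, 2, 2, 6]⟩,
  ⟨Int.negSucc 146722740991183, [4], [2, 2, 2, 3, 4]⟩,
  ⟨Int.negSucc 51398718552394, [4], [2, 2, 2, 2, 5]⟩,
  ⟨Int.ofNat 144424109669846, [4], [2, 2, 2, 2, 3, 3]⟩,
  ⟨Int.ofNat 81176661158537, [4], [2, 2, 2, 2, 2, 4]⟩,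
  ⟨Int.negSucc 99818340247340, [4], [2, 2, 2, 2, 2, 2, 3]⟩,
  ⟨Int.ofNat 16131815673439, [4], [2, 2, 2, 2, 2, 2, 2, 2]⟩,
  ⟨Int.negSucc 18068369828300, [2, 3], [5, 5]⟩,
  ⟨Int.negSucc 19401135231327, [2, 3], [4, 6]⟩,
  ⟨Int.ofNat 1715215516573, [2, 3], [3, 7]⟩,
  ⟨Int.ofNat 54220578409205, [2, 3], [3, 4, 4]⟩,
  ⟨Int.ofNat 37950718665541, [2, 3], [3, 3, 5]⟩,
  ⟨Int.negSucc 11196403365261, [2, 3], [3, 3, 3, 3]⟩,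
  ⟨Int.ofNat 17493563513052, [2, 3], [2, 4, 5]⟩,
  ⟨Int.negSucc 39585561504617, [2, 3], [2, 3, 6]⟩,
  ⟨Int.negSucc 79752942514634, [2, 3], [2, 3, 3, 4]⟩,
  ⟨Int.ofNat 11825149987328, [2, 3], [2, 2, 7]⟩,
  ⟨Int.negSucc 52264485387762, [2, 3], [2, 2, 4, 4]⟩,
  ⟨Int.negSucc 74368980718308, [2, 3], [2, 2, 3, 5]⟩,
  ⟨Int.ofNat 73889015975380, [2, 3], [2, 2, 3, 3, 3]⟩,
  ⟨Int.negSucc 17516351085609, [2, 3], [2, 2, 2, 6]⟩,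
  ⟨Int.ofNat 206925065141542, [2, 3], [2, 2, 2, 3, 4]⟩]

def d6a_F16 : List Term := [
  ⟨Int.ofNat 92033111238934, [2, 3], [2, 2, 2, 2, 5]⟩,
  ⟨Int.negSucc 184913167306513, [2, 3], [2, 2, 2, 2, 3, 3]⟩,
  ⟨Int.negSucc 123077101896128, [2, 3], [2, 2, 2, 2, 2, 4]⟩,
  ⟨Int.ofNat 123999137618221, [2, 3], [2, 2, 2, 2, 2, 2, 3]⟩,
  ⟨Int.negSucc 17334287574327, [2, 3], [2, 2, 2, 2, 2, 2, 2, 2]⟩,
  ⟨Int.ofNat 5493800541668, [2, 2, 2], [5, 5]⟩,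
  ⟨Int.ofNat 6287227925285, [2, 2, 2], [4, 6]⟩,
  ⟨Int.ofNat 1842573286, [2, 2, 2], [3, 7]⟩,
  ⟨Int.negSucc 30643195847729, [2, 2, 2], [3, 4, 4]⟩,
  ⟨Int.negSucc 27346012743100, [2, 2, 2], [3, 3, 5]⟩,
  ⟨Int.ofNat 8075233290945, [2, 2, 2], [3, 3, 3, 3]⟩,
  ⟨Int.negSucc 5688061028381, [2, 2, 2], [2, 4, 5]⟩,
  ⟨Int.ofNat 4060770620215, [2, 2, 2], [2, 3, 6]⟩,
  ⟨Int.ofNat 71074723424441, [2, 2, 2], [2, 3, 3, 4]⟩,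
  ⟨Int.negSucc 3964810682152, [2, 2, 2], [2, 2, 7]⟩,
  ⟨Int.ofNat 20090441135043, [2, 2, 2], [2, 2, 4, 4]⟩,
  ⟨Int.ofNat 67326376854977, [2, 2, 2], [2, 2, 3, 5]⟩,
  ⟨Int.negSucc 66901192412686, [2, 2, 2], [2, 2, 3, 3, 3]⟩,
  ⟨Int.ofNat 15534699997025, [2, 2, 2], [2, 2, 2, 6]⟩,
  ⟨Int.negSucc 138190814127097, [2, 2, 2], [2, 2, 2, 3, 4]⟩,
  ⟨Int.negSucc 60334167927900, [2, 2, 2], [2, 2, 2, 2, 5]⟩,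
  ⟨Int.ofNat 133849601663670, [2, 2, 2], [2, 2, 2, 2, 3, 3]⟩,
  ⟨Int.ofNat 74023316790299, [2, 2, 2], [2, 2, 2, 2, 2, 4]⟩,
  ⟨Int.negSucc 80175253951198, [2, 2, 2], [2, 2, 2, 2, 2, 2, 3]⟩,
  ⟨Int.ofNat 10816543420816, [2, 2, 2], [2, 2, 2, 2, 2, 2, 2, 2]⟩,
  ⟨Int.ofNat 16993645494518, [3], [5, 6]⟩,
  ⟨Int.ofNat 1378511733370, [3], [4, 7]⟩,
  ⟨Int.negSucc 1442336254570, [3], [4, 4, 4]⟩,
  ⟨Int.negSucc 10138048006168, [3], [3, 4, 5]⟩,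
  ⟨Int.negSucc 8174654736606, [3], [3, 3, 6]⟩,
  ⟨Int.ofNat 14385362748930, [3], [3, 3, 3, 4]⟩,
  ⟨Int.negSucc 12514971054618, [3], [2, 5, 5]⟩,
  ⟨Int.negSucc 2650009529480, [3], [2, 4, 6]⟩,
  ⟨Int.ofNat 1733962447333, [3], [2, 3, 7]⟩,
  ⟨Int.ofNat 3560718620958, [3], [2, 3, 4, 4]⟩,
  ⟨Int.ofNat 18482951394153, [3], [2, 3, 3, 5]⟩,
  ⟨Int.negSucc 16127734754038, [3], [2, 3, 3, 3, 3]⟩,
  ⟨Int.ofNat 15286099730905, [3], [2, 2, 4, 5]⟩,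
  ⟨Int.ofNat 1822210063184, [3], [2, 2, 3, 6]⟩,
  ⟨Int.negSucc 30754105954081, [3], [2, 2, 3, 3, 4]⟩,
  ⟨Int.negSucc 1010247121, [3], [2, 2, 2, 7]⟩,
  ⟨Int.negSucc 8644866288639, [3], [2, 2, 2, 4, 4]⟩,
  ⟨Int.negSucc 13729351954376, [3], [2, 2, 2, 3, 5]⟩,
  ⟨Int.ofNat 22156144255022, [3], [2, 2, 2, 3, 3, 3]⟩,
  ⟨Int.ofNat 699818828749, [3], [2, 2, 2, 2, 6]⟩,
  ⟨Int.ofNat 31097160955567, [3], [2, 2, 2, 2, 3, 4]⟩,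
  ⟨Int.ofNat 3843138293471, [3], [2, 2, 2, 2, 2, 5]⟩,
  ⟨Int.negSucc 13654518538083, [3], [2, 2, 2, 2, 2, 3, 3]⟩,
  ⟨Int.negSucc 15834463265244, [3], [2, 2, 2, 2, 2, 2, 4]⟩,
  ⟨Int.ofNat 9685199178399, [3], [2, 2, 2, 2, 2, 2, 2, 3]⟩,
  ⟨Int.negSucc 1785801658303, [3], [2, 2, 2, 2, 2, 2, 2, 2, 2]⟩,
  ⟨Int.negSucc 12472462753313, [2, 2], [5, 6]⟩,
  ⟨Int.ofNat 1242506898984, [2, 2], [4, 7]⟩,
  ⟨Int.ofNat 1540609652265, [2, 2], [4, 4, 4]⟩,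
  ⟨Int.ofNat 15424655050966, [2, 2], [3, 4, 5]⟩,
  ⟨Int.ofNat 9557651581043, [2, 2], [3, 3, 6]⟩,
  ⟨Int.negSucc 19280485229762, [2, 2], [3, 3, 3, 4]⟩,
  ⟨Int.ofNat 5374153811954, [2, 2], [2, 5, 5]⟩,
  ⟨Int.negSucc 1405896057927, [2, 2], [2, 4, 6]⟩,
  ⟨Int.negSucc 432993434106, [2, 2], [2, 3, 7]⟩,
  ⟨Int.negSucc 5664674263576, [2, 2], [2, 3, 4, 4]⟩,
  ⟨Int.negSucc 27006144488777, [2, 2], [2, 3, 3, 5]⟩,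
  ⟨Int.ofNat 20938781235902, [2, 2], [2, 3, 3, 3, 3]⟩,
  ⟨Int.negSucc 4317388929040, [2, 2], [2, 2, 4, 5]⟩,
  ⟨Int.negSucc 10553375540538, [2, 2], [2, 2, 3, 6]⟩,
  ⟨Int.ofNat 46435476805500, [2, 2], [2, 2, 3, 3, 4]⟩,
  ⟨Int.negSucc 975638375923, [2, 2], [2, 2, 2, 7]⟩,
  ⟨Int.ofNat 1794640823771, [2, 2], [2, 2, 2, 4, 4]⟩,
  ⟨Int.ofNat 35275712402108, [2, 2], [2, 2, 2, 3, 5]⟩,
  ⟨Int.negSucc 44084905417582, [2, 2], [2, 2, 2, 3, 3, 3]⟩,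
  ⟨Int.ofNat 6379547353059, [2, 2], [2, 2, 2, 2, 6]⟩,
  ⟨Int.negSucc 50147029720798, [2, 2], [2, 2, 2, 2, 3, 4]⟩,
  ⟨Int.negSucc 14381178769560, [2, 2], [2, 2, 2, 2, 2, 5]⟩,
  ⟨Int.ofNat 42278488770638, [2, 2], [2, 2, 2, 2, 2, 3, 3]⟩,
  ⟨Int.ofNat 19856571975888, [2, 2], [2, 2, 2, 2, 2, 2, 4]⟩,
  ⟨Int.negSucc 19820986756155, [2, 2], [2, 2, 2, 2, 2, 2, 2, 3]⟩,
  ⟨Int.ofNat 2842285943229, [2, 2], [2, 2, 2, 2, 2, 2, 2, 2, 2]⟩,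
  ⟨Int.negSucc 196031141684, [2], [6, 6]⟩,
  ⟨Int.ofNat 420470366976, [2], [5, 7]⟩,
  ⟨Int.negSucc 634071994405, [2], [4, 4, 5]⟩,
  ⟨Int.negSucc 3614532985357, [2], [3, 5, 5]⟩,
  ⟨Int.negSucc 66657320273, [2], [3, 4, 6]⟩,
  ⟨Int.negSucc 302727717822, [2], [3, 3, 7]⟩,
  ⟨Int.ofNat 662620567042, [2], [3, 3, 4, 4]⟩,
  ⟨Int.ofNat 1349050414358, [2], [3, 3, 3, 5]⟩,
  ⟨Int.ofNat 110049477923, [2], [3, 3, 3, 3, 3]⟩,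
  ⟨Int.negSucc 3364388623452, [2], [2, 5, 6]⟩,
  ⟨Int.ofNat 615914054157, [2], [2, 4, 7]⟩,
  ⟨Int.ofNat 1129396470032, [2], [2, 4, 4, 4]⟩,
  ⟨Int.ofNat 7485601747172, [2], [2, 3, 4, 5]⟩,
  ⟨Int.negSucc 77097782333, [2], [2, 3, 3, 6]⟩,
  ⟨Int.negSucc 6807880310413, [2], [2, 3, 3, 3, 4]⟩,
  ⟨Int.ofNat 4303299500270, [2], [2, 2, 5, 5]⟩,
  ⟨Int.ofNat 2040352451887, [2], [2, 2, 4, 6]⟩,
  ⟨Int.ofNat 351783786693, [2], [2, 2, 3, 7]⟩,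
  ⟨Int.negSucc 10979032300203, [2], [2, 2, 3, 4, 4]⟩,
  ⟨Int.negSucc 9081112771725, [2], [2, 2, 3, 3, 5]⟩,
  ⟨Int.ofNat 5766111154494, [2], [2, 2, 3, 3, 3, 3]⟩,
  ⟨Int.negSucc 3908610860043, [2], [2, 2, 2, 4, 5]⟩,
  ⟨Int.negSucc 5147466154690, [2], [2, 2, 2, 3, 6]⟩]

def d6a_F17 : List Term := [
  ⟨Int.ofNat 27733492528320, [2], [2, 2, 2, 3, 3, 4]⟩,
  ⟨Int.negSucc 810717701951, [2], [2, 2, 2, 2, 7]⟩,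
  ⟨Int.ofNat 3790183595162, [2], [2, 2, 2, 2, 4, 4]⟩,
  ⟨Int.ofNat 14806528373967, [2], [2, 2, 2, 2, 3, 5]⟩,
  ⟨Int.negSucc 17643214755193, [2], [2, 2, 2, 2, 3, 3, 3]⟩,
  ⟨Int.ofNat 3571065518871, [2], [2, 2, 2, 2, 2, 6]⟩,
  ⟨Int.negSucc 22258911544432, [2], [2, 2, 2, 2, 2, 3, 4]⟩,
  ⟨Int.negSucc 6813144041041, [2], [2, 2, 2, 2, 2, 2, 5]⟩,
  ⟨Int.ofNat 15065468757287, [2], [2, 2, 2, 2, 2, 2, 3, 3]⟩,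
  ⟨Int.ofNat 5514059570603, [2], [2, 2, 2, 2, 2, 2, 2, 4]⟩,
  ⟨Int.negSucc 4894717194960, [2], [2, 2, 2, 2, 2, 2, 2, 2, 3]⟩,
  ⟨Int.ofNat 679203182388, [2], [2, 2, 2, 2, 2, 2, 2, 2, 2, 2]⟩,
  ⟨Int.ofNat 59765941456, [], [6, 7]⟩,
  ⟨Int.ofNat 221317581981, [], [4, 4, 6]⟩,
  ⟨Int.ofNat 2146985207616, [], [3, 5, 6]⟩,
  ⟨Int.negSucc 1580696364998, [], [3, 4, 7]⟩,
  ⟨Int.ofNat 692886042009, [], [3, 4, 4, 4]⟩,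
  ⟨Int.negSucc 2200384200430, [], [3, 3, 4, 5]⟩,
  ⟨Int.negSucc 679730626816, [], [3, 3, 3, 6]⟩,
  ⟨Int.ofNat 675685541455, [], [3, 3, 3, 3, 4]⟩,
  ⟨Int.negSucc 413807278530, [], [2, 6, 6]⟩,
  ⟨Int.ofNat 1444591120133, [], [2, 5, 7]⟩,
  ⟨Int.negSucc 1671623685315, [], [2, 4, 4, 5]⟩,
  ⟨Int.negSucc 1423366706774, [], [2, 3, 5, 5]⟩,
  ⟨Int.ofNat 2236357259704, [], [2, 3, 4, 6]⟩,
  ⟨Int.ofNat 1245172589663, [], [2, 3, 3, 7]⟩,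
  ⟨Int.negSucc 1467851302860, [], [2, 3, 3, 4, 4]⟩,
  ⟨Int.ofNat 1925169209561, [], [2, 3, 3, 3, 5]⟩,
  ⟨Int.negSucc 577819387979, [], [2, 3, 3, 3, 3, 3]⟩,
  ⟨Int.negSucc 3053540004669, [], [2, 2, 5, 6]⟩,
  ⟨Int.negSucc 157097219868, [], [2, 2, 4, 7]⟩,
  ⟨Int.ofNat 2972833414319, [], [2, 2, 4, 4, 4]⟩,
  ⟨Int.ofNat 7877688611818, [], [2, 2, 3, 4, 5]⟩,
  ⟨Int.negSucc 625653947166, [], [2, 2, 3, 3, 6]⟩,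
  ⟨Int.ofNat 1689329499984, [], [2, 2, 3, 3, 3, 4]⟩,
  ⟨Int.ofNat 2631726252339, [], [2, 2, 2, 5, 5]⟩,
  ⟨Int.ofNat 876829255267, [], [2, 2, 2, 4, 6]⟩,
  ⟨Int.negSucc 1185513852596, [], [2, 2, 2, 3, 7]⟩,
  ⟨Int.negSucc 8791145658764, [], [2, 2, 2, 3, 4, 4]⟩,
  ⟨Int.negSucc 6299943924512, [], [2, 2, 2, 3, 3, 5]⟩,
  ⟨Int.negSucc 659337791307, [], [2, 2, 2, 3, 3, 3, 3]⟩,
  ⟨Int.negSucc 7548885851362, [], [2, 2, 2, 2, 4, 5]⟩,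
  ⟨Int.ofNat 1273689115968, [], [2, 2, 2, 2, 3, 6]⟩,
  ⟨Int.negSucc 233586722022, [], [2, 2, 2, 2, 3, 3, 4]⟩,
  ⟨Int.ofNat 566596034760, [], [2, 2, 2, 2, 2, 7]⟩,
  ⟨Int.ofNat 4820214254068, [], [2, 2, 2, 2, 2, 4, 4]⟩,
  ⟨Int.ofNat 6299967588975, [], [2, 2, 2, 2, 2, 3, 5]⟩,
  ⟨Int.ofNat 5261883685015, [], [2, 2, 2, 2, 2, 3, 3, 3]⟩,
  ⟨Int.negSucc 1080118830408, [], [2, 2, 2, 2, 2, 2, 6]⟩,
  ⟨Int.ofNat 1493298659542, [], [2, 2, 2, 2, 2, 2, 3, 4]⟩,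
  ⟨Int.negSucc 949761761732, [], [2, 2, 2, 2, 2, 2, 2, 5]⟩,
  ⟨Int.negSucc 6688042530470, [], [2, 2, 2, 2, 2, 2, 2, 3, 3]⟩,
  ⟨Int.negSucc 761029204858, [], [2, 2, 2, 2, 2, 2, 2, 2, 4]⟩,
  ⟨Int.ofNat 2489684839991, [], [2, 2, 2, 2, 2, 2, 2, 2, 2, 3]⟩,
  ⟨Int.negSucc 254901676369, [], [2, 2, 2, 2, 2, 2, 2, 2, 2, 2, 2]⟩]

def d6a_F : List Term := d6a_F0 ++ d6a_F1 ++ d6a_F2 ++ d6a_F3 ++ d6a_F4 ++ d6a_F5 ++ d6a_F6 ++ d6a_F7 ++ d6a_F8 ++ d6a_F9 ++ d6a_F10 ++ d6a_F11 ++ d6a_F12 ++ d6a_F13 ++ d6a_F14 ++ d6a_F15 ++ d6a_F16 ++ d6a_F17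

def d6a_sk : List (ℕ × ℕ) := [(25, 416), (52, 148), (20, 74), (32, 37), (20, 20), (2, 13), (2, 8), (4, 4), (2, 2), (1, 2), (1, 1), (2, 4), (1, 4), (4, 5), (2, 5), (1, 5), (1, 8), (5, 5), (4, 10), (8, 8), (5, 8), (4, 8), (2, 10), (1, 10), (10, 10), (8, 10), (5, 10), (1, 13), (10, 16), (1, 16), (8, 13), (5, 13), (4, 13), (13, 13), (10, 13), (5, 16), (4, 16), (2, 16), (8, 16), (5, 20), (1, 20), (16, 16), (13, 16), (4, 20), (2, 20), (13, 20), (10, 20), (8, 20), (16, 20), (2, 32), (2, 26), (10, 25), (4, 25), (2, 25), (1, 25), (8, 25), (5, 25), (20, 25), (16, 25), (13, 25), (1, 26), (25, 25), (16, 26), (8, 26), (5, 26), (4, 26), (13, 26), (10, 26), (26, 26), (25, 26), (20, 26), (1, 32), (1, 37), (16, 32), (8, 32), (5, 32), (4, 32), (13, 32), (10, 32), (26, 32), (25, 32), (20, 32), (32, 32),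 (13, 37), (5, 37), (4, 37), (2, 37), (10, 37), (8, 37), (25, 37), (20, 37), (16, 37), (26, 37), (50, 52), (16, 50), (26, 40), (8, 40), (2, 40), (1, 40), (37, 37), (5, 40), (4, 40), (16, 40), (13, 40), (10, 40), (25, 40), (20, 40), (4, 50), (40, 40), (37, 40), (32, 40), (2, 50), (1, 50), (10, 50), (8, 50), (5, 50), (13, 50), (5, 52), (40, 50), (26, 50), (25, 50), (20, 50), (37, 50), (32, 50), (2, 52), (1, 52), (50, 50), (4, 52), (25, 52), (13, 52), (10, 52), (8, 52), (20, 52), (16, 52), (37, 52), (32, 52), (26, 52), (40, 52), (8, 65), (26, 64), (8, 64), (2, 64), (1, 64), (52, 52), (5, 64), (4, 64), (16, 64), (13, 64), (10, 64), (25, 64), (20, 64), (64, 64), (40, 64), (37, 64), (32, 64), (52, 64), (50, 64), (4, 65), (2, 65), (1, 65), (5, 65), (52, 65), (26, 65), (16, 65), (13, 65), (10,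 65), (25, 65), (20, 65), (40, 65), (37, 65), (32, 65), (50, 65), (5, 74), (1, 74), (65, 65), (64, 65), (4, 74), (2, 74), (13, 74), (10, 74), (8, 74), (16, 74), (64, 104), (50, 89), (37, 80), (2, 80), (50, 74), (32, 74), (26, 74), (25, 74), (40, 74), (37, 74), (65, 74), (64, 74), (52, 74), (1, 80), (74, 74), (16, 80), (8, 80), (5, 80), (4, 80), (13, 80), (10, 80), (26, 80), (25, 80), (20, 80), (32, 80), (5, 89), (74, 80), (52, 80), (50, 80), (40, 80), (65, 80), (64, 80), (2, 89), (1, 89), (80, 80), (4, 89), (25, 89), (13, 89), (10, 89), (8, 89), (20, 89), (16, 89), (37, 89), (32, 89), (26, 89), (40, 89), (64, 100), (10, 100), (89, 89), (65, 89), (64, 89), (52, 89), (80, 89), (74, 89), (4, 100), (2, 100), (1, 100), (8, 100), (5, 100), (32, 100), (20, 100), (16, 100), (13, 100), (26, 100),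 (25, 100), (50, 100), (40, 100), (37, 100), (52, 100), (10, 104), (1, 104), (80, 100), (74, 100), (65, 100), (100, 100), (89, 100), (5, 104), (4, 104), (2, 104), (8, 104), (32, 104), (20, 104), (16, 104), (13, 104), (26, 104), (25, 104), (50, 104), (40, 104), (37, 104), (52, 104), (50, 128), (64, 125), (10, 125), (104, 104), (80, 104), (74, 104), (65, 104), (100, 104), (89, 104), (4, 125), (2, 125), (1, 125), (8, 125), (5, 125), (32, 125), (20, 125), (16, 125), (13, 125), (26, 125), (25, 125), (50, 125), (40, 125), (37, 125), (52, 125), (5, 128), (104, 125), (80, 125), (74, 125), (65, 125), (100, 125), (89, 125), (2, 128), (1, 128), (125, 125), (4, 128), (25, 128), (13, 128), (10, 128), (8, 128), (20, 128), (16, 128), (37, 128), (32, 128), (26, 128), (40, 128), (74, 130), (16, 130), (2,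 130), (74, 128), (65, 128), (52, 128), (1, 130), (89, 128), (8, 130), (5, 130), (4, 130), (13, 130), (10, 130), (40, 130), (26, 130), (25, 130), (20, 130), (37, 130), (32, 130), (64, 130), (52, 130), (50, 130), (65, 130), (8, 148), (130, 130), (100, 130), (89, 130), (80, 130), (125, 130), (104, 130), (4, 148), (2, 148), (1, 148), (5, 148), (26, 148), (16, 148), (13, 148), (10, 148), (25, 148), (20, 148), (40, 148), (37, 148), (32, 148), (50, 148), (185, 233), (10, 185), (52, 169), (37, 160), (2, 160), (100, 148), (74, 148), (65, 148), (64, 148), (89, 148), (80, 148), (130, 148), (125, 148), (104, 148), (1, 160), (148, 148), (16, 160), (8, 160), (5, 160), (4, 160), (13, 160), (10, 160), (26, 160), (25, 160), (20, 160), (32, 160), (8, 169), (89, 160), (52, 160), (50, 160), (40, 160), (74,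 160), (65, 160), (4, 169), (2, 169), (1, 169), (5, 169), (26, 169), (16, 169), (13, 169), (10, 169), (25, 169), (20, 169), (40, 169), (37, 169), (32, 169), (50, 169), (32, 178), (1, 178), (100, 169), (74, 169), (65, 169), (64, 169), (89, 169), (80, 169), (130, 169), (125, 169), (104, 169), (169, 169), (148, 169), (13, 178), (5, 178), (4, 178), (2, 178), (10, 178), (8, 178), (25, 178), (20, 178), (16, 178), (26, 178), (104, 178), (65, 178), (50, 178), (40, 178), (37, 178), (64, 178), (52, 178), (89, 178), (80, 178), (74, 178), (100, 178), (1, 185), (148, 178), (130, 178), (125, 178), (178, 178), (169, 178), (5, 185), (4, 185), (2, 185), (8, 185), (4, 208), (185, 185), (65, 185), (32, 185), (20, 185), (16, 185), (13, 185), (26, 185), (25, 185), (50, 185), (40, 185), (37, 185), (64, 185),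 (52, 185), (125, 185), (89, 185), (80, 185), (74, 185), (104, 185), (100, 185), (169, 185), (148, 185), (130, 185), (178, 185), (26, 200), (10, 200), (4, 200), (2, 200), (1, 200), (8, 200), (5, 200), (20, 200), (16, 200), (13, 200), (25, 200), (65, 200), (40, 200), (37, 200), (32, 200), (52, 200), (50, 200), (1, 208), (89, 200), (74, 200), (2, 208), (13, 233), (50, 208), (20, 208), (10, 208), (8, 208), (5, 208), (16, 208), (13, 208), (32, 208), (26, 208), (25, 208), (40, 208), (37, 208), (2, 233), (74, 208), (65, 208), (52, 208), (1, 233), (89, 208), (8, 233), (5, 233), (4, 233), (10, 233), (65, 233), (37, 233), (25, 233), (20, 233), (16, 233), (32, 233), (26, 233), (52, 233), (50, 233), (40, 233), (64, 233), (125, 233), (89, 233), (80, 233), (74, 233), (104, 233), (100, 233), (169, 233),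 (148, 233), (130, 233), (178, 233), (16, 325), (37, 260), (4, 256), (26, 250), (8, 250), (2, 250), (1, 250), (233, 233), (5, 250), (4, 250), (16, 250), (13, 250), (10, 250), (25, 250), (20, 250), (65, 250), (40, 250), (37, 250), (32, 250), (52, 250), (50, 250), (1, 256), (89, 250), (74, 250), (2, 256), (2, 260), (20, 256), (10, 256), (8, 256), (5, 256), (16, 256), (13, 256), (37, 256), (26, 256), (25, 256), (1, 260), (16, 260), (8, 260), (5, 260), (4, 260), (13, 260), (10, 260), (26, 260), (25, 260), (20, 260), (32, 260), (65, 296), (10, 296), (89, 260), (52, 260), (50, 260), (40, 260), (74, 260), (65, 260), (4, 296), (2, 296), (1, 296), (8, 296), (5, 296), (32, 296), (20, 296), (16, 296), (13, 296), (26, 296), (25, 296), (50, 296), (40, 296), (37, 296), (52, 296), (20, 320), (5, 320),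 (1, 320), (89, 296), (74, 296), (4, 320), (2, 320), (13, 320), (10, 320), (8, 320), (16, 320), (4, 325), (37, 320), (26, 320), (25, 320), (2, 325), (1, 325), (10, 325), (8, 325), (5, 325), (13, 325), (50, 356), (32, 338), (1, 338), (40, 325), (26, 325), (25, 325), (20, 325), (37, 325), (32, 325), (65, 325), (52, 325), (50, 325), (89, 325), (74, 325), (13, 338), (5, 338), (4, 338), (2, 338), (10, 338), (8, 338), (25, 338), (20, 338), (16, 338), (26, 338), (5, 356), (74, 338), (50, 338), (40, 338), (37, 338), (65, 338), (52, 338), (2, 356), (1, 356), (89, 338), (4, 356), (25, 356), (13, 356), (10, 356), (8, 356), (20, 356), (16, 356), (37, 356), (32, 356), (26, 356), (40, 356), (89, 370), (16, 370), (2, 370), (74, 356), (65, 356), (52, 356), (1, 370), (89, 356), (8, 370), (5, 370), (4,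 370), (13, 370), (10, 370), (40, 370), (26, 370), (25, 370), (20, 370), (37, 370), (32, 370), (65, 370), (52, 370), (50, 370), (74, 370), (26, 400), (10, 400), (4, 400), (2, 400), (1, 400), (8, 400), (5, 400), (20, 400), (16, 400), (13, 400), (25, 400), (8, 416), (2, 416), (1, 416), (37, 400), (5, 416), (4, 416), (16, 416), (13, 416), (10, 416), (20, 416), (2, 1690), (5, 832), (37, 520), (8, 481), (2, 466), (25, 445), (5, 445), (1, 445), (37, 416), (26, 416), (4, 445), (2, 445), (13, 445), (10, 445), (8, 445), (20, 445), (16, 445), (52, 445), (37, 445), (32, 445), (26, 445), (50, 445), (40, 445), (89, 445), (74, 445), (65, 445), (1, 466), (37, 466), (16, 466), (8, 466), (5, 466), (4, 466), (13, 466), (10, 466), (26, 466), (25, 466), (20, 466), (32, 466), (89, 466), (52, 466), (50, 466),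 (40, 466), (74, 466), (65, 466), (4, 481), (2, 481), (1, 481), (5, 481), (20, 500), (65, 481), (26, 481), (16, 481), (13, 481), (10, 481), (25, 481), (20, 481), (40, 481), (37, 481), (32, 481), (52, 481), (50, 481), (5, 500), (1, 500), (89, 481), (74, 481), (4, 500), (2, 500), (13, 500), (10, 500), (8, 500), (16, 500), (1, 520), (4, 512), (37, 500), (26, 500), (25, 500), (2, 512), (1, 512), (10, 512), (8, 512), (5, 512), (13, 512), (13, 520), (5, 520), (4, 520), (2, 520), (10, 520), (8, 520), (25, 520), (20, 520), (16, 520), (26, 520), (2, 676), (26, 625), (37, 592), (10, 592), (4, 592), (2, 592), (1, 592), (8, 592), (5, 592), (20, 592), (16, 592), (13, 592), (26, 592), (25, 592), (10, 625), (4, 625), (2, 625), (1, 625), (8, 625), (5, 625), (20, 625), (16, 625), (13, 625), (25, 625),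 (4, 650), (8, 640), (2, 640), (1, 640), (37, 625), (5, 640), (4, 640), (1, 650), (13, 640), (10, 640), (2, 650), (20, 650), (10, 650), (8, 650), (5, 650), (16, 650), (13, 650), (37, 650), (26, 650), (25, 650), (1, 676), (1, 740), (2, 712), (16, 676), (8, 676), (5, 676), (4, 676), (13, 676), (10, 676), (26, 676), (25, 676), (20, 676), (1, 712), (37, 676), (16, 712), (8, 712), (5, 712), (4, 712), (13, 712), (10, 712), (26, 712), (25, 712), (20, 712), (37, 712), (37, 740), (13, 740), (5, 740), (4, 740), (2, 740), (10, 740), (8, 740), (25, 740), (20, 740), (16, 740), (26, 740), (10, 800), (4, 800), (2, 800), (1, 800), (8, 800), (5, 800), (2, 832), (1, 832), (13, 800), (4, 832), (20, 1157), (10, 932), (16, 890), (20, 845), (4, 845), (13, 832), (10, 832), (8, 832), (2, 845), (1, 845), (10,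 845), (8, 845), (5, 845), (16, 845), (13, 845), (4, 890), (37, 845), (26, 845), (25, 845), (2, 890), (1, 890), (10, 890), (8, 890), (5, 890), (13, 890), (13, 925), (2, 925), (26, 890), (25, 890), (20, 890), (1, 925), (37, 890), (8, 925), (5, 925), (4, 925), (10, 925), (1, 932), (25, 925), (20, 925), (16, 925), (37, 925), (26, 925), (5, 932), (4, 932), (2, 932), (8, 932), (8, 1000), (10, 962), (37, 932), (20, 932), (16, 932), (13, 932), (26, 932), (25, 932), (4, 962), (2, 962), (1, 962), (8, 962), (5, 962), (37, 962), (20, 962), (16, 962), (13, 962), (26, 962), (25, 962), (4, 1000), (2, 1000), (1, 1000), (5, 1000), (8, 1040), (5, 1024), (1, 1024), (13, 1000), (10, 1000), (4, 1024), (2, 1024), (4, 1040), (2, 1040), (1, 1040), (5, 1040), (5, 1157), (1, 1157), (13, 1040), (10, 1040), (4,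 1157), (2, 1157), (13, 1157), (10, 1157), (8, 1157), (16, 1157), (8, 1352), (1, 1250), (20, 1165), (4, 1165), (37, 1157), (26, 1157), (25, 1157), (2, 1165), (1, 1165), (10, 1165), (8, 1165), (5, 1165), (16, 1165), (13, 1165), (4, 1184), (37, 1165), (26, 1165), (25, 1165), (2, 1184), (1, 1184), (10, 1184), (8, 1184), (5, 1184), (13, 1184), (1, 1300), (13, 1250), (5, 1250), (4, 1250), (2, 1250), (10, 1250), (8, 1250), (4, 1280), (2, 1280), (1, 1280), (5, 1280), (13, 1300), (5, 1300), (4, 1300), (2, 1300), (10, 1300), (8, 1300), (4, 1352), (2, 1352), (1, 1352), (5, 1352), (2, 1480), (25, 1369), (5, 1369), (1, 1369), (13, 1352), (10, 1352), (4, 1369), (2, 1369), (13, 1369), (10, 1369), (8, 1369), (20, 1369), (16, 1369), (5, 1424), (1, 1424), (37, 1369), (26, 1369), (4, 1424), (2, 1424), (13,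 1424), (10, 1424), (8, 1424), (1, 1480), (2, 1625), (1, 1600), (8, 1480), (5, 1480), (4, 1480), (13, 1480), (10, 1480), (5, 1600), (4, 1600), (2, 1600), (1, 1625), (1, 1664), (8, 1625), (5, 1625), (4, 1625), (13, 1625), (10, 1625), (5, 1664), (4, 1664), (2, 1664), (1, 1690), (2, 4628), (2, 2600), (2, 2197), (5, 1864), (13, 1780), (1, 1780), (8, 1690), (5, 1690), (4, 1690), (13, 1690), (10, 1690), (5, 1780), (4, 1780), (2, 1780), (10, 1780), (8, 1780), (10, 1850), (4, 1850), (2, 1850), (1, 1850), (8, 1850), (5, 1850), (2, 1864), (1, 1864), (13, 1850), (4, 1864), (1, 2000), (4, 1924), (13, 1864), (10, 1864), (8, 1864), (2, 1924), (1, 1924), (10, 1924), (8, 1924), (5, 1924), (13, 1924), (1, 2080), (5, 2000), (4, 2000), (2, 2000), (2, 2048), (1, 2048), (5, 2080), (4, 2080), (2, 2080), (1,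 2197), (5, 2330), (13, 2225), (1, 2225), (8, 2197), (5, 2197), (4, 2197), (13, 2197), (10, 2197), (5, 2225), (4, 2225), (2, 2225), (10, 2225), (8, 2225), (10, 2314), (4, 2314), (2, 2314), (1, 2314), (8, 2314), (5, 2314), (2, 2330), (1, 2330), (13, 2314), (4, 2330), (5, 2405), (4, 2368), (13, 2330), (10, 2330), (8, 2330), (2, 2368), (1, 2368), (2, 2405), (1, 2405), (5, 2368), (4, 2405), (4, 2500), (13, 2405), (10, 2405), (8, 2405), (2, 2500), (1, 2500), (2, 2560), (1, 2560), (5, 2500), (1, 2600), (13, 3293), (2, 3029), (10, 2738), (5, 2704), (1, 2704), (5, 2600), (4, 2600), (4, 2704), (2, 2704), (4, 2738), (2, 2738), (1, 2738), (8, 2738), (5, 2738), (1, 2960), (2, 2848), (1, 2848), (13, 2738), (5, 2848), (4, 2848), (5, 2960), (4, 2960), (2, 2960), (1, 3029), (2, 3200), (1, 3125), (8, 3029),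 (5, 3029), (4, 3029), (13, 3029), (10, 3029), (5, 3125), (4, 3125), (2, 3125), (1, 3200), (2, 3293), (4, 3250), (2, 3250), (1, 3250), (1, 3293), (5, 3250), (8, 3293), (5, 3293), (4, 3293), (10, 3293), (1, 4000), (2, 3700), (5, 3380), (1, 3380), (2, 3328), (1, 3328), (4, 3380), (2, 3380), (4, 3560), (2, 3560), (1, 3560), (1, 3700), (5, 3560), (5, 3728), (1, 3728), (5, 3700), (4, 3700), (4, 3728), (2, 3728), (4, 3848), (2, 3848), (1, 3848), (5, 3848), (4, 4394), (2, 4225), (1, 4160), (1, 4096), (2, 4000), (1, 4225), (2, 4160), (1, 4394), (5, 4225), (4, 4225), (2, 4394), (1, 4625), (2, 4450), (1, 4450), (5, 4394), (5, 4450), (4, 4450), (5, 4625), (4, 4625), (2, 4625), (1, 4628), (1, 9320), (5, 6253), (5, 5476), (5, 4810), (5, 4660), (1, 4660), (5, 4628), (4, 4628), (4, 4660), (2, 4660),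 (1, 4810), (2, 4736), (1, 4736), (4, 4810), (2, 4810), (1, 5408), (1, 5120), (2, 5000), (1, 5000), (2, 5200), (1, 5200), (2, 5476), (1, 5476), (2, 5408), (4, 5476), (1, 5920), (5, 5785), (1, 5785), (2, 5696), (1, 5696), (4, 5785), (2, 5785), (4, 5825), (2, 5825), (1, 5825), (5, 5825), (1, 6250), (2, 6058), (1, 6058), (2, 5920), (5, 6058), (4, 6058), (2, 6253), (1, 6253), (2, 6250), (4, 6253), (1, 7921), (2, 6845), (4, 6586), (2, 6500), (1, 6500), (1, 6400), (2, 6586), (1, 6586), (1, 6760), (1, 6656), (5, 6586), (1, 6845), (2, 6760), (2, 7400), (1, 7120), (5, 6845), (4, 6845), (1, 7400), (2, 7120), (1, 7696), (2, 7456), (1, 7456), (2, 7696), (2, 8621), (2, 8125), (5, 7921), (4, 7921), (2, 7921), (1, 8125), (1, 8000), (2, 8450), (1, 8450), (1, 8320), (1, 8621), (2, 8900), (1, 8788), (5,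 8621), (4, 8621), (1, 8900), (2, 8788), (1, 9256), (2, 9250), (1, 9250), (2, 9256), (1, 16465), (2, 12116), (1, 11125), (1, 10400), (1, 9620), (1, 9472), (2, 9320), (1, 10000), (2, 9620), (2, 10952), (1, 10952), (1, 10816), (2, 10985), (1, 10985), (2, 11650), (1, 11570), (1, 11392), (2, 11125), (1, 11650), (2, 11570), (2, 12025), (1, 12025), (1, 11840), (1, 12116), (1, 14800), (2, 13172), (2, 12506), (1, 12506), (1, 12500), (1, 13172), (1, 13000), (2, 13690), (1, 13690), (1, 13520), (1, 14240), (1, 15392), (2, 15041), (1, 15041), (1, 14912), (2, 15145), (1, 15145), (2, 15842), (1, 15842), (1, 15625), (1, 16250), (1, 24050), (1, 18640), (1, 17797), (1, 17242), (1, 16900), (2, 16465), (1, 17576), (2, 17242), (1, 18500), (1, 17800), (2, 17797), (1, 18512), (1, 21970), (2, 20737), (1, 20737),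 (1, 19240), (1, 21904), (1, 21125), (1, 23140), (1, 23125), (1, 22250), (1, 23300), (1, 31684), (1, 28925), (1, 26344), (1, 25012), (1, 24232), (1, 28561), (1, 27380), (1, 30290), (1, 30082), (1, 29125), (1, 31265), (1, 39605), (1, 34484), (1, 34225), (1, 32930), (1, 39377), (1, 35594), (1, 43105), (1, 42809), (1, 41474), (1, 54289)]

theorem d6a_okF : okF d6a_F = true := by decide +kernel

end Vale.Agent.Lib.P142.Chk
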