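import Vale.Agent.Lib.P142.ChkSplitDefs

set_option maxRecDepth 100000

namespace Vale.Agent.Lib.P142.Chk

def d6b_F0 : List Term := [
  ⟨Int.ofNat 331912548633815, [], []⟩,
  ⟨Int.negSucc 842720101407055, [2], []⟩,
  ⟨Int.ofNat 367421258413320, [], [2]⟩,
  ⟨Int.negSucc 32023246035097, [3], []⟩,
  ⟨Int.ofNat 210762963448195, [2, 2], []⟩,
  ⟨Int.ofNat 840033408512772, [2], [2]⟩,
  ⟨Int.ofNat 481008247812576, [], [3]⟩,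
  ⟨Int.negSucc 512659348769757, [], [2, 2]⟩,
  ⟨Int.negSucc 137865219088474, [4], []⟩,
  ⟨Int.negSucc 200890033719025, [2, 3], []⟩,
  ⟨Int.ofNat 56592790887115, [2, 2, 2], []⟩,
  ⟨Int.negSucc 397881035375369, [3], [2]⟩,
  ⟨Int.negSucc 177303112973904, [2, 2], [2]⟩,
  ⟨Int.negSucc 72882979230182, [2], [3]⟩,
  ⟨Int.ofNat 131706668844111, [2], [2, 2]⟩,
  ⟨Int.ofNat 50164838672086, [], [4]⟩,
  ⟨Int.negSucc 53005004681235, [], [2, 3]⟩,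
  ⟨Int.ofNat 75011877542187, [], [2, 2, 2]⟩,
  ⟨Int.ofNat 28241645699518, [5], []⟩,
  ⟨Int.ofNat 4236577218949, [3, 3], []⟩,
  ⟨Int.ofNat 65594513535286, [2, 4], []⟩,
  ⟨Int.negSucc 159929591970292, [2, 2, 3], []⟩,
  ⟨Int.ofNat 62137867735238, [2, 2, 2, 2], []⟩,
  ⟨Int.negSucc 14268368764806, [4], [2]⟩,
  ⟨Int.ofNat 19192799665739, [2, 3], [2]⟩,
  ⟨Int.ofNat 58836805925008, [2, 2, 2], [2]⟩,
  ⟨Int.ofNat 280023771428178, [3], [3]⟩,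
  ⟨Int.ofNat 196166255121862, [3], [2, 2]⟩,
  ⟨Int.negSucc 406703527256559, [2, 2], [3]⟩,
  ⟨Int.ofNat 141978526665601, [2, 2], [2, 2]⟩,
  ⟨Int.ofNat 245621663391165, [2], [4]⟩,
  ⟨Int.negSucc 213537538137768, [2], [2, 3]⟩,
  ⟨Int.negSucc 130357258803140, [2], [2, 2, 2]⟩,
  ⟨Int.ofNat 79025955179233, [], [5]⟩,
  ⟨Int.ofNat 190594122984141, [], [3, 3]⟩,
  ⟨Int.ofNat 33339716794619, [], [2, 4]⟩,
  ⟨Int.negSucc 263320551523278, [], [2, 2, 3]⟩,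
  ⟨Int.ofNat 34788076589316, [], [2, 2, 2, 2]⟩,
  ⟨Int.negSucc 3977513902649, [6], []⟩,
  ⟨Int.negSucc 150201714369993, [3, 4], []⟩,
  ⟨Int.negSucc 121612470260474, [2, 5], []⟩,
  ⟨Int.ofNat 266902253435855, [2, 3, 3], []⟩,
  ⟨Int.ofNat 78869316195981, [2, 2, 4], []⟩,
  ⟨Int.negSucc 142721702477524, [2, 2, 2, 3], []⟩,
  ⟨Int.ofNat 1343850141665, [2, 2, 2, 2, 2], []⟩,
  ⟨Int.negSucc 32917392704259, [5], [2]⟩,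
  ⟨Int.ofNat 217021766581442, [3, 3], [2]⟩,
  ⟨Int.ofNat 85363165828633, [2, 4], [2]⟩,
  ⟨Int.negSucc 119228834118957, [2, 2, 3], [2]⟩,
  ⟨Int.negSucc 5969382659629, [2, 2, 2, 2], [2]⟩,
  ⟨Int.negSucc 273187993313889, [4], [3]⟩,
  ⟨Int.ofNat 48830574134882, [4], [2, 2]⟩,
  ⟨Int.ofNat 557288541928399, [2, 3], [3]⟩,
  ⟨Int.negSucc 349373702130011, [2, 3], [2, 2]⟩,
  ⟨Int.negSucc 205832329355542, [2, 2, 2], [3]⟩,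
  ⟨Int.ofNat 202303682810361, [2, 2, 2], [2, 2]⟩,
  ⟨Int.negSucc 463340428476480, [3], [4]⟩,
  ⟨Int.ofNat 607943207313242, [3], [2, 3]⟩,
  ⟨Int.negSucc 317410820715171, [3], [2, 2, 2]⟩,
  ⟨Int.ofNat 188146822511000, [2, 2], [4]⟩,
  ⟨Int.negSucc 209667814358032, [2, 2], [2, 3]⟩,
  ⟨Int.ofNat 83438148677036, [2, 2], [2, 2, 2]⟩,
  ⟨Int.negSucc 87067578519623, [2], [5]⟩,
  ⟨Int.ofNat 114457752052558, [2], [3, 3]⟩,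
  ⟨Int.negSucc 194793050491186, [2], [2, 4]⟩,
  ⟨Int.negSucc 108405143257568, [2], [2, 2, 3]⟩,
  ⟨Int.ofNat 167844419711409, [2], [2, 2, 2, 2]⟩,
  ⟨Int.negSucc 29534245064961, [], [6]⟩,
  ⟨Int.negSucc 141145360668666, [], [3, 4]⟩,
  ⟨Int.negSucc 20185692060890, [], [2, 5]⟩,
  ⟨Int.ofNat 115619783063720, [], [2, 3, 3]⟩,
  ⟨Int.ofNat 121920117403755, [], [2, 2, 4]⟩,
  ⟨Int.negSucc 108263033923302, [], [2, 2, 2, 3]⟩,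
  ⟨Int.ofNat 37990609112362, [], [2, 2, 2, 2, 2]⟩,
  ⟨Int.ofNat 67817457483902, [4, 4], []⟩,
  ⟨Int.ofNat 109629315019760, [3, 5], []⟩,
  ⟨Int.negSucc 143188958756895, [3, 3, 3], []⟩,
  ⟨Int.ofNat 31857833399303, [2, 6], []⟩,
  ⟨Int.negSucc 220924386123948, [2, 3, 4], []⟩,
  ⟨Int.negSucc 34395804144760, [2, 2, 5], []⟩,
  ⟨Int.ofNat 202006095654193, [2, 2, 3, 3], []⟩,
  ⟨Int.ofNat 80281644617667, [2, 2, 2, 4], []⟩,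
  ⟨Int.negSucc 64913587137394, [2, 2, 2, 2, 3], []⟩,
  ⟨Int.ofNat 4992167702747, [2, 2, 2, 2, 2, 2], []⟩,
  ⟨Int.ofNat 4861033681329, [6], [2]⟩,
  ⟨Int.negSucc 85584447999083, [3, 4], [2]⟩,
  ⟨Int.negSucc 24254761823593, [2, 5], [2]⟩,
  ⟨Int.ofNat 83273026531026, [2, 3, 3], [2]⟩,
  ⟨Int.negSucc 11644148790812, [2, 2, 4], [2]⟩,
  ⟨Int.negSucc 39258979538607, [2, 2, 2, 3], [2]⟩,
  ⟨Int.ofNat 33897779317819, [2, 2, 2, 2, 2], [2]⟩,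
  ⟨Int.negSucc 78530975919936, [5], [3]⟩,
  ⟨Int.ofNat 10006951046153, [5], [2, 2]⟩,
  ⟨Int.negSucc 134219628475193, [3, 3], [3]⟩,
  ⟨Int.negSucc 7018991422525, [3, 3], [2, 2]⟩,
  ⟨Int.negSucc 181599796185281, [2, 4], [3]⟩,
  ⟨Int.ofNat 97596829527272, [2, 4], [2, 2]⟩,
  ⟨Int.ofNat 287481164588007, [2, 2, 3], [3]⟩,
  ⟨Int.negSucc 133179391354946, [2, 2, 3], [2, 2]⟩,
  ⟨Int.negSucc 109651841567761, [2, 2, 2, 2], [3]⟩]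

def d6b_F1 : List Term := [
  ⟨Int.ofNat 109344071845846, [2, 2, 2, 2], [2, 2]⟩,
  ⟨Int.ofNat 84487508095113, [4], [4]⟩,
  ⟨Int.negSucc 2813600529302, [4], [2, 3]⟩,
  ⟨Int.ofNat 24246768280039, [4], [2, 2, 2]⟩,
  ⟨Int.ofNat 232762569370926, [2, 3], [4]⟩,
  ⟨Int.negSucc 862678050800670, [2, 3], [2, 3]⟩,
  ⟨Int.ofNat 566142938629350, [2, 3], [2, 2, 2]⟩,
  ⟨Int.negSucc 206502583243976, [2, 2, 2], [4]⟩,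
  ⟨Int.ofNat 650670810033757, [2, 2, 2], [2, 3]⟩,
  ⟨Int.negSucc 386860903104854, [2, 2, 2], [2, 2, 2]⟩,
  ⟨Int.ofNat 407976575461375, [3], [5]⟩,
  ⟨Int.negSucc 946872592333220, [3], [3, 3]⟩,
  ⟨Int.negSucc 109708710146247, [3], [2, 4]⟩,
  ⟨Int.ofNat 902459898109510, [3], [2, 2, 3]⟩,
  ⟨Int.negSucc 208400223803820, [3], [2, 2, 2, 2]⟩,
  ⟨Int.negSucc 119725483322889, [2, 2], [5]⟩,
  ⟨Int.ofNat 537021584833560, [2, 2], [3, 3]⟩,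
  ⟨Int.ofNat 64654363786312, [2, 2], [2, 4]⟩,
  ⟨Int.negSucc 580537268933292, [2, 2], [2, 2, 3]⟩,
  ⟨Int.ofNat 170712692061571, [2, 2], [2, 2, 2, 2]⟩,
  ⟨Int.ofNat 62869314674323, [2], [6]⟩,
  ⟨Int.negSucc 314030619414335, [2], [3, 4]⟩,
  ⟨Int.negSucc 1984424497484, [2], [2, 5]⟩,
  ⟨Int.ofNat 245496615834280, [2], [2, 3, 3]⟩,
  ⟨Int.ofNat 252444033261881, [2], [2, 2, 4]⟩,
  ⟨Int.negSucc 291798939428716, [2], [2, 2, 2, 3]⟩,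
  ⟨Int.ofNat 33803597999077, [2], [2, 2, 2, 2, 2]⟩,
  ⟨Int.negSucc 1768102742860, [], [7]⟩,
  ⟨Int.ofNat 110718496144010, [], [4, 4]⟩,
  ⟨Int.ofNat 55725380383623, [], [3, 5]⟩,
  ⟨Int.negSucc 139962621029302, [], [3, 3, 3]⟩,
  ⟨Int.ofNat 64055164121297, [], [2, 6]⟩,
  ⟨Int.negSucc 282228494183687, [], [2, 3, 4]⟩,
  ⟨Int.negSucc 61828963893766, [], [2, 2, 5]⟩,
  ⟨Int.ofNat 325346478409978, [], [2, 2, 3, 3]⟩,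
  ⟨Int.ofNat 76131576021466, [], [2, 2, 2, 4]⟩,
  ⟨Int.negSucc 106646235757213, [], [2, 2, 2, 2, 3]⟩,
  ⟨Int.negSucc 5947094323688, [], [2, 2, 2, 2, 2, 2]⟩,
  ⟨Int.negSucc 45114351744557, [4, 5], []⟩,
  ⟨Int.negSucc 28976748172561, [3, 6], []⟩,
  ⟨Int.ofNat 180283439573689, [3, 3, 4], []⟩,
  ⟨Int.ofNat 5958816338530, [2, 4, 4], []⟩,
  ⟨Int.ofNat 21009532783533, [2, 3, 5], []⟩,
  ⟨Int.negSucc 73402326024169, [2, 3, 3, 3], []⟩,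
  ⟨Int.negSucc 5506429546919, [2, 2, 6], []⟩,
  ⟨Int.negSucc 101145781459016, [2, 2, 3, 4], []⟩,
  ⟨Int.ofNat 1372534804143, [2, 2, 2, 5], []⟩,
  ⟨Int.ofNat 65923705223496, [2, 2, 2, 3, 3], []⟩,
  ⟨Int.negSucc 11362932615668, [2, 2, 2, 2, 4], []⟩,
  ⟨Int.negSucc 8279497479106, [2, 2, 2, 2, 2, 3], []⟩,
  ⟨Int.negSucc 2009257530605, [2, 2, 2, 2, 2, 2, 2], []⟩,
  ⟨Int.ofNat 8018064533402, [4, 4], [2]⟩,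
  ⟨Int.ofNat 82615093818569, [3, 5], [2]⟩,
  ⟨Int.negSucc 113749732092311, [3, 3, 3], [2]⟩,
  ⟨Int.negSucc 19627731987394, [2, 6], [2]⟩,
  ⟨Int.negSucc 20610362466367, [2, 3, 4], [2]⟩,
  ⟨Int.ofNat 42136214026142, [2, 2, 5], [2]⟩,
  ⟨Int.ofNat 109443206729491, [2, 2, 3, 3], [2]⟩,
  ⟨Int.ofNat 47322188582898, [2, 2, 2, 4], [2]⟩,
  ⟨Int.negSucc 61735495383508, [2, 2, 2, 2, 3], [2]⟩,
  ⟨Int.negSucc 1631908302218, [2, 2, 2, 2, 2, 2], [2]⟩,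
  ⟨Int.negSucc 23181155063238, [6], [3]⟩,
  ⟨Int.ofNat 11684317087419, [6], [2, 2]⟩,
  ⟨Int.ofNat 219968907952887, [3, 4], [3]⟩,
  ⟨Int.negSucc 145769918449921, [3, 4], [2, 2]⟩,
  ⟨Int.ofNat 171735197205116, [2, 5], [3]⟩,
  ⟨Int.negSucc 5561940897052, [2, 5], [2, 2]⟩,
  ⟨Int.negSucc 300670654895854, [2, 3, 3], [3]⟩,
  ⟨Int.ofNat 162251773361338, [2, 3, 3], [2, 2]⟩,
  ⟨Int.negSucc 76131721660668, [2, 2, 4], [3]⟩,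
  ⟨Int.ofNat 71022824024901, [2, 2, 4], [2, 2]⟩,
  ⟨Int.ofNat 168496783783191, [2, 2, 2, 3], [3]⟩,
  ⟨Int.negSucc 168456476630107, [2, 2, 2, 3], [2, 2]⟩,
  ⟨Int.negSucc 30507233982382, [2, 2, 2, 2, 2], [3]⟩,
  ⟨Int.ofNat 18163512459134, [2, 2, 2, 2, 2], [2, 2]⟩,
  ⟨Int.negSucc 74925094310252, [5], [4]⟩,
  ⟨Int.ofNat 103342237308654, [5], [2, 3]⟩,
  ⟨Int.negSucc 24206763591421, [5], [2, 2, 2]⟩,
  ⟨Int.ofNat 177362560004874, [3, 3], [4]⟩,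
  ⟨Int.negSucc 136180433051606, [3, 3], [2, 3]⟩,
  ⟨Int.ofNat 397011171482, [3, 3], [2, 2, 2]⟩,
  ⟨Int.ofNat 254920784106727, [2, 4], [4]⟩,
  ⟨Int.negSucc 319617955670752, [2, 4], [2, 3]⟩,
  ⟨Int.ofNat 194256338548139, [2, 4], [2, 2, 2]⟩,
  ⟨Int.negSucc 529868255756761, [2, 2, 3], [4]⟩,
  ⟨Int.ofNat 771145865476700, [2, 2, 3], [2, 3]⟩,
  ⟨Int.negSucc 412477621796288, [2, 2, 3], [2, 2, 2]⟩,
  ⟨Int.ofNat 196566141888958, [2, 2, 2, 2], [4]⟩,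
  ⟨Int.negSucc 383797612017398, [2, 2, 2, 2], [2, 3]⟩,
  ⟨Int.ofNat 193799911208639, [2, 2, 2, 2], [2, 2, 2]⟩,
  ⟨Int.negSucc 402593988546683, [4], [5]⟩,
  ⟨Int.ofNat 549220545687658, [4], [3, 3]⟩,
  ⟨Int.ofNat 368326833774724, [4], [2, 4]⟩,
  ⟨Int.negSucc 678516103180908, [4], [2, 2, 3]⟩,
  ⟨Int.ofNat 168452851300754, [4], [2, 2, 2, 2]⟩,
  ⟨Int.ofNat 587329576976493, [2, 3], [5]⟩,
  ⟨Int.negSucc 717645825962962, [2, 3], [3, 3]⟩,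
  ⟨Int.negSucc 629558728486311, [2, 3], [2, 4]⟩,
  ⟨Int.ofNat 1121792872253373, [2, 3], [2, 2, 3]⟩,
  ⟨Int.negSucc 344469666564814, [2, 3], [2, 2, 2, 2]⟩]

def d6b_F2 : List Term := [
  ⟨Int.negSucc 264949479245597, [2, 2, 2], [5]⟩,
  ⟨Int.ofNat 258227840437580, [2, 2, 2], [3, 3]⟩,
  ⟨Int.ofNat 277726412996922, [2, 2, 2], [2, 4]⟩,
  ⟨Int.negSucc 480248158286556, [2, 2, 2], [2, 2, 3]⟩,
  ⟨Int.ofNat 155385003124372, [2, 2, 2], [2, 2, 2, 2]⟩,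
  ⟨Int.negSucc 76172820468818, [3], [6]⟩,
  ⟨Int.ofNat 624954414129863, [3], [3, 4]⟩,
  ⟨Int.ofNat 4706432126678, [3], [2, 5]⟩,
  ⟨Int.negSucc 403944795423706, [3], [2, 3, 3]⟩,
  ⟨Int.negSucc 462707088294238, [3], [2, 2, 4]⟩,
  ⟨Int.ofNat 565530672715967, [3], [2, 2, 2, 3]⟩,
  ⟨Int.negSucc 182623113733863, [3], [2, 2, 2, 2, 2]⟩,
  ⟨Int.ofNat 59855645509820, [2, 2], [6]⟩,
  ⟨Int.negSucc 303190879925000, [2, 2], [3, 4]⟩,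
  ⟨Int.ofNat 648220436657, [2, 2], [2, 5]⟩,
  ⟨Int.ofNat 218282468719743, [2, 2], [2, 3, 3]⟩,
  ⟨Int.ofNat 264380930746515, [2, 2], [2, 2, 4]⟩,
  ⟨Int.negSucc 393686467442287, [2, 2], [2, 2, 2, 3]⟩,
  ⟨Int.ofNat 162043400455092, [2, 2], [2, 2, 2, 2, 2]⟩,
  ⟨Int.ofNat 2395453121244, [2], [7]⟩,
  ⟨Int.ofNat 49554062582095, [2], [4, 4]⟩,
  ⟨Int.ofNat 167609459559598, [2], [3, 5]⟩,
  ⟨Int.negSucc 92547755490535, [2], [3, 3, 3]⟩,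
  ⟨Int.negSucc 32519776383233, [2], [2, 6]⟩,
  ⟨Int.negSucc 155683100461253, [2], [2, 3, 4]⟩,
  ⟨Int.negSucc 92592728335621, [2], [2, 2, 5]⟩,
  ⟨Int.ofNat 234647378254300, [2], [2, 2, 3, 3]⟩,
  ⟨Int.ofNat 39062893981716, [2], [2, 2, 2, 4]⟩,
  ⟨Int.negSucc 158064091089900, [2], [2, 2, 2, 2, 3]⟩,
  ⟨Int.ofNat 39861953822889, [2], [2, 2, 2, 2, 2, 2]⟩,
  ⟨Int.negSucc 83760451517231, [], [4, 5]⟩,
  ⟨Int.negSucc 92787069908016, [], [3, 6]⟩,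
  ⟨Int.ofNat 288539658810065, [], [3, 3, 4]⟩,
  ⟨Int.negSucc 14258118996325, [], [2, 7]⟩,
  ⟨Int.ofNat 43616499348481, [], [2, 4, 4]⟩,
  ⟨Int.ofNat 134162921458594, [], [2, 3, 5]⟩,
  ⟨Int.negSucc 182189079228319, [], [2, 3, 3, 3]⟩,
  ⟨Int.ofNat 31598836889671, [], [2, 2, 6]⟩,
  ⟨Int.negSucc 311856224519791, [], [2, 2, 3, 4]⟩,
  ⟨Int.negSucc 40485679070995, [], [2, 2, 2, 5]⟩,
  ⟨Int.ofNat 195477821340020, [], [2, 2, 2, 3, 3]⟩,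
  ⟨Int.ofNat 78652561993358, [], [2, 2, 2, 2, 4]⟩,
  ⟨Int.negSucc 69703667432461, [], [2, 2, 2, 2, 2, 3]⟩,
  ⟨Int.ofNat 8286925162431, [], [2, 2, 2, 2, 2, 2, 2]⟩,
  ⟨Int.ofNat 13429498882593, [5, 5], []⟩,
  ⟨Int.ofNat 18841416348981, [4, 6], []⟩,
  ⟨Int.negSucc 14579366786747, [3, 4, 4], []⟩,
  ⟨Int.negSucc 17040954705877, [3, 3, 5], []⟩,
  ⟨Int.ofNat 24059631292825, [3, 3, 3, 3], []⟩,
  ⟨Int.negSucc 41777077796283, [2, 4, 5], []⟩,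
  ⟨Int.ofNat 889992916036, [2, 3, 6], []⟩,
  ⟨Int.ofNat 12203176478313, [2, 3, 3, 4], []⟩,
  ⟨Int.ofNat 38793516741434, [2, 2, 4, 4], []⟩,
  ⟨Int.ofNat 34396639867001, [2, 2, 3, 5], []⟩,
  ⟨Int.negSucc 40275969319647, [2, 2, 3, 3, 3], []⟩,
  ⟨Int.negSucc 3435551029584, [2, 2, 2, 6], []⟩,
  ⟨Int.negSucc 41436322894127, [2, 2, 2, 3, 4], []⟩,
  ⟨Int.negSucc 5689980306625, [2, 2, 2, 2, 5], []⟩,
  ⟨Int.ofNat 7766472247100, [2, 2, 2, 2, 3, 3], []⟩,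
  ⟨Int.ofNat 15348255156935, [2, 2, 2, 2, 2, 4], []⟩,
  ⟨Int.ofNat 5656694059759, [2, 2, 2, 2, 2, 2, 3], []⟩,
  ⟨Int.negSucc 1214787261200, [2, 2, 2, 2, 2, 2, 2, 2], []⟩,
  ⟨Int.negSucc 46506034371920, [4, 5], [2]⟩,
  ⟨Int.negSucc 11634505742904, [3, 6], [2]⟩,
  ⟨Int.ofNat 63398082188991, [3, 3, 4], [2]⟩,
  ⟨Int.ofNat 38675324453735, [2, 4, 4], [2]⟩,
  ⟨Int.negSucc 1293487351330, [2, 3, 5], [2]⟩,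
  ⟨Int.negSucc 43662446992587, [2, 3, 3, 3], [2]⟩,
  ⟨Int.ofNat 12415037835444, [2, 2, 6], [2]⟩,
  ⟨Int.negSucc 85974781670017, [2, 2, 3, 4], [2]⟩,
  ⟨Int.negSucc 10308379720008, [2, 2, 2, 5], [2]⟩,
  ⟨Int.ofNat 64407609111163, [2, 2, 2, 3, 3], [2]⟩,
  ⟨Int.ofNat 26495287946348, [2, 2, 2, 2, 4], [2]⟩,
  ⟨Int.negSucc 29285206033047, [2, 2, 2, 2, 2, 3], [2]⟩,
  ⟨Int.ofNat 4506718975175, [2, 2, 2, 2, 2, 2, 2], [2]⟩,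
  ⟨Int.ofNat 20597294293741, [4, 4], [3]⟩,
  ⟨Int.ofNat 16552849290764, [4, 4], [2, 2]⟩,
  ⟨Int.negSucc 76929098444431, [3, 5], [3]⟩,
  ⟨Int.ofNat 2312467856646, [3, 5], [2, 2]⟩,
  ⟨Int.ofNat 179617469164709, [3, 3, 3], [3]⟩,
  ⟨Int.negSucc 83195227566015, [3, 3, 3], [2, 2]⟩,
  ⟨Int.ofNat 2396288435759, [2, 6], [3]⟩,
  ⟨Int.negSucc 164612861515, [2, 6], [2, 2]⟩,
  ⟨Int.ofNat 25834841391692, [2, 3, 4], [3]⟩,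
  ⟨Int.negSucc 17129943317986, [2, 3, 4], [2, 2]⟩,
  ⟨Int.ofNat 27168253596331, [2, 2, 5], [3]⟩,
  ⟨Int.negSucc 66424394749517, [2, 2, 5], [2, 2]⟩,
  ⟨Int.negSucc 140662714237344, [2, 2, 3, 3], [3]⟩,
  ⟨Int.ofNat 99837188502434, [2, 2, 3, 3], [2, 2]⟩,
  ⟨Int.negSucc 103174535189720, [2, 2, 2, 4], [3]⟩,
  ⟨Int.ofNat 65154513784216, [2, 2, 2, 4], [2, 2]⟩,
  ⟨Int.ofNat 86044998106929, [2, 2, 2, 2, 3], [3]⟩,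
  ⟨Int.negSucc 67191640463421, [2, 2, 2, 2, 3], [2, 2]⟩,
  ⟨Int.negSucc 4931798053276, [2, 2, 2, 2, 2, 2], [3]⟩,
  ⟨Int.ofNat 8829241926805, [2, 2, 2, 2, 2, 2], [2, 2]⟩,
  ⟨Int.ofNat 23408081808370, [6], [4]⟩,
  ⟨Int.negSucc 21234636298558, [6], [2, 3]⟩,
  ⟨Int.negSucc 294698389306, [6], [2, 2, 2]⟩,
  ⟨Int.negSucc 11689920765469, [3, 4], [4]⟩,
  ⟨Int.negSucc 67148940734807, [3, 4], [2, 3]⟩]

def d6b_F3 : List Term := [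
  ⟨Int.ofNat 23046308221600, [3, 4], [2, 2, 2]⟩,
  ⟨Int.ofNat 10244511762451, [2, 5], [4]⟩,
  ⟨Int.negSucc 20910602538549, [2, 5], [2, 3]⟩,
  ⟨Int.ofNat 10223347230056, [2, 5], [2, 2, 2]⟩,
  ⟨Int.negSucc 29027683265964, [2, 3, 3], [4]⟩,
  ⟨Int.ofNat 193296247694447, [2, 3, 3], [2, 3]⟩,
  ⟨Int.negSucc 55353365507164, [2, 3, 3], [2, 2, 2]⟩,
  ⟨Int.ofNat 193001388458564, [2, 2, 4], [4]⟩,
  ⟨Int.negSucc 218632014348970, [2, 2, 4], [2, 3]⟩,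
  ⟨Int.ofNat 85792363929382, [2, 2, 4], [2, 2, 2]⟩,
  ⟨Int.negSucc 280479530919004, [2, 2, 2, 3], [4]⟩,
  ⟨Int.ofNat 303592269815719, [2, 2, 2, 3], [2, 3]⟩,
  ⟨Int.negSucc 135128448836451, [2, 2, 2, 3], [2, 2, 2]⟩,
  ⟨Int.ofNat 104311394965318, [2, 2, 2, 2, 2], [4]⟩,
  ⟨Int.negSucc 143205045912159, [2, 2, 2, 2, 2], [2, 3]⟩,
  ⟨Int.ofNat 73437947146112, [2, 2, 2, 2, 2], [2, 2, 2]⟩,
  ⟨Int.negSucc 44554024887787, [5], [5]⟩,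
  ⟨Int.negSucc 24925165296298, [5], [3, 3]⟩,
  ⟨Int.ofNat 72140956752774, [5], [2, 4]⟩,
  ⟨Int.negSucc 86553880398177, [5], [2, 2, 3]⟩,
  ⟨Int.ofNat 27993291840818, [5], [2, 2, 2, 2]⟩,
  ⟨Int.negSucc 138823121703145, [3, 3], [5]⟩,
  ⟨Int.ofNat 309350744993390, [3, 3], [3, 3]⟩,
  ⟨Int.ofNat 117950248259844, [3, 3], [2, 4]⟩,
  ⟨Int.negSucc 419204517820660, [3, 3], [2, 2, 3]⟩,
  ⟨Int.ofNat 144062551521235, [3, 3], [2, 2, 2, 2]⟩,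
  ⟨Int.ofNat 634937154052681, [2, 4], [5]⟩,
  ⟨Int.negSucc 652567437952272, [2, 4], [3, 3]⟩,
  ⟨Int.negSucc 1563293963878937, [2, 4], [2, 4]⟩,
  ⟨Int.ofNat 2334899724446126, [2, 4], [2, 2, 3]⟩,
  ⟨Int.negSucc 843005024036895, [2, 4], [2, 2, 2, 2]⟩,
  ⟨Int.negSucc 703549391142815, [2, 2, 3], [5]⟩,
  ⟨Int.ofNat 841244414878080, [2, 2, 3], [3, 3]⟩,
  ⟨Int.ofNat 2093258466091290, [2, 2, 3], [2, 4]⟩,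
  ⟨Int.negSucc 3333671744185499, [2, 2, 3], [2, 2, 3]⟩,
  ⟨Int.ofNat 1217355357296050, [2, 2, 3], [2, 2, 2, 2]⟩,
  ⟨Int.ofNat 300052166834700, [2, 2, 2, 2], [5]⟩,
  ⟨Int.negSucc 458868765893492, [2, 2, 2, 2], [3, 3]⟩,
  ⟨Int.negSucc 840873633065986, [2, 2, 2, 2], [2, 4]⟩,
  ⟨Int.ofNat 1542258851365347, [2, 2, 2, 2], [2, 2, 3]⟩,
  ⟨Int.negSucc 574422094214737, [2, 2, 2, 2], [2, 2, 2, 2]⟩,
  ⟨Int.ofNat 213178908297892, [4], [6]⟩,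
  ⟨Int.negSucc 741594402547396, [4], [3, 4]⟩,
  ⟨Int.negSucc 200998797408183, [4], [2, 5]⟩,
  ⟨Int.ofNat 789505810771470, [4], [2, 3, 3]⟩,
  ⟨Int.ofNat 617900646883951, [4], [2, 2, 4]⟩,
  ⟨Int.negSucc 890282096320016, [4], [2, 2, 2, 3]⟩,
  ⟨Int.ofNat 208563039148673, [4], [2, 2, 2, 2, 2]⟩,
  ⟨Int.negSucc 269258874032660, [2, 3], [6]⟩,
  ⟨Int.ofNat 990155804134476, [2, 3], [3, 4]⟩,
  ⟨Int.ofNat 255701906048451, [2, 3], [2, 5]⟩,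
  ⟨Int.negSucc 1264354989819461, [2, 3], [2, 3, 3]⟩,
  ⟨Int.negSucc 947235333446305, [2, 3], [2, 2, 4]⟩,
  ⟨Int.ofNat 1715200181761963, [2, 3], [2, 2, 2, 3]⟩,
  ⟨Int.negSucc 520698072035165, [2, 3], [2, 2, 2, 2, 2]⟩,
  ⟨Int.ofNat 82570896986374, [2, 2, 2], [6]⟩,
  ⟨Int.negSucc 360585821661185, [2, 2, 2], [3, 4]⟩,
  ⟨Int.negSucc 157464550843235, [2, 2, 2], [2, 5]⟩,
  ⟨Int.ofNat 597699819806780, [2, 2, 2], [2, 3, 3]⟩,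
  ⟨Int.ofNat 493488978305324, [2, 2, 2], [2, 2, 4]⟩,
  ⟨Int.negSucc 954168346342534, [2, 2, 2], [2, 2, 2, 3]⟩,
  ⟨Int.ofNat 302575777924651, [2, 2, 2], [2, 2, 2, 2, 2]⟩,
  ⟨Int.ofNat 14396286885719, [3], [7]⟩,
  ⟨Int.negSucc 128068959735380, [3], [4, 4]⟩,
  ⟨Int.negSucc 246919953451122, [3], [3, 5]⟩,
  ⟨Int.ofNat 263232941625222, [3], [3, 3, 3]⟩,
  ⟨Int.negSucc 37079151115780, [3], [2, 6]⟩,
  ⟨Int.ofNat 342540855206801, [3], [2, 3, 4]⟩,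
  ⟨Int.ofNat 212219885418638, [3], [2, 2, 5]⟩,
  ⟨Int.negSucc 558321441946709, [3], [2, 2, 3, 3]⟩,
  ⟨Int.negSucc 178866728627954, [3], [2, 2, 2, 4]⟩,
  ⟨Int.ofNat 295010763335404, [3], [2, 2, 2, 2, 3]⟩,
  ⟨Int.negSucc 33638784269028, [3], [2, 2, 2, 2, 2, 2]⟩,
  ⟨Int.negSucc 7840612875377, [2, 2], [7]⟩,
  ⟨Int.ofNat 72365014948858, [2, 2], [4, 4]⟩,
  ⟨Int.ofNat 167687517597066, [2, 2], [3, 5]⟩,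
  ⟨Int.negSucc 188320313328513, [2, 2], [3, 3, 3]⟩,
  ⟨Int.negSucc 14122405731983, [2, 2], [2, 6]⟩,
  ⟨Int.negSucc 248508817282160, [2, 2], [2, 3, 4]⟩,
  ⟨Int.negSucc 150302635242053, [2, 2], [2, 2, 5]⟩,
  ⟨Int.ofNat 433954105418288, [2, 2], [2, 2, 3, 3]⟩,
  ⟨Int.ofNat 194411792282951, [2, 2], [2, 2, 2, 4]⟩,
  ⟨Int.negSucc 271069008485924, [2, 2], [2, 2, 2, 2, 3]⟩,
  ⟨Int.ofNat 37952129557203, [2, 2], [2, 2, 2, 2, 2, 2]⟩,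
  ⟨Int.negSucc 48268924381610, [2], [4, 5]⟩,
  ⟨Int.negSucc 71671305972581, [2], [3, 6]⟩,
  ⟨Int.ofNat 204076990979735, [2], [3, 3, 4]⟩,
  ⟨Int.ofNat 5787741899731, [2], [2, 7]⟩,
  ⟨Int.ofNat 11635848721831, [2], [2, 4, 4]⟩,
  ⟨Int.negSucc 19851272588783, [2], [2, 3, 5]⟩,
  ⟨Int.negSucc 149929236683322, [2], [2, 3, 3, 3]⟩,
  ⟨Int.ofNat 24854970513200, [2], [2, 2, 6]⟩,
  ⟨Int.negSucc 223551229586648, [2], [2, 2, 3, 4]⟩,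
  ⟨Int.ofNat 29439976809882, [2], [2, 2, 2, 5]⟩,
  ⟨Int.ofNat 192040003158300, [2], [2, 2, 2, 3, 3]⟩,
  ⟨Int.ofNat 76751440064831, [2], [2, 2, 2, 2, 4]⟩,
  ⟨Int.negSucc 72265295219862, [2], [2, 2, 2, 2, 2, 3]⟩,
  ⟨Int.negSucc 613289641722, [2], [2, 2, 2, 2, 2, 2, 2]⟩,
  ⟨Int.ofNat 22217147626784, [], [5, 5]⟩,
  ⟨Int.ofNat 58102836120105, [], [4, 6]⟩]

def d6b_F4 : List Term := [
  ⟨Int.ofNat 9345259886983, [], [3, 7]⟩,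
  ⟨Int.negSucc 146802863640852, [], [3, 4, 4]⟩,
  ⟨Int.negSucc 77972078282161, [], [3, 3, 5]⟩,
  ⟨Int.ofNat 37451211014090, [], [3, 3, 3, 3]⟩,
  ⟨Int.negSucc 52851207276125, [], [2, 4, 5]⟩,
  ⟨Int.negSucc 12200731813866, [], [2, 3, 6]⟩,
  ⟨Int.ofNat 207190999024902, [], [2, 3, 3, 4]⟩,
  ⟨Int.ofNat 5501086331657, [], [2, 2, 7]⟩,
  ⟨Int.ofNat 61886639899435, [], [2, 2, 4, 4]⟩,
  ⟨Int.ofNat 60643518295072, [], [2, 2, 3, 5]⟩,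
  ⟨Int.negSucc 103262219994987, [], [2, 2, 3, 3, 3]⟩,
  ⟨Int.negSucc 14094886198063, [], [2, 2, 2, 6]⟩,
  ⟨Int.negSucc 98174655675636, [], [2, 2, 2, 3, 4]⟩,
  ⟨Int.ofNat 709603570283, [], [2, 2, 2, 2, 5]⟩,
  ⟨Int.ofNat 46702643586538, [], [2, 2, 2, 2, 3, 3]⟩,
  ⟨Int.negSucc 6312184378724, [], [2, 2, 2, 2, 2, 4]⟩,
  ⟨Int.ofNat 8869372001477, [], [2, 2, 2, 2, 2, 2, 3]⟩,
  ⟨Int.negSucc 4264977644204, [], [2, 2, 2, 2, 2, 2, 2, 2]⟩,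
  ⟨Int.ofNat 2072984012565, [5, 6], []⟩,
  ⟨Int.negSucc 2227759787904, [4, 4, 4], []⟩,
  ⟨Int.ofNat 16526094563781, [3, 4, 5], []⟩,
  ⟨Int.ofNat 2698306730997, [3, 3, 6], []⟩,
  ⟨Int.negSucc 8147173928375, [3, 3, 3, 4], []⟩,
  ⟨Int.ofNat 4480181871173, [2, 5, 5], []⟩,
  ⟨Int.negSucc 4914359100260, [2, 4, 6], []⟩,
  ⟨Int.negSucc 5088116560101, [2, 3, 4, 4], []⟩,
  ⟨Int.negSucc 28461803456668, [2, 3, 3, 5], []⟩,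
  ⟨Int.ofNat 6253547477762, [2, 3, 3, 3, 3], []⟩,
  ⟨Int.negSucc 15629409412910, [2, 2, 4, 5], []⟩,
  ⟨Int.ofNat 2337064673301, [2, 2, 3, 6], []⟩,
  ⟨Int.ofNat 17705098078949, [2, 2, 3, 3, 4], []⟩,
  ⟨Int.ofNat 10597431671032, [2, 2, 2, 4, 4], []⟩,
  ⟨Int.ofNat 11266621029360, [2, 2, 2, 3, 5], []⟩,
  ⟨Int.negSucc 3312304542038, [2, 2, 2, 3, 3, 3], []⟩,
  ⟨Int.negSucc 2133519933628, [2, 2, 2, 2, 6], []⟩,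
  ⟨Int.negSucc 7391562985671, [2, 2, 2, 2, 3, 4], []⟩,
  ⟨Int.ofNat 3237363406449, [2, 2, 2, 2, 2, 5], []⟩,
  ⟨Int.ofNat 1782686478333, [2, 2, 2, 2, 2, 3, 3], []⟩,
  ⟨Int.negSucc 4416219194243, [2, 2, 2, 2, 2, 2, 4], []⟩,
  ⟨Int.ofNat 1547873570838, [2, 2, 2, 2, 2, 2, 2, 3], []⟩,
  ⟨Int.negSucc 801513617059, [2, 2, 2, 2, 2, 2, 2, 2, 2], []⟩,
  ⟨Int.negSucc 2903362512933, [5, 5], [2]⟩,
  ⟨Int.ofNat 5954245839599, [4, 6], [2]⟩,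
  ⟨Int.negSucc 14253258901764, [3, 4, 4], [2]⟩,
  ⟨Int.negSucc 8737001116902, [3, 3, 5], [2]⟩,
  ⟨Int.ofNat 4785046599955, [3, 3, 3, 3], [2]⟩,
  ⟨Int.ofNat 4370321637379, [2, 4, 5], [2]⟩,
  ⟨Int.negSucc 1326503838840, [2, 3, 6], [2]⟩,
  ⟨Int.ofNat 16802259758035, [2, 3, 3, 4], [2]⟩,
  ⟨Int.ofNat 14270545841756, [2, 2, 4, 4], [2]⟩,
  ⟨Int.ofNat 14779184874007, [2, 2, 3, 5], [2]⟩,
  ⟨Int.negSucc 22096632896685, [2, 2, 3, 3, 3], [2]⟩,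
  ⟨Int.ofNat 1230336924461, [2, 2, 2, 6], [2]⟩,
  ⟨Int.negSucc 34358932138497, [2, 2, 2, 3, 4], [2]⟩,
  ⟨Int.ofNat 4308119314535, [2, 2, 2, 2, 5], [2]⟩,
  ⟨Int.ofNat 24781430006626, [2, 2, 2, 2, 3, 3], [2]⟩,
  ⟨Int.ofNat 4594847935964, [2, 2, 2, 2, 2, 4], [2]⟩,
  ⟨Int.negSucc 9245632747409, [2, 2, 2, 2, 2, 2, 3], [2]⟩,
  ⟨Int.ofNat 1314635131259, [2, 2, 2, 2, 2, 2, 2, 2], [2]⟩,
  ⟨Int.ofNat 745572944686, [4, 5], [3]⟩,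
  ⟨Int.negSucc 14492256129484, [4, 5], [2, 2]⟩,
  ⟨Int.ofNat 27485239648060, [3, 6], [3]⟩,
  ⟨Int.negSucc 9393910608207, [3, 6], [2, 2]⟩,
  ⟨Int.negSucc 59182969831902, [3, 3, 4], [3]⟩,
  ⟨Int.ofNat 22584266867735, [3, 3, 4], [2, 2]⟩,
  ⟨Int.negSucc 2377070837105, [2, 4, 4], [3]⟩,
  ⟨Int.ofNat 1458696462114, [2, 4, 4], [2, 2]⟩,
  ⟨Int.negSucc 37798156109101, [2, 3, 5], [3]⟩,
  ⟨Int.ofNat 34655233638933, [2, 3, 5], [2, 2]⟩,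
  ⟨Int.ofNat 20676560728338, [2, 3, 3, 3], [3]⟩,
  ⟨Int.negSucc 9856955311752, [2, 3, 3, 3], [2, 2]⟩,
  ⟨Int.negSucc 13007752221005, [2, 2, 6], [3]⟩,
  ⟨Int.ofNat 2733357341040, [2, 2, 6], [2, 2]⟩,
  ⟨Int.ofNat 64306441358853, [2, 2, 3, 4], [3]⟩,
  ⟨Int.negSucc 43502851699835, [2, 2, 3, 4], [2, 2]⟩,
  ⟨Int.ofNat 35995027604645, [2, 2, 2, 5], [3]⟩,
  ⟨Int.negSucc 27588820006832, [2, 2, 2, 5], [2, 2]⟩,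
  ⟨Int.negSucc 54946130715239, [2, 2, 2, 3, 3], [3]⟩,
  ⟨Int.ofNat 39419699333328, [2, 2, 2, 3, 3], [2, 2]⟩,
  ⟨Int.negSucc 30818123269020, [2, 2, 2, 2, 4], [3]⟩,
  ⟨Int.ofNat 29327087205870, [2, 2, 2, 2, 4], [2, 2]⟩,
  ⟨Int.ofNat 41457698105416, [2, 2, 2, 2, 2, 3], [3]⟩,
  ⟨Int.negSucc 36218657412519, [2, 2, 2, 2, 2, 3], [2, 2]⟩,
  ⟨Int.negSucc 6740806157809, [2, 2, 2, 2, 2, 2, 2], [3]⟩,
  ⟨Int.ofNat 6147990535932, [2, 2, 2, 2, 2, 2, 2], [2, 2]⟩,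
  ⟨Int.ofNat 8814617400081, [4, 4], [4]⟩,
  ⟨Int.negSucc 21995495845949, [4, 4], [2, 3]⟩,
  ⟨Int.negSucc 5053088081680, [4, 4], [2, 2, 2]⟩,
  ⟨Int.negSucc 23569449492646, [3, 5], [4]⟩,
  ⟨Int.ofNat 72925006477151, [3, 5], [2, 3]⟩,
  ⟨Int.negSucc 42864224544149, [3, 5], [2, 2, 2]⟩,
  ⟨Int.ofNat 33525821879654, [3, 3, 3], [4]⟩,
  ⟨Int.negSucc 129335242679185, [3, 3, 3], [2, 3]⟩,
  ⟨Int.ofNat 69036795185521, [3, 3, 3], [2, 2, 2]⟩,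
  ⟨Int.negSucc 1501866302192, [2, 6], [4]⟩,
  ⟨Int.negSucc 849565958137, [2, 6], [2, 3]⟩,
  ⟨Int.ofNat 6674240718798, [2, 6], [2, 2, 2]⟩,
  ⟨Int.negSucc 74657987408822, [2, 3, 4], [4]⟩,
  ⟨Int.ofNat 96975934624392, [2, 3, 4], [2, 3]⟩,
  ⟨Int.negSucc 34188474673126, [2, 3, 4], [2, 2, 2]⟩]

def d6b_F5 : List Term := [
  ⟨Int.negSucc 58970257931179, [2, 2, 5], [4]⟩,
  ⟨Int.ofNat 23351725930384, [2, 2, 5], [2, 3]⟩,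
  ⟨Int.negSucc 11682107912582, [2, 2, 5], [2, 2, 2]⟩,
  ⟨Int.ofNat 106967696101143, [2, 2, 3, 3], [4]⟩,
  ⟨Int.negSucc 80663469902968, [2, 2, 3, 3], [2, 3]⟩,
  ⟨Int.ofNat 28033716040497, [2, 2, 3, 3], [2, 2, 2]⟩,
  ⟨Int.ofNat 21252413843991, [2, 2, 2, 4], [4]⟩,
  ⟨Int.negSucc 37047317288326, [2, 2, 2, 4], [2, 3]⟩,
  ⟨Int.ofNat 49865967534674, [2, 2, 2, 4], [2, 2, 2]⟩,
  ⟨Int.negSucc 34804804755925, [2, 2, 2, 2, 3], [4]⟩,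
  ⟨Int.ofNat 28775424659447, [2, 2, 2, 2, 3], [2, 3]⟩,
  ⟨Int.negSucc 32565635109033, [2, 2, 2, 2, 3], [2, 2, 2]⟩,
  ⟨Int.negSucc 5724711762758, [2, 2, 2, 2, 2, 2], [4]⟩,
  ⟨Int.ofNat 19377638749695, [2, 2, 2, 2, 2, 2], [2, 3]⟩,
  ⟨Int.negSucc 3722806453480, [2, 2, 2, 2, 2, 2], [2, 2, 2]⟩,
  ⟨Int.ofNat 11684797923596, [6], [5]⟩,
  ⟨Int.ofNat 25099365517609, [6], [3, 3]⟩,
  ⟨Int.negSucc 30382035279540, [6], [2, 4]⟩,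
  ⟨Int.ofNat 5168958882155, [6], [2, 2, 3]⟩,
  ⟨Int.negSucc 3430969737296, [6], [2, 2, 2, 2]⟩,
  ⟨Int.ofNat 9636788817023, [3, 4], [5]⟩,
  ⟨Int.negSucc 47769434254178, [3, 4], [3, 3]⟩,
  ⟨Int.ofNat 166955333128291, [3, 4], [2, 4]⟩,
  ⟨Int.negSucc 229242742961401, [3, 4], [2, 2, 3]⟩,
  ⟨Int.ofNat 123882511046583, [3, 4], [2, 2, 2, 2]⟩,
  ⟨Int.ofNat 195493330074651, [2, 5], [5]⟩,
  ⟨Int.negSucc 103701298085521, [2, 5], [3, 3]⟩,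
  ⟨Int.negSucc 59198845059147, [2, 5], [2, 4]⟩,
  ⟨Int.ofNat 100010748492357, [2, 5], [2, 2, 3]⟩,
  ⟨Int.negSucc 33990041850954, [2, 5], [2, 2, 2, 2]⟩,
  ⟨Int.negSucc 151252240154288, [2, 3, 3], [5]⟩,
  ⟨Int.ofNat 119688329974131, [2, 3, 3], [3, 3]⟩,
  ⟨Int.negSucc 220457497521884, [2, 3, 3], [2, 4]⟩,
  ⟨Int.ofNat 319684004834768, [2, 3, 3], [2, 2, 3]⟩,
  ⟨Int.negSucc 170823561550730, [2, 3, 3], [2, 2, 2, 2]⟩,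
  ⟨Int.negSucc 263789228747325, [2, 2, 4], [5]⟩,
  ⟨Int.ofNat 177952466922807, [2, 2, 4], [3, 3]⟩,
  ⟨Int.ofNat 419585665822416, [2, 2, 4], [2, 4]⟩,
  ⟨Int.negSucc 509635396962600, [2, 2, 4], [2, 2, 3]⟩,
  ⟨Int.ofNat 172534526700005, [2, 2, 4], [2, 2, 2, 2]⟩,
  ⟨Int.ofNat 271698922275993, [2, 2, 2, 3], [5]⟩,
  ⟨Int.negSucc 240871271814053, [2, 2, 2, 3], [3, 3]⟩,
  ⟨Int.negSucc 356773888135902, [2, 2, 2, 3], [2, 4]⟩,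
  ⟨Int.ofNat 460778048635749, [2, 2, 2, 3], [2, 2, 3]⟩,
  ⟨Int.negSucc 121844689327289, [2, 2, 2, 3], [2, 2, 2, 2]⟩,
  ⟨Int.negSucc 73328749639030, [2, 2, 2, 2, 2], [5]⟩,
  ⟨Int.ofNat 94026769255630, [2, 2, 2, 2, 2], [3, 3]⟩,
  ⟨Int.ofNat 167364378592157, [2, 2, 2, 2, 2], [2, 4]⟩,
  ⟨Int.negSucc 241587764637872, [2, 2, 2, 2, 2], [2, 2, 3]⟩,
  ⟨Int.ofNat 68427043093316, [2, 2, 2, 2, 2], [2, 2, 2, 2]⟩,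
  ⟨Int.negSucc 286557732414517, [5], [6]⟩,
  ⟨Int.ofNat 617899867449930, [5], [3, 4]⟩,
  ⟨Int.ofNat 381454212052909, [5], [2, 5]⟩,
  ⟨Int.negSucc 829256748263359, [5], [2, 3, 3]⟩,
  ⟨Int.negSucc 726986697129735, [5], [2, 2, 4]⟩,
  ⟨Int.ofNat 1088150793793064, [5], [2, 2, 2, 3]⟩,
  ⟨Int.negSucc 275774878818807, [5], [2, 2, 2, 2, 2]⟩,
  ⟨Int.ofNat 297051121155061, [3, 3], [6]⟩,
  ⟨Int.negSucc 677045261657511, [3, 3], [3, 4]⟩,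
  ⟨Int.negSucc 330186499673087, [3, 3], [2, 5]⟩,
  ⟨Int.ofNat 775849814388590, [3, 3], [2, 3, 3]⟩,
  ⟨Int.ofNat 591228620463381, [3, 3], [2, 2, 4]⟩,
  ⟨Int.negSucc 779452399452351, [3, 3], [2, 2, 2, 3]⟩,
  ⟨Int.ofNat 150322517185250, [3, 3], [2, 2, 2, 2, 2]⟩,
  ⟨Int.ofNat 354308784753892, [2, 4], [6]⟩,
  ⟨Int.negSucc 786217956820125, [2, 4], [3, 4]⟩,
  ⟨Int.negSucc 709281444545869, [2, 4], [2, 5]⟩,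
  ⟨Int.ofNat 1177369584314751, [2, 4], [2, 3, 3]⟩,
  ⟨Int.ofNat 1223001605309714, [2, 4], [2, 2, 4]⟩,
  ⟨Int.negSucc 1745973269655742, [2, 4], [2, 2, 2, 3]⟩,
  ⟨Int.ofNat 484578870718732, [2, 4], [2, 2, 2, 2, 2]⟩,
  ⟨Int.negSucc 461394363022601, [2, 2, 3], [6]⟩,
  ⟨Int.ofNat 1171053670624659, [2, 2, 3], [3, 4]⟩,
  ⟨Int.ofNat 959727681745480, [2, 2, 3], [2, 5]⟩,
  ⟨Int.negSucc 1711699002004638, [2, 2, 3], [2, 3, 3]⟩,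
  ⟨Int.negSucc 1768469826696966, [2, 2, 3], [2, 2, 4]⟩,
  ⟨Int.ofNat 2463548090294379, [2, 2, 3], [2, 2, 2, 3]⟩,
  ⟨Int.negSucc 652459709473406, [2, 2, 3], [2, 2, 2, 2, 2]⟩,
  ⟨Int.ofNat 134902000274015, [2, 2, 2, 2], [6]⟩,
  ⟨Int.negSucc 369312895435439, [2, 2, 2, 2], [3, 4]⟩,
  ⟨Int.negSucc 317719682382420, [2, 2, 2, 2], [2, 5]⟩,
  ⟨Int.ofNat 565219851077445, [2, 2, 2, 2], [2, 3, 3]⟩,
  ⟨Int.ofNat 617582935872247, [2, 2, 2, 2], [2, 2, 4]⟩,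
  ⟨Int.negSucc 893922122356650, [2, 2, 2, 2], [2, 2, 2, 3]⟩,
  ⟨Int.ofNat 261513513337570, [2, 2, 2, 2], [2, 2, 2, 2, 2]⟩,
  ⟨Int.negSucc 31414613493894, [4], [7]⟩,
  ⟨Int.ofNat 52050046572059, [4], [4, 4]⟩,
  ⟨Int.ofNat 203724471555735, [4], [3, 5]⟩,
  ⟨Int.negSucc 175685803877223, [4], [3, 3, 3]⟩,
  ⟨Int.ofNat 10327447431987, [4], [2, 6]⟩,
  ⟨Int.negSucc 247160680293388, [4], [2, 3, 4]⟩,
  ⟨Int.negSucc 285267261682722, [4], [2, 2, 5]⟩,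
  ⟨Int.ofNat 567190115756299, [4], [2, 2, 3, 3]⟩,
  ⟨Int.ofNat 466024727206404, [4], [2, 2, 2, 4]⟩,
  ⟨Int.negSucc 737177075821776, [4], [2, 2, 2, 2, 3]⟩,
  ⟨Int.ofNat 201632970397220, [4], [2, 2, 2, 2, 2, 2]⟩,
  ⟨Int.ofNat 35886834893302, [2, 3], [7]⟩,
  ⟨Int.negSucc 67271963447217, [2, 3], [4, 4]⟩,
  ⟨Int.negSucc 412022376256268, [2, 3], [3, 5]⟩,
  ⟨Int.ofNat 359241686185107, [2, 3], [3, 3, 3]⟩]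

def d6b_F6 : List Term := [
  ⟨Int.negSucc 25707995597331, [2, 3], [2, 6]⟩,
  ⟨Int.ofNat 333608025606065, [2, 3], [2, 3, 4]⟩,
  ⟨Int.ofNat 533385859844426, [2, 3], [2, 2, 5]⟩,
  ⟨Int.negSucc 902423829119500, [2, 3], [2, 2, 3, 3]⟩,
  ⟨Int.negSucc 751921278269247, [2, 3], [2, 2, 2, 4]⟩,
  ⟨Int.ofNat 1153670243411780, [2, 3], [2, 2, 2, 2, 3]⟩,
  ⟨Int.negSucc 308477524954488, [2, 3], [2, 2, 2, 2, 2, 2]⟩,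
  ⟨Int.negSucc 8578829897240, [2, 2, 2], [7]⟩,
  ⟨Int.ofNat 38498293624812, [2, 2, 2], [4, 4]⟩,
  ⟨Int.ofNat 196245980427668, [2, 2, 2], [3, 5]⟩,
  ⟨Int.negSucc 193966356235233, [2, 2, 2], [3, 3, 3]⟩,
  ⟨Int.ofNat 11474994197140, [2, 2, 2], [2, 6]⟩,
  ⟨Int.negSucc 234626177351419, [2, 2, 2], [2, 3, 4]⟩,
  ⟨Int.negSucc 251376197580902, [2, 2, 2], [2, 2, 5]⟩,
  ⟨Int.ofNat 515806643982182, [2, 2, 2], [2, 2, 3, 3]⟩,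
  ⟨Int.ofNat 373594057766628, [2, 2, 2], [2, 2, 2, 4]⟩,
  ⟨Int.negSucc 585557784723588, [2, 2, 2], [2, 2, 2, 2, 3]⟩,
  ⟨Int.ofNat 148130126117126, [2, 2, 2], [2, 2, 2, 2, 2, 2]⟩,
  ⟨Int.ofNat 23725510795065, [3], [4, 5]⟩,
  ⟨Int.ofNat 156566894368954, [3], [3, 6]⟩,
  ⟨Int.negSucc 376791723550674, [3], [3, 3, 4]⟩,
  ⟨Int.negSucc 8933113985789, [3], [2, 7]⟩,
  ⟨Int.ofNat 15638229744775, [3], [2, 4, 4]⟩,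
  ⟨Int.negSucc 20470344207748, [3], [2, 3, 5]⟩,
  ⟨Int.ofNat 231888715545002, [3], [2, 3, 3, 3]⟩,
  ⟨Int.negSucc 79674383704791, [3], [2, 2, 6]⟩,
  ⟨Int.ofNat 317929631337560, [3], [2, 2, 3, 4]⟩,
  ⟨Int.ofNat 35999972289158, [3], [2, 2, 2, 5]⟩,
  ⟨Int.negSucc 262760577049265, [3], [2, 2, 2, 3, 3]⟩,
  ⟨Int.negSucc 142677836584915, [3], [2, 2, 2, 2, 4]⟩,
  ⟨Int.ofNat 135954630029653, [3], [2, 2, 2, 2, 2, 3]⟩,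
  ⟨Int.negSucc 11587639844719, [3], [2, 2, 2, 2, 2, 2, 2]⟩,
  ⟨Int.negSucc 44934550327370, [2, 2], [4, 5]⟩,
  ⟨Int.negSucc 58476607700484, [2, 2], [3, 6]⟩,
  ⟨Int.ofNat 216681780061436, [2, 2], [3, 3, 4]⟩,
  ⟨Int.ofNat 5959817631042, [2, 2], [2, 7]⟩,
  ⟨Int.ofNat 41198738977481, [2, 2], [2, 4, 4]⟩,
  ⟨Int.ofNat 31335053285684, [2, 2], [2, 3, 5]⟩,
  ⟨Int.negSucc 173064304164977, [2, 2], [2, 3, 3, 3]⟩,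
  ⟨Int.ofNat 59599766957141, [2, 2], [2, 2, 6]⟩,
  ⟨Int.negSucc 269924786805680, [2, 2], [2, 2, 3, 4]⟩,
  ⟨Int.negSucc 53161460799556, [2, 2], [2, 2, 2, 5]⟩,
  ⟨Int.ofNat 256052064029436, [2, 2], [2, 2, 2, 3, 3]⟩,
  ⟨Int.ofNat 124416274014594, [2, 2], [2, 2, 2, 2, 4]⟩,
  ⟨Int.negSucc 143317132135736, [2, 2], [2, 2, 2, 2, 2, 3]⟩,
  ⟨Int.ofNat 17606181785292, [2, 2], [2, 2, 2, 2, 2, 2, 2]⟩,
  ⟨Int.ofNat 23138001208198, [2], [5, 5]⟩,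
  ⟨Int.ofNat 35136753260049, [2], [4, 6]⟩,
  ⟨Int.ofNat 5595038019894, [2], [3, 7]⟩,
  ⟨Int.negSucc 67484923942679, [2], [3, 4, 4]⟩,
  ⟨Int.negSucc 63846854251869, [2], [3, 3, 5]⟩,
  ⟨Int.ofNat 30710487241349, [2], [3, 3, 3, 3]⟩,
  ⟨Int.negSucc 57639338589589, [2], [2, 4, 5]⟩,
  ⟨Int.negSucc 12544081736574, [2], [2, 3, 6]⟩,
  ⟨Int.ofNat 141574392572604, [2], [2, 3, 3, 4]⟩,
  ⟨Int.negSucc 4725580790619, [2], [2, 2, 7]⟩,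
  ⟨Int.ofNat 64045134649588, [2], [2, 2, 4, 4]⟩,
  ⟨Int.ofNat 90077365783022, [2], [2, 2, 3, 5]⟩,
  ⟨Int.negSucc 117138935688344, [2], [2, 2, 3, 3, 3]⟩,
  ⟨Int.ofNat 11555148950746, [2], [2, 2, 2, 6]⟩,
  ⟨Int.negSucc 152821461486343, [2], [2, 2, 2, 3, 4]⟩,
  ⟨Int.negSucc 34799186606213, [2], [2, 2, 2, 2, 5]⟩,
  ⟨Int.ofNat 115872141711541, [2], [2, 2, 2, 2, 3, 3]⟩,
  ⟨Int.ofNat 35349555889545, [2], [2, 2, 2, 2, 2, 4]⟩,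
  ⟨Int.negSucc 37896511470239, [2], [2, 2, 2, 2, 2, 2, 3]⟩,
  ⟨Int.ofNat 2584490367393, [2], [2, 2, 2, 2, 2, 2, 2, 2]⟩,
  ⟨Int.negSucc 9805120506596, [], [5, 6]⟩,
  ⟨Int.negSucc 8575029833477, [], [4, 7]⟩,
  ⟨Int.ofNat 3927860734935, [], [4, 4, 4]⟩,
  ⟨Int.ofNat 38118548405585, [], [3, 4, 5]⟩,
  ⟨Int.ofNat 16109580495695, [], [3, 3, 6]⟩,
  ⟨Int.negSucc 44498542185230, [], [3, 3, 3, 4]⟩,
  ⟨Int.ofNat 21392966030449, [], [2, 5, 5]⟩,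
  ⟨Int.negSucc 581443124254, [], [2, 4, 6]⟩,
  ⟨Int.negSucc 1006887639207, [], [2, 3, 7]⟩,
  ⟨Int.negSucc 19083755434752, [], [2, 3, 4, 4]⟩,
  ⟨Int.negSucc 41204882280046, [], [2, 3, 3, 5]⟩,
  ⟨Int.ofNat 32332388388040, [], [2, 3, 3, 3, 3]⟩,
  ⟨Int.negSucc 73551186375915, [], [2, 2, 4, 5]⟩,
  ⟨Int.negSucc 3250061681403, [], [2, 2, 3, 6]⟩,
  ⟨Int.ofNat 84862617953655, [], [2, 2, 3, 3, 4]⟩,
  ⟨Int.ofNat 845782037376, [], [2, 2, 2, 7]⟩,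
  ⟨Int.ofNat 49668223631647, [], [2, 2, 2, 4, 4]⟩,
  ⟨Int.ofNat 43496765359068, [], [2, 2, 2, 3, 5]⟩,
  ⟨Int.negSucc 36637841057799, [], [2, 2, 2, 3, 3, 3]⟩,
  ⟨Int.negSucc 67757731577, [], [2, 2, 2, 2, 6]⟩,
  ⟨Int.negSucc 67687337507227, [], [2, 2, 2, 2, 3, 4]⟩,
  ⟨Int.negSucc 3592647169566, [], [2, 2, 2, 2, 2, 5]⟩,
  ⟨Int.negSucc 1726408100677, [], [2, 2, 2, 2, 2, 3, 3]⟩,
  ⟨Int.ofNat 9089971166291, [], [2, 2, 2, 2, 2, 2, 4]⟩,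
  ⟨Int.ofNat 11525809730855, [], [2, 2, 2, 2, 2, 2, 2, 3]⟩,
  ⟨Int.negSucc 2212713887496, [], [2, 2, 2, 2, 2, 2, 2, 2, 2]⟩,
  ⟨Int.ofNat 1453192198342, [6, 6], []⟩,
  ⟨Int.ofNat 467450937307, [4, 4, 5], []⟩,
  ⟨Int.negSucc 1168627343268, [3, 5, 5], []⟩,
  ⟨Int.ofNat 737689464901, [3, 4, 6], []⟩,
  ⟨Int.negSucc 902264682373, [3, 3, 4, 4], []⟩,
  ⟨Int.ofNat 3312516512384, [3, 3, 3, 5], []⟩,
  ⟨Int.negSucc 1382354128909, [3, 3, 3, 3, 3], []⟩,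
  ⟨Int.negSucc 4590903542635, [2, 5, 6], []⟩]

def d6b_F7 : List Term := [
  ⟨Int.ofNat 2226692934411, [2, 4, 4, 4], []⟩,
  ⟨Int.negSucc 1677185466325, [2, 3, 4, 5], []⟩,
  ⟨Int.negSucc 3066060229268, [2, 3, 3, 6], []⟩,
  ⟨Int.ofNat 2828987635496, [2, 3, 3, 3, 4], []⟩,
  ⟨Int.ofNat 1993613773221, [2, 2, 5, 5], []⟩,
  ⟨Int.ofNat 459315752728, [2, 2, 4, 6], []⟩,
  ⟨Int.negSucc 6271802907593, [2, 2, 3, 4, 4], []⟩,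
  ⟨Int.negSucc 2364880738731, [2, 2, 3, 3, 5], []⟩,
  ⟨Int.ofNat 1103818683865, [2, 2, 3, 3, 3, 3], []⟩,
  ⟨Int.negSucc 1728027540795, [2, 2, 2, 4, 5], []⟩,
  ⟨Int.ofNat 3294419076037, [2, 2, 2, 3, 6], []⟩,
  ⟨Int.ofNat 1568204218688, [2, 2, 2, 3, 3, 4], []⟩,
  ⟨Int.ofNat 3237552516489, [2, 2, 2, 2, 4, 4], []⟩,
  ⟨Int.ofNat 4483315377188, [2, 2, 2, 2, 3, 5], []⟩,
  ⟨Int.negSucc 23122463412, [2, 2, 2, 2, 3, 3, 3], []⟩,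
  ⟨Int.negSucc 880512350993, [2, 2, 2, 2, 2, 6], []⟩,
  ⟨Int.negSucc 713704966378, [2, 2, 2, 2, 2, 3, 4], []⟩,
  ⟨Int.negSucc 1865551270264, [2, 2, 2, 2, 2, 2, 5], []⟩,
  ⟨Int.negSucc 2940681301686, [2, 2, 2, 2, 2, 2, 3, 3], []⟩,
  ⟨Int.negSucc 86683999237, [2, 2, 2, 2, 2, 2, 2, 4], []⟩,
  ⟨Int.ofNat 1450542076096, [2, 2, 2, 2, 2, 2, 2, 2, 3], []⟩,
  ⟨Int.negSucc 52842282419, [2, 2, 2, 2, 2, 2, 2, 2, 2, 2], []⟩,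
  ⟨Int.ofNat 396995806101, [5, 6], [2]⟩,
  ⟨Int.ofNat 482607735467, [4, 4, 4], [2]⟩,
  ⟨Int.negSucc 3368495903980, [3, 4, 5], [2]⟩,
  ⟨Int.negSucc 45150930242, [3, 3, 6], [2]⟩,
  ⟨Int.negSucc 850224962051, [3, 3, 3, 4], [2]⟩,
  ⟨Int.ofNat 7638019462357, [2, 5, 5], [2]⟩,
  ⟨Int.negSucc 2315104644234, [2, 4, 6], [2]⟩,
  ⟨Int.ofNat 1451183794960, [2, 3, 4, 4], [2]⟩,
  ⟨Int.ofNat 2464807249770, [2, 3, 3, 5], [2]⟩,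
  ⟨Int.ofNat 1031893874344, [2, 3, 3, 3, 3], [2]⟩,
  ⟨Int.negSucc 4198558966685, [2, 2, 4, 5], [2]⟩,
  ⟨Int.negSucc 1458240988196, [2, 2, 3, 6], [2]⟩,
  ⟨Int.ofNat 6772439636040, [2, 2, 3, 3, 4], [2]⟩,
  ⟨Int.negSucc 1147849594078, [2, 2, 2, 4, 4], [2]⟩,
  ⟨Int.ofNat 3103694572216, [2, 2, 2, 3, 5], [2]⟩,
  ⟨Int.negSucc 5293678748955, [2, 2, 2, 3, 3, 3], [2]⟩,
  ⟨Int.ofNat 2495544575341, [2, 2, 2, 2, 6], [2]⟩,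
  ⟨Int.negSucc 9992999342362, [2, 2, 2, 2, 3, 4], [2]⟩,
  ⟨Int.negSucc 4896324660706, [2, 2, 2, 2, 2, 5], [2]⟩,
  ⟨Int.ofNat 7915933849950, [2, 2, 2, 2, 2, 3, 3], [2]⟩,
  ⟨Int.ofNat 4183343042492, [2, 2, 2, 2, 2, 2, 4], [2]⟩,
  ⟨Int.negSucc 3554775918186, [2, 2, 2, 2, 2, 2, 2, 3], [2]⟩,
  ⟨Int.ofNat 752633362125, [2, 2, 2, 2, 2, 2, 2, 2, 2], [2]⟩,
  ⟨Int.negSucc 15160689432577, [5, 5], [3]⟩,
  ⟨Int.ofNat 9562132748865, [5, 5], [2, 2]⟩,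
  ⟨Int.negSucc 3743565828270, [4, 6], [3]⟩,
  ⟨Int.negSucc 3576179212267, [4, 6], [2, 2]⟩,
  ⟨Int.negSucc 1060263718194, [3, 4, 4], [3]⟩,
  ⟨Int.negSucc 805803042014, [3, 4, 4], [2, 2]⟩,
  ⟨Int.ofNat 14858014509328, [3, 3, 5], [3]⟩,
  ⟨Int.negSucc 8041121985682, [3, 3, 5], [2, 2]⟩,
  ⟨Int.negSucc 7889365612231, [3, 3, 3, 3], [3]⟩,
  ⟨Int.ofNat 5677509700469, [3, 3, 3, 3], [2, 2]⟩,
  ⟨Int.ofNat 3771403695341, [2, 4, 5], [3]⟩,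
  ⟨Int.ofNat 6315300511907, [2, 4, 5], [2, 2]⟩,
  ⟨Int.negSucc 1728375722704, [2, 3, 6], [3]⟩,
  ⟨Int.ofNat 1503772479484, [2, 3, 6], [2, 2]⟩,
  ⟨Int.ofNat 170781378153, [2, 3, 3, 4], [3]⟩,
  ⟨Int.ofNat 507986674219, [2, 3, 3, 4], [2, 2]⟩,
  ⟨Int.ofNat 7932966672, [2, 2, 4, 4], [3]⟩,
  ⟨Int.negSucc 6988272988919, [2, 2, 4, 4], [2, 2]⟩,
  ⟨Int.ofNat 1032511796325, [2, 2, 3, 5], [3]⟩,
  ⟨Int.ofNat 4817896336192, [2, 2, 3, 5], [2, 2]⟩,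
  ⟨Int.ofNat 4458401964064, [2, 2, 3, 3, 3], [3]⟩,
  ⟨Int.negSucc 4797635051039, [2, 2, 3, 3, 3], [2, 2]⟩,
  ⟨Int.ofNat 117370511015, [2, 2, 2, 6], [3]⟩,
  ⟨Int.ofNat 2574610787112, [2, 2, 2, 6], [2, 2]⟩,
  ⟨Int.ofNat 1978066175543, [2, 2, 2, 3, 4], [3]⟩,
  ⟨Int.negSucc 7751998655624, [2, 2, 2, 3, 4], [2, 2]⟩,
  ⟨Int.negSucc 1002496254190, [2, 2, 2, 2, 5], [3]⟩,
  ⟨Int.negSucc 8820170588078, [2, 2, 2, 2, 5], [2, 2]⟩,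
  ⟨Int.ofNat 479226208246, [2, 2, 2, 2, 3, 3], [3]⟩,
  ⟨Int.ofNat 11349472262522, [2, 2, 2, 2, 3, 3], [2, 2]⟩,
  ⟨Int.negSucc 5869822015112, [2, 2, 2, 2, 2, 4], [3]⟩,
  ⟨Int.ofNat 8393411831581, [2, 2, 2, 2, 2, 4], [2, 2]⟩,
  ⟨Int.ofNat 3760469495272, [2, 2, 2, 2, 2, 2, 3], [3]⟩,
  ⟨Int.negSucc 8299076858668, [2, 2, 2, 2, 2, 2, 3], [2, 2]⟩,
  ⟨Int.negSucc 1650651102150, [2, 2, 2, 2, 2, 2, 2, 2], [3]⟩,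
  ⟨Int.ofNat 1723181820200, [2, 2, 2, 2, 2, 2, 2, 2], [2, 2]⟩,
  ⟨Int.negSucc 6758823928905, [4, 5], [4]⟩,
  ⟨Int.ofNat 15923518439118, [4, 5], [2, 3]⟩,
  ⟨Int.negSucc 2650527015533, [4, 5], [2, 2, 2]⟩,
  ⟨Int.ofNat 2154465224301, [3, 6], [4]⟩,
  ⟨Int.negSucc 13687397255405, [3, 6], [2, 3]⟩,
  ⟨Int.ofNat 6537911322474, [3, 6], [2, 2, 2]⟩,
  ⟨Int.negSucc 16517795142711, [3, 3, 4], [4]⟩,
  ⟨Int.ofNat 21133211312188, [3, 3, 4], [2, 3]⟩,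
  ⟨Int.negSucc 7908140763688, [3, 3, 4], [2, 2, 2]⟩,
  ⟨Int.ofNat 8811869682252, [2, 4, 4], [4]⟩,
  ⟨Int.negSucc 21447210028039, [2, 4, 4], [2, 3]⟩,
  ⟨Int.ofNat 8547042412655, [2, 4, 4], [2, 2, 2]⟩,
  ⟨Int.negSucc 29123240946689, [2, 3, 5], [4]⟩,
  ⟨Int.ofNat 69695048028387, [2, 3, 5], [2, 3]⟩,
  ⟨Int.negSucc 14889552821096, [2, 3, 5], [2, 2, 2]⟩,
  ⟨Int.ofNat 17233262895371, [2, 3, 3, 3], [4]⟩,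
  ⟨Int.negSucc 33776694561268, [2, 3, 3, 3], [2, 3]⟩,
  ⟨Int.ofNat 9156722258876, [2, 3, 3, 3], [2, 2, 2]⟩,
  ⟨Int.ofNat 12006366011913, [2, 2, 6], [4]⟩]

def d6b_F8 : List Term := [
  ⟨Int.negSucc 6246623444187, [2, 2, 6], [2, 3]⟩,
  ⟨Int.ofNat 1186094391223, [2, 2, 6], [2, 2, 2]⟩,
  ⟨Int.negSucc 14903130064094, [2, 2, 3, 4], [4]⟩,
  ⟨Int.negSucc 10707665435409, [2, 2, 3, 4], [2, 3]⟩,
  ⟨Int.ofNat 277414536003, [2, 2, 3, 4], [2, 2, 2]⟩,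
  ⟨Int.ofNat 1040199327084, [2, 2, 2, 5], [4]⟩,
  ⟨Int.negSucc 6917494798941, [2, 2, 2, 5], [2, 3]⟩,
  ⟨Int.negSucc 3640842234768, [2, 2, 2, 5], [2, 2, 2]⟩,
  ⟨Int.ofNat 15337721950757, [2, 2, 2, 3, 3], [4]⟩,
  ⟨Int.ofNat 14215601217894, [2, 2, 2, 3, 3], [2, 3]⟩,
  ⟨Int.ofNat 6115128718913, [2, 2, 2, 3, 3], [2, 2, 2]⟩,
  ⟨Int.ofNat 18175944430419, [2, 2, 2, 2, 4], [4]⟩,
  ⟨Int.negSucc 11865860921698, [2, 2, 2, 2, 4], [2, 3]⟩,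
  ⟨Int.ofNat 7225700595251, [2, 2, 2, 2, 4], [2, 2, 2]⟩,
  ⟨Int.negSucc 21659250686199, [2, 2, 2, 2, 2, 3], [4]⟩,
  ⟨Int.ofNat 4007458958648, [2, 2, 2, 2, 2, 3], [2, 3]⟩,
  ⟨Int.negSucc 8834631945535, [2, 2, 2, 2, 2, 3], [2, 2, 2]⟩,
  ⟨Int.ofNat 2941825671410, [2, 2, 2, 2, 2, 2, 2], [4]⟩,
  ⟨Int.ofNat 1889502192896, [2, 2, 2, 2, 2, 2, 2], [2, 3]⟩,
  ⟨Int.negSucc 552009450940, [2, 2, 2, 2, 2, 2, 2], [2, 2, 2]⟩,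
  ⟨Int.negSucc 7229394894366, [4, 4], [5]⟩,
  ⟨Int.negSucc 4669126099346, [4, 4], [3, 3]⟩,
  ⟨Int.ofNat 27652930865807, [4, 4], [2, 4]⟩,
  ⟨Int.negSucc 12014147846904, [4, 4], [2, 2, 3]⟩,
  ⟨Int.ofNat 3807128912380, [4, 4], [2, 2, 2, 2]⟩,
  ⟨Int.ofNat 28700367292534, [3, 5], [5]⟩,
  ⟨Int.negSucc 13972882732627, [3, 5], [3, 3]⟩,
  ⟨Int.negSucc 55682746282337, [3, 5], [2, 4]⟩,
  ⟨Int.ofNat 52093051566590, [3, 5], [2, 2, 3]⟩,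
  ⟨Int.negSucc 2393352390701, [3, 5], [2, 2, 2, 2]⟩,
  ⟨Int.negSucc 13746422226157, [3, 3, 3], [5]⟩,
  ⟨Int.negSucc 6355290412921, [3, 3, 3], [3, 3]⟩,
  ⟨Int.ofNat 39863563882258, [3, 3, 3], [2, 4]⟩,
  ⟨Int.negSucc 949642247533, [3, 3, 3], [2, 2, 3]⟩,
  ⟨Int.negSucc 15045157093122, [3, 3, 3], [2, 2, 2, 2]⟩,
  ⟨Int.negSucc 21943290439048, [2, 6], [5]⟩,
  ⟨Int.ofNat 8082856776180, [2, 6], [3, 3]⟩,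
  ⟨Int.ofNat 12881855607505, [2, 6], [2, 4]⟩,
  ⟨Int.negSucc 14823835758354, [2, 6], [2, 2, 3]⟩,
  ⟨Int.ofNat 5539258877654, [2, 6], [2, 2, 2, 2]⟩,
  ⟨Int.negSucc 5374776253849, [2, 3, 4], [5]⟩,
  ⟨Int.ofNat 53035946466494, [2, 3, 4], [3, 3]⟩,
  ⟨Int.ofNat 5973824030072, [2, 3, 4], [2, 4]⟩,
  ⟨Int.negSucc 58420086373422, [2, 3, 4], [2, 2, 3]⟩,
  ⟨Int.ofNat 7821977332780, [2, 3, 4], [2, 2, 2, 2]⟩,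
  ⟨Int.ofNat 9864085359348, [2, 2, 5], [5]⟩,
  ⟨Int.ofNat 23032898678344, [2, 2, 5], [3, 3]⟩,
  ⟨Int.ofNat 29868393506863, [2, 2, 5], [2, 4]⟩,
  ⟨Int.negSucc 96751525691614, [2, 2, 5], [2, 2, 3]⟩,
  ⟨Int.ofNat 35822614674644, [2, 2, 5], [2, 2, 2, 2]⟩,
  ⟨Int.ofNat 4125571170072, [2, 2, 3, 3], [5]⟩,
  ⟨Int.negSucc 36811266716002, [2, 2, 3, 3], [3, 3]⟩,
  ⟨Int.negSucc 66567644514535, [2, 2, 3, 3], [2, 4]⟩,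
  ⟨Int.ofNat 106807688637150, [2, 2, 3, 3], [2, 2, 3]⟩,
  ⟨Int.negSucc 20740534321466, [2, 2, 3, 3], [2, 2, 2, 2]⟩,
  ⟨Int.negSucc 51609739481074, [2, 2, 2, 4], [5]⟩,
  ⟨Int.negSucc 28459984793919, [2, 2, 2, 4], [3, 3]⟩,
  ⟨Int.ofNat 14639607284799, [2, 2, 2, 4], [2, 4]⟩,
  ⟨Int.ofNat 71529627400742, [2, 2, 2, 4], [2, 2, 3]⟩,
  ⟨Int.negSucc 35122916496475, [2, 2, 2, 4], [2, 2, 2, 2]⟩,
  ⟨Int.ofNat 73716694846104, [2, 2, 2, 2, 3], [5]⟩,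
  ⟨Int.ofNat 7880132233185, [2, 2, 2, 2, 3], [3, 3]⟩,
  ⟨Int.negSucc 38112717571505, [2, 2, 2, 2, 3], [2, 4]⟩,
  ⟨Int.ofNat 989016119875, [2, 2, 2, 2, 3], [2, 2, 3]⟩,
  ⟨Int.negSucc 10306194879872, [2, 2, 2, 2, 3], [2, 2, 2, 2]⟩,
  ⟨Int.negSucc 28341365724986, [2, 2, 2, 2, 2, 2], [5]⟩,
  ⟨Int.ofNat 5309577505884, [2, 2, 2, 2, 2, 2], [3, 3]⟩,
  ⟨Int.ofNat 36987303684812, [2, 2, 2, 2, 2, 2], [2, 4]⟩,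
  ⟨Int.negSucc 52231830267259, [2, 2, 2, 2, 2, 2], [2, 2, 3]⟩,
  ⟨Int.ofNat 26772509939429, [2, 2, 2, 2, 2, 2], [2, 2, 2, 2]⟩,
  ⟨Int.ofNat 12911766038381, [6], [6]⟩,
  ⟨Int.ofNat 19581293273894, [6], [3, 4]⟩,
  ⟨Int.ofNat 18005802522389, [6], [2, 5]⟩,
  ⟨Int.negSucc 66478468953843, [6], [2, 3, 3]⟩,
  ⟨Int.negSucc 32424203532598, [6], [2, 2, 4]⟩,
  ⟨Int.ofNat 61304590372449, [6], [2, 2, 2, 3]⟩,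
  ⟨Int.negSucc 7736298952736, [6], [2, 2, 2, 2, 2]⟩,
  ⟨Int.negSucc 8055402841478, [3, 4], [6]⟩,
  ⟨Int.ofNat 21931064499683, [3, 4], [3, 4]⟩,
  ⟨Int.ofNat 89944380214724, [3, 4], [2, 5]⟩,
  ⟨Int.negSucc 68590907507688, [3, 4], [2, 3, 3]⟩,
  ⟨Int.negSucc 234822570367830, [3, 4], [2, 2, 4]⟩,
  ⟨Int.ofNat 345092711682062, [3, 4], [2, 2, 2, 3]⟩,
  ⟨Int.negSucc 137495172588977, [3, 4], [2, 2, 2, 2, 2]⟩,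
  ⟨Int.ofNat 660113240151990, [2, 5], [6]⟩,
  ⟨Int.negSucc 1145405689599630, [2, 5], [3, 4]⟩,
  ⟨Int.negSucc 1140881446110829, [2, 5], [2, 5]⟩,
  ⟨Int.ofNat 1738259152553727, [2, 5], [2, 3, 3]⟩,
  ⟨Int.ofNat 1636846186186504, [2, 5], [2, 2, 4]⟩,
  ⟨Int.negSucc 2288000650918189, [2, 5], [2, 2, 2, 3]⟩,
  ⟨Int.ofNat 582006362452535, [2, 5], [2, 2, 2, 2, 2]⟩,
  ⟨Int.negSucc 498388290686805, [2, 3, 3], [6]⟩,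
  ⟨Int.ofNat 829226219471892, [2, 3, 3], [3, 4]⟩,
  ⟨Int.ofNat 722604533808875, [2, 3, 3], [2, 5]⟩,
  ⟨Int.negSucc 1198135103263348, [2, 3, 3], [2, 3, 3]⟩,
  ⟨Int.negSucc 860090527259822, [2, 3, 3], [2, 2, 4]⟩,
  ⟨Int.ofNat 1221623454818875, [2, 3, 3], [2, 2, 2, 3]⟩,
  ⟨Int.negSucc 249836908018945, [2, 3, 3], [2, 2, 2, 2, 2]⟩,
  ⟨Int.negSucc 839718090565666, [2, 2, 4], [6]⟩,
  ⟨Int.ofNat 1656512031586252, [2, 2, 4], [3, 4]⟩]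

def d6b_F9 : List Term := [
  ⟨Int.ofNat 1660882260438409, [2, 2, 4], [2, 5]⟩,
  ⟨Int.negSucc 2557215968050486, [2, 2, 4], [2, 3, 3]⟩,
  ⟨Int.negSucc 2557176404745144, [2, 2, 4], [2, 2, 4]⟩,
  ⟨Int.ofNat 3553497200111707, [2, 2, 4], [2, 2, 2, 3]⟩,
  ⟨Int.negSucc 938038625882994, [2, 2, 4], [2, 2, 2, 2, 2]⟩,
  ⟨Int.ofNat 962316799510100, [2, 2, 2, 3], [6]⟩,
  ⟨Int.negSucc 2010680854682436, [2, 2, 2, 3], [3, 4]⟩,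
  ⟨Int.negSucc 1940077267974384, [2, 2, 2, 3], [2, 5]⟩,
  ⟨Int.ofNat 3173180633470279, [2, 2, 2, 3], [2, 3, 3]⟩,
  ⟨Int.ofNat 3033412839679570, [2, 2, 2, 3], [2, 2, 4]⟩,
  ⟨Int.negSucc 4318472567005271, [2, 2, 2, 3], [2, 2, 2, 3]⟩,
  ⟨Int.ofNat 1116894895437998, [2, 2, 2, 3], [2, 2, 2, 2, 2]⟩,
  ⟨Int.negSucc 240911416270879, [2, 2, 2, 2, 2], [6]⟩,
  ⟨Int.ofNat 568732193550121, [2, 2, 2, 2, 2], [3, 4]⟩,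
  ⟨Int.ofNat 543202022872318, [2, 2, 2, 2, 2], [2, 5]⟩,
  ⟨Int.negSucc 931249905600635, [2, 2, 2, 2, 2], [2, 3, 3]⟩,
  ⟨Int.negSucc 915866079473318, [2, 2, 2, 2, 2], [2, 2, 4]⟩,
  ⟨Int.ofNat 1329340616033917, [2, 2, 2, 2, 2], [2, 2, 2, 3]⟩,
  ⟨Int.negSucc 352612551672040, [2, 2, 2, 2, 2], [2, 2, 2, 2, 2]⟩,
  ⟨Int.ofNat 19926070453199, [5], [7]⟩,
  ⟨Int.negSucc 39256893344211, [5], [4, 4]⟩,
  ⟨Int.negSucc 383892064281797, [5], [3, 5]⟩,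
  ⟨Int.ofNat 280394179321684, [5], [3, 3, 3]⟩,
  ⟨Int.negSucc 240389876353238, [5], [2, 6]⟩,
  ⟨Int.ofNat 714654865108667, [5], [2, 3, 4]⟩,
  ⟨Int.ofNat 446106507586498, [5], [2, 2, 5]⟩,
  ⟨Int.negSucc 777865441638312, [5], [2, 2, 3, 3]⟩,
  ⟨Int.negSucc 360452733620833, [5], [2, 2, 2, 4]⟩,
  ⟨Int.ofNat 305288019580978, [5], [2, 2, 2, 2, 3]⟩,
  ⟨Int.ofNat 5159181127020, [5], [2, 2, 2, 2, 2, 2]⟩,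
  ⟨Int.negSucc 55722992353968, [3, 3], [7]⟩,
  ⟨Int.ofNat 71348364326002, [3, 3], [4, 4]⟩,
  ⟨Int.ofNat 394332349851791, [3, 3], [3, 5]⟩,
  ⟨Int.negSucc 288748558353935, [3, 3], [3, 3, 3]⟩,
  ⟨Int.ofNat 137163725076068, [3, 3], [2, 6]⟩,
  ⟨Int.negSucc 618514828430951, [3, 3], [2, 3, 4]⟩,
  ⟨Int.negSucc 295407400097948, [3, 3], [2, 2, 5]⟩,
  ⟨Int.ofNat 707149752850429, [3, 3], [2, 2, 3, 3]⟩,
  ⟨Int.ofNat 263810966765940, [3, 3], [2, 2, 2, 4]⟩,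
  ⟨Int.negSucc 340728939920885, [3, 3], [2, 2, 2, 2, 3]⟩,
  ⟨Int.ofNat 43591463879479, [3, 3], [2, 2, 2, 2, 2, 2]⟩,
  ⟨Int.negSucc 17598359412352, [2, 4], [7]⟩,
  ⟨Int.negSucc 72219876462562, [2, 4], [4, 4]⟩,
  ⟨Int.ofNat 286373146793076, [2, 4], [3, 5]⟩,
  ⟨Int.negSucc 185770867986026, [2, 4], [3, 3, 3]⟩,
  ⟨Int.ofNat 120399887333642, [2, 4], [2, 6]⟩,
  ⟨Int.negSucc 317031941641843, [2, 4], [2, 3, 4]⟩,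
  ⟨Int.negSucc 413224031154589, [2, 4], [2, 2, 5]⟩,
  ⟨Int.ofNat 587979210847109, [2, 4], [2, 2, 3, 3]⟩,
  ⟨Int.ofNat 471474803486286, [2, 4], [2, 2, 2, 4]⟩,
  ⟨Int.negSucc 556554348644422, [2, 4], [2, 2, 2, 2, 3]⟩,
  ⟨Int.ofNat 103464259708156, [2, 4], [2, 2, 2, 2, 2, 2]⟩,
  ⟨Int.ofNat 54974533950857, [2, 2, 3], [7]⟩,
  ⟨Int.ofNat 59885769364466, [2, 2, 3], [4, 4]⟩,
  ⟨Int.negSucc 505862072942719, [2, 2, 3], [3, 5]⟩,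
  ⟨Int.ofNat 344319298794372, [2, 2, 3], [3, 3, 3]⟩,
  ⟨Int.negSucc 205459378008023, [2, 2, 3], [2, 6]⟩,
  ⟨Int.ofNat 598958895474199, [2, 2, 3], [2, 3, 4]⟩,
  ⟨Int.ofNat 637324060134482, [2, 2, 3], [2, 2, 5]⟩,
  ⟨Int.negSucc 1069513012771781, [2, 2, 3], [2, 2, 3, 3]⟩,
  ⟨Int.negSucc 705563624740925, [2, 2, 3], [2, 2, 2, 4]⟩,
  ⟨Int.ofNat 976370775800453, [2, 2, 3], [2, 2, 2, 2, 3]⟩,
  ⟨Int.negSucc 206781349255871, [2, 2, 3], [2, 2, 2, 2, 2, 2]⟩,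
  ⟨Int.negSucc 10392408979841, [2, 2, 2, 2], [7]⟩,
  ⟨Int.negSucc 48044848114073, [2, 2, 2, 2], [4, 4]⟩,
  ⟨Int.ofNat 113924644723803, [2, 2, 2, 2], [3, 5]⟩,
  ⟨Int.negSucc 79100039270747, [2, 2, 2, 2], [3, 3, 3]⟩,
  ⟨Int.ofNat 73152814550566, [2, 2, 2, 2], [2, 6]⟩,
  ⟨Int.negSucc 138871156950959, [2, 2, 2, 2], [2, 3, 4]⟩,
  ⟨Int.negSucc 236249052807118, [2, 2, 2, 2], [2, 2, 5]⟩,
  ⟨Int.ofNat 347451501491350, [2, 2, 2, 2], [2, 2, 3, 3]⟩,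
  ⟨Int.ofNat 285847731662139, [2, 2, 2, 2], [2, 2, 2, 4]⟩,
  ⟨Int.negSucc 397363549604138, [2, 2, 2, 2], [2, 2, 2, 2, 3]⟩,
  ⟨Int.ofNat 89717653508378, [2, 2, 2, 2], [2, 2, 2, 2, 2, 2]⟩,
  ⟨Int.negSucc 14626600382458, [4], [4, 5]⟩,
  ⟨Int.negSucc 67231917832071, [4], [3, 6]⟩,
  ⟨Int.ofNat 152263552102209, [4], [3, 3, 4]⟩,
  ⟨Int.ofNat 4875986477329, [4], [2, 7]⟩,
  ⟨Int.ofNat 62455164137373, [4], [2, 4, 4]⟩,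
  ⟨Int.ofNat 97466884945506, [4], [2, 3, 5]⟩,
  ⟨Int.negSucc 142234575838632, [4], [2, 3, 3, 3]⟩,
  ⟨Int.ofNat 93475177291071, [4], [2, 2, 6]⟩,
  ⟨Int.negSucc 384394632447449, [4], [2, 2, 3, 4]⟩,
  ⟨Int.negSucc 95452602515893, [4], [2, 2, 2, 5]⟩,
  ⟨Int.ofNat 247207847297327, [4], [2, 2, 2, 3, 3]⟩,
  ⟨Int.ofNat 99575611017729, [4], [2, 2, 2, 2, 4]⟩,
  ⟨Int.negSucc 3252731743173, [4], [2, 2, 2, 2, 2, 3]⟩,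
  ⟨Int.negSucc 40353054787077, [4], [2, 2, 2, 2, 2, 2, 2]⟩,
  ⟨Int.ofNat 27213664186190, [2, 3], [4, 5]⟩,
  ⟨Int.ofNat 45443984258258, [2, 3], [3, 6]⟩,
  ⟨Int.negSucc 116240205060229, [2, 3], [3, 3, 4]⟩,
  ⟨Int.negSucc 5126373798097, [2, 3], [2, 7]⟩,
  ⟨Int.negSucc 107200128580143, [2, 3], [2, 4, 4]⟩,
  ⟨Int.negSucc 36423614992875, [2, 3], [2, 3, 5]⟩,
  ⟨Int.ofNat 90948773063128, [2, 3], [2, 3, 3, 3]⟩,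
  ⟨Int.negSucc 124136044686810, [2, 3], [2, 2, 6]⟩,
  ⟨Int.ofNat 550187257843145, [2, 3], [2, 2, 3, 4]⟩,
  ⟨Int.ofNat 111711390666904, [2, 3], [2, 2, 2, 5]⟩,
  ⟨Int.negSucc 277510662898798, [2, 3], [2, 2, 2, 3, 3]⟩,
  ⟨Int.negSucc 186980702821542, [2, 3], [2, 2, 2, 2, 4]⟩]

def d6b_F10 : List Term := [
  ⟨Int.negSucc 38101671132121, [2, 3], [2, 2, 2, 2, 2, 3]⟩,
  ⟨Int.ofNat 79946635154856, [2, 3], [2, 2, 2, 2, 2, 2, 2]⟩,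
  ⟨Int.negSucc 7514253140615, [2, 2, 2], [4, 5]⟩,
  ⟨Int.negSucc 4483067727931, [2, 2, 2], [3, 6]⟩,
  ⟨Int.ofNat 26821351910524, [2, 2, 2], [3, 3, 4]⟩,
  ⟨Int.negSucc 2424087179620, [2, 2, 2], [2, 7]⟩,
  ⟨Int.ofNat 49252421592211, [2, 2, 2], [2, 4, 4]⟩,
  ⟨Int.ofNat 18260899716419, [2, 2, 2], [2, 3, 5]⟩,
  ⟨Int.negSucc 29157080627823, [2, 2, 2], [2, 3, 3, 3]⟩,
  ⟨Int.ofNat 67069042126442, [2, 2, 2], [2, 2, 6]⟩,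
  ⟨Int.negSucc 285303763339052, [2, 2, 2], [2, 2, 3, 4]⟩,
  ⟨Int.negSucc 91216125058404, [2, 2, 2], [2, 2, 2, 5]⟩,
  ⟨Int.ofNat 162061402013440, [2, 2, 2], [2, 2, 2, 3, 3]⟩,
  ⟨Int.ofNat 147200360170097, [2, 2, 2], [2, 2, 2, 2, 4]⟩,
  ⟨Int.negSucc 29862713730625, [2, 2, 2], [2, 2, 2, 2, 2, 3]⟩,
  ⟨Int.negSucc 29983980463420, [2, 2, 2], [2, 2, 2, 2, 2, 2, 2]⟩,
  ⟨Int.negSucc 4312087457962, [3], [5, 5]⟩,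
  ⟨Int.negSucc 14642676182007, [3], [4, 6]⟩,
  ⟨Int.negSucc 14016378220699, [3], [3, 7]⟩,
  ⟨Int.ofNat 68676786726511, [3], [3, 4, 4]⟩,
  ⟨Int.ofNat 88134581113150, [3], [3, 3, 5]⟩,
  ⟨Int.negSucc 32752498223159, [3], [3, 3, 3, 3]⟩,
  ⟨Int.ofNat 21329900804657, [3], [2, 4, 5]⟩,
  ⟨Int.ofNat 24445353703704, [3], [2, 3, 6]⟩,
  ⟨Int.negSucc 146577560450739, [3], [2, 3, 3, 4]⟩,
  ⟨Int.ofNat 9002053966994, [3], [2, 2, 7]⟩,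
  ⟨Int.negSucc 50020983397803, [3], [2, 2, 4, 4]⟩,
  ⟨Int.negSucc 152359171343356, [3], [2, 2, 3, 5]⟩,
  ⟨Int.ofNat 122126344874704, [3], [2, 2, 3, 3, 3]⟩,
  ⟨Int.negSucc 30102666030687, [3], [2, 2, 2, 6]⟩,
  ⟨Int.ofNat 213346772302205, [3], [2, 2, 2, 3, 4]⟩,
  ⟨Int.ofNat 82785807653284, [3], [2, 2, 2, 2, 5]⟩,
  ⟨Int.negSucc 165093697482059, [3], [2, 2, 2, 2, 3, 3]⟩,
  ⟨Int.negSucc 79819147987874, [3], [2, 2, 2, 2, 2, 4]⟩,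
  ⟨Int.ofNat 73923034126267, [3], [2, 2, 2, 2, 2, 2, 3]⟩,
  ⟨Int.negSucc 7269405912151, [3], [2, 2, 2, 2, 2, 2, 2, 2]⟩,
  ⟨Int.ofNat 13437507736028, [2, 2], [5, 5]⟩,
  ⟨Int.ofNat 14539600908331, [2, 2], [4, 6]⟩,
  ⟨Int.ofNat 6987880501283, [2, 2], [3, 7]⟩,
  ⟨Int.negSucc 43604593152297, [2, 2], [3, 4, 4]⟩,
  ⟨Int.negSucc 60095072904980, [2, 2], [3, 3, 5]⟩,
  ⟨Int.ofNat 19447839115096, [2, 2], [3, 3, 3, 3]⟩,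
  ⟨Int.negSucc 23099746262993, [2, 2], [2, 4, 5]⟩,
  ⟨Int.negSucc 20753516408180, [2, 2], [2, 3, 6]⟩,
  ⟨Int.ofNat 116794324502291, [2, 2], [2, 3, 3, 4]⟩,
  ⟨Int.negSucc 3983739703590, [2, 2], [2, 2, 7]⟩,
  ⟨Int.ofNat 35913727857432, [2, 2], [2, 2, 4, 4]⟩,
  ⟨Int.ofNat 123457598158169, [2, 2], [2, 2, 3, 5]⟩,
  ⟨Int.negSucc 95398200016814, [2, 2], [2, 2, 3, 3, 3]⟩,
  ⟨Int.ofNat 20332709875374, [2, 2], [2, 2, 2, 6]⟩,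
  ⟨Int.negSucc 179775974375687, [2, 2], [2, 2, 2, 3, 4]⟩,
  ⟨Int.negSucc 66113194533360, [2, 2], [2, 2, 2, 2, 5]⟩,
  ⟨Int.ofNat 140443816617034, [2, 2], [2, 2, 2, 2, 3, 3]⟩,
  ⟨Int.ofNat 70093035810536, [2, 2], [2, 2, 2, 2, 2, 4]⟩,
  ⟨Int.negSucc 70973279404997, [2, 2], [2, 2, 2, 2, 2, 2, 3]⟩,
  ⟨Int.ofNat 9405532584376, [2, 2], [2, 2, 2, 2, 2, 2, 2, 2]⟩,
  ⟨Int.negSucc 10436320774109, [2], [5, 6]⟩,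
  ⟨Int.negSucc 4763426953008, [2], [4, 7]⟩,
  ⟨Int.ofNat 6900463117535, [2], [4, 4, 4]⟩,
  ⟨Int.ofNat 26557697733712, [2], [3, 4, 5]⟩,
  ⟨Int.ofNat 5365925771117, [2], [3, 3, 6]⟩,
  ⟨Int.negSucc 15956145457199, [2], [3, 3, 3, 4]⟩,
  ⟨Int.ofNat 8889055253563, [2], [2, 5, 5]⟩,
  ⟨Int.ofNat 8980050843078, [2], [2, 4, 6]⟩,
  ⟨Int.ofNat 812268712536, [2], [2, 3, 7]⟩,
  ⟨Int.negSucc 42193158991160, [2], [2, 3, 4, 4]⟩,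
  ⟨Int.negSucc 27221814710959, [2], [2, 3, 3, 5]⟩,
  ⟨Int.ofNat 17849376163390, [2], [2, 3, 3, 3, 3]⟩,
  ⟨Int.negSucc 34178550745655, [2], [2, 2, 4, 5]⟩,
  ⟨Int.negSucc 13853401609347, [2], [2, 2, 3, 6]⟩,
  ⟨Int.ofNat 91959027827125, [2], [2, 2, 3, 3, 4]⟩,
  ⟨Int.ofNat 103498631821, [2], [2, 2, 2, 7]⟩,
  ⟨Int.ofNat 31783838428799, [2], [2, 2, 2, 4, 4]⟩,
  ⟨Int.ofNat 35626079425761, [2], [2, 2, 2, 3, 5]⟩,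
  ⟨Int.negSucc 58494354292416, [2], [2, 2, 2, 3, 3, 3]⟩,
  ⟨Int.ofNat 132419278979, [2], [2, 2, 2, 2, 6]⟩,
  ⟨Int.negSucc 74472296856226, [2], [2, 2, 2, 2, 3, 4]⟩,
  ⟨Int.negSucc 2117454266486, [2], [2, 2, 2, 2, 2, 5]⟩,
  ⟨Int.ofNat 43474667639714, [2], [2, 2, 2, 2, 2, 3, 3]⟩,
  ⟨Int.ofNat 10483695812530, [2], [2, 2, 2, 2, 2, 2, 4]⟩,
  ⟨Int.negSucc 9565411062993, [2], [2, 2, 2, 2, 2, 2, 2, 3]⟩,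
  ⟨Int.ofNat 631713055147, [2], [2, 2, 2, 2, 2, 2, 2, 2, 2]⟩,
  ⟨Int.ofNat 1983123682912, [], [6, 6]⟩,
  ⟨Int.negSucc 1255939072932, [], [5, 7]⟩,
  ⟨Int.negSucc 1440637368716, [], [4, 4, 5]⟩,
  ⟨Int.negSucc 3756534153836, [], [3, 5, 5]⟩,
  ⟨Int.negSucc 9950131169096, [], [3, 4, 6]⟩,
  ⟨Int.ofNat 1169335694503, [], [3, 3, 7]⟩,
  ⟨Int.ofNat 8527815703494, [], [3, 3, 4, 4]⟩,
  ⟨Int.ofNat 9019523515207, [], [3, 3, 3, 5]⟩,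
  ⟨Int.negSucc 2439529482670, [], [3, 3, 3, 3, 3]⟩,
  ⟨Int.negSucc 7879780891198, [], [2, 5, 6]⟩,
  ⟨Int.ofNat 1133011404617, [], [2, 4, 7]⟩,
  ⟨Int.ofNat 1574868327774, [], [2, 4, 4, 4]⟩,
  ⟨Int.ofNat 32709962335309, [], [2, 3, 4, 5]⟩,
  ⟨Int.ofNat 3560749433146, [], [2, 3, 3, 6]⟩,
  ⟨Int.negSucc 12680433783778, [], [2, 3, 3, 3, 4]⟩,
  ⟨Int.ofNat 8021278757428, [], [2, 2, 5, 5]⟩,
  ⟨Int.ofNat 11699502017340, [], [2, 2, 4, 6]⟩,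
  ⟨Int.negSucc 1313175172054, [], [2, 2, 3, 7]⟩]

def d6b_F11 : List Term := [
  ⟨Int.negSucc 27601124608887, [], [2, 2, 3, 4, 4]⟩,
  ⟨Int.negSucc 34644712237525, [], [2, 2, 3, 3, 5]⟩,
  ⟨Int.ofNat 8778793761664, [], [2, 2, 3, 3, 3, 3]⟩,
  ⟨Int.negSucc 18843267043295, [], [2, 2, 2, 4, 5]⟩,
  ⟨Int.ofNat 3044986975206, [], [2, 2, 2, 3, 6]⟩,
  ⟨Int.ofNat 20745673857692, [], [2, 2, 2, 3, 3, 4]⟩,
  ⟨Int.ofNat 859421381907, [], [2, 2, 2, 2, 7]⟩,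
  ⟨Int.ofNat 9104249959440, [], [2, 2, 2, 2, 4, 4]⟩,
  ⟨Int.ofNat 11618019589436, [], [2, 2, 2, 2, 3, 5]⟩,
  ⟨Int.negSucc 4832984983211, [], [2, 2, 2, 2, 3, 3, 3]⟩,
  ⟨Int.negSucc 4046791654649, [], [2, 2, 2, 2, 2, 6]⟩,
  ⟨Int.ofNat 1387820529398, [], [2, 2, 2, 2, 2, 3, 4]⟩,
  ⟨Int.ofNat 1955180140559, [], [2, 2, 2, 2, 2, 2, 5]⟩,
  ⟨Int.negSucc 3208371093974, [], [2, 2, 2, 2, 2, 2, 3, 3]⟩,
  ⟨Int.negSucc 4862964107579, [], [2, 2, 2, 2, 2, 2, 2, 4]⟩,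
  ⟨Int.ofNat 3832832848408, [], [2, 2, 2, 2, 2, 2, 2, 2, 3]⟩,
  ⟨Int.negSucc 845387380910, [], [2, 2, 2, 2, 2, 2, 2, 2, 2, 2]⟩,
  ⟨Int.negSucc 165177747530, [4, 4, 6], []⟩,
  ⟨Int.ofNat 412944368827, [3, 5, 6], []⟩,
  ⟨Int.ofNat 303488797161, [3, 4, 4, 4], []⟩,
  ⟨Int.negSucc 291382648158, [3, 3, 4, 5], []⟩,
  ⟨Int.ofNat 23514014262, [3, 3, 3, 6], []⟩,
  ⟨Int.ofNat 159785278422, [3, 3, 3, 3, 4], []⟩,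
  ⟨Int.negSucc 825888737653, [2, 6, 6], []⟩,
  ⟨Int.ofNat 857460632, [2, 4, 4, 5], []⟩,
  ⟨Int.negSucc 2143651580, [2, 3, 5, 5], []⟩,
  ⟨Int.ofNat 488709239271, [2, 3, 4, 6], []⟩,
  ⟨Int.negSucc 821103951554, [2, 3, 3, 4, 4], []⟩,
  ⟨Int.negSucc 138195452424, [2, 3, 3, 3, 5], []⟩,
  ⟨Int.ofNat 79981867056, [2, 3, 3, 3, 3, 3], []⟩,
  ⟨Int.ofNat 396986200682, [2, 2, 5, 6], []⟩,
  ⟨Int.negSucc 198475933518, [2, 2, 4, 4, 4], []⟩,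
  ⟨Int.ofNat 143315931014, [2, 2, 3, 4, 5], []⟩,
  ⟨Int.negSucc 45765021809, [2, 2, 3, 3, 6], []⟩,
  ⟨Int.ofNat 391346752675, [2, 2, 3, 3, 3, 4], []⟩,
  ⟨Int.ofNat 182145896646, [2, 2, 2, 5, 5], []⟩,
  ⟨Int.ofNat 294574685442, [2, 2, 2, 4, 6], []⟩,
  ⟨Int.ofNat 274553317111, [2, 2, 2, 3, 4, 4], []⟩,
  ⟨Int.negSucc 166446460165, [2, 2, 2, 3, 3, 5], []⟩,
  ⟨Int.negSucc 153868175574, [2, 2, 2, 3, 3, 3, 3], []⟩,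
  ⟨Int.negSucc 214952026462, [2, 2, 2, 2, 4, 5], []⟩,
  ⟨Int.negSucc 166749693279, [2, 2, 2, 2, 3, 6], []⟩,
  ⟨Int.ofNat 185400256200, [2, 2, 2, 2, 3, 3, 4], []⟩,
  ⟨Int.ofNat 22943994549, [2, 2, 2, 2, 2, 4, 4], []⟩,
  ⟨Int.negSucc 66075032194, [2, 2, 2, 2, 2, 3, 5], []⟩,
  ⟨Int.negSucc 20376285494, [2, 2, 2, 2, 2, 3, 3, 3], []⟩,
  ⟨Int.negSucc 102462169977, [2, 2, 2, 2, 2, 2, 6], []⟩,
  ⟨Int.negSucc 298628353480, [2, 2, 2, 2, 2, 2, 3, 4], []⟩,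
  ⟨Int.ofNat 156408701323, [2, 2, 2, 2, 2, 2, 2, 5], []⟩,
  ⟨Int.ofNat 63083346610, [2, 2, 2, 2, 2, 2, 2, 3, 3], []⟩,
  ⟨Int.ofNat 78023682882, [2, 2, 2, 2, 2, 2, 2, 2, 4], []⟩,
  ⟨Int.ofNat 24339188092, [2, 2, 2, 2, 2, 2, 2, 2, 2, 3], []⟩,
  ⟨Int.negSucc 30584515485, [2, 2, 2, 2, 2, 2, 2, 2, 2, 2, 2], []⟩,
  ⟨Int.ofNat 92209390586, [6, 6], [2]⟩,
  ⟨Int.negSucc 204513037584, [4, 4, 5], [2]⟩,
  ⟨Int.ofNat 511282593962, [3, 5, 5], [2]⟩,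
  ⟨Int.negSucc 988146047849, [3, 4, 6], [2]⟩,
  ⟨Int.ofNat 833222968082, [3, 3, 4, 4], [2]⟩,
  ⟨Int.negSucc 608931844023, [3, 3, 3, 5], [2]⟩,
  ⟨Int.ofNat 129349184768, [3, 3, 3, 3, 3], [2]⟩,
  ⟨Int.ofNat 779618735159, [2, 5, 6], [2]⟩,
  ⟨Int.negSucc 303615469483, [2, 4, 4, 4], [2]⟩,
  ⟨Int.ofNat 1285841896236, [2, 3, 4, 5], [2]⟩,
  ⟨Int.negSucc 44897737152, [2, 3, 3, 6], [2]⟩,
  ⟨Int.negSucc 1206060338160, [2, 3, 3, 3, 4], [2]⟩,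
  ⟨Int.negSucc 1627775555717, [2, 2, 5, 5], [2]⟩,
  ⟨Int.ofNat 522847466260, [2, 2, 4, 6], [2]⟩,
  ⟨Int.ofNat 269267425682, [2, 2, 3, 4, 4], [2]⟩,
  ⟨Int.ofNat 904789656304, [2, 2, 3, 3, 5], [2]⟩,
  ⟨Int.negSucc 73931154214, [2, 2, 3, 3, 3, 3], [2]⟩,
  ⟨Int.ofNat 530071470170, [2, 2, 2, 4, 5], [2]⟩,
  ⟨Int.negSucc 333470365023, [2, 2, 2, 3, 6], [2]⟩,
  ⟨Int.ofNat 229814936819, [2, 2, 2, 3, 3, 4], [2]⟩,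
  ⟨Int.negSucc 643394602388, [2, 2, 2, 2, 4, 4], [2]⟩,
  ⟨Int.negSucc 586279058309, [2, 2, 2, 2, 3, 5], [2]⟩,
  ⟨Int.negSucc 50514719492, [2, 2, 2, 2, 3, 3, 3], [2]⟩,
  ⟨Int.ofNat 138157993578, [2, 2, 2, 2, 2, 6], [2]⟩,
  ⟨Int.ofNat 306729486558, [2, 2, 2, 2, 2, 3, 4], [2]⟩,
  ⟨Int.ofNat 204512000270, [2, 2, 2, 2, 2, 2, 5], [2]⟩,
  ⟨Int.ofNat 185415449709, [2, 2, 2, 2, 2, 2, 3, 3], [2]⟩,
  ⟨Int.ofNat 62397274217, [2, 2, 2, 2, 2, 2, 2, 4], [2]⟩,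
  ⟨Int.negSucc 161768069752, [2, 2, 2, 2, 2, 2, 2, 2, 3], [2]⟩,
  ⟨Int.ofNat 14986024440, [2, 2, 2, 2, 2, 2, 2, 2, 2, 2], [2]⟩,
  ⟨Int.ofNat 161745781167, [5, 6], [3]⟩,
  ⟨Int.negSucc 584627810708, [5, 6], [2, 2]⟩,
  ⟨Int.negSucc 621563286981, [4, 4, 4], [3]⟩,
  ⟨Int.ofNat 149748246649, [4, 4, 4], [2, 2]⟩,
  ⟨Int.negSucc 341040444294, [3, 4, 5], [3]⟩,
  ⟨Int.ofNat 456979765573, [3, 4, 5], [2, 2]⟩,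
  ⟨Int.negSucc 386309598085, [3, 3, 6], [3]⟩,
  ⟨Int.negSucc 525698068715, [3, 3, 6], [2, 2]⟩,
  ⟨Int.ofNat 304350780465, [3, 3, 3, 4], [3]⟩,
  ⟨Int.negSucc 59645621920, [3, 3, 3, 4], [2, 2]⟩,
  ⟨Int.negSucc 453395679612, [2, 5, 5], [3]⟩,
  ⟨Int.negSucc 568708495677, [2, 5, 5], [2, 2]⟩,
  ⟨Int.ofNat 733344233048, [2, 4, 6], [3]⟩,
  ⟨Int.ofNat 1049144797647, [2, 4, 6], [2, 2]⟩,
  ⟨Int.ofNat 519650020601, [2, 3, 4, 4], [3]⟩,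
  ⟨Int.ofNat 891374505649, [2, 3, 4, 4], [2, 2]⟩,
  ⟨Int.ofNat 2819297702760, [2, 3, 3, 5], [3]⟩]

def d6b_F12 : List Term := [
  ⟨Int.negSucc 449821435395, [2, 3, 3, 5], [2, 2]⟩,
  ⟨Int.negSucc 848642052372, [2, 3, 3, 3, 3], [3]⟩,
  ⟨Int.ofNat 34627517718, [2, 3, 3, 3, 3], [2, 2]⟩,
  ⟨Int.negSucc 1237798877086, [2, 2, 4, 5], [3]⟩,
  ⟨Int.negSucc 213196830421, [2, 2, 4, 5], [2, 2]⟩,
  ⟨Int.negSucc 43121350205, [2, 2, 3, 6], [3]⟩,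
  ⟨Int.ofNat 325050557541, [2, 2, 3, 6], [2, 2]⟩,
  ⟨Int.ofNat 957652061911, [2, 2, 3, 3, 4], [3]⟩,
  ⟨Int.negSucc 2289162807842, [2, 2, 3, 3, 4], [2, 2]⟩,
  ⟨Int.ofNat 30569754517, [2, 2, 2, 4, 4], [3]⟩,
  ⟨Int.negSucc 255246597786, [2, 2, 2, 4, 4], [2, 2]⟩,
  ⟨Int.ofNat 2403283284333, [2, 2, 2, 3, 5], [3]⟩,
  ⟨Int.negSucc 2431230673314, [2, 2, 2, 3, 5], [2, 2]⟩,
  ⟨Int.negSucc 2114951906321, [2, 2, 2, 3, 3, 3], [3]⟩,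
  ⟨Int.ofNat 2501935298874, [2, 2, 2, 3, 3, 3], [2, 2]⟩,
  ⟨Int.negSucc 226301553361, [2, 2, 2, 2, 6], [3]⟩,
  ⟨Int.negSucc 310532682922, [2, 2, 2, 2, 6], [2, 2]⟩,
  ⟨Int.negSucc 2954109588560, [2, 2, 2, 2, 3, 4], [3]⟩,
  ⟨Int.ofNat 3463950984910, [2, 2, 2, 2, 3, 4], [2, 2]⟩,
  ⟨Int.negSucc 1795747973750, [2, 2, 2, 2, 2, 5], [3]⟩,
  ⟨Int.ofNat 1901582596005, [2, 2, 2, 2, 2, 5], [2, 2]⟩,
  ⟨Int.ofNat 2944195003015, [2, 2, 2, 2, 2, 3, 3], [3]⟩,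
  ⟨Int.negSucc 3169055992496, [2, 2, 2, 2, 2, 3, 3], [2, 2]⟩,
  ⟨Int.ofNat 1397440943155, [2, 2, 2, 2, 2, 2, 4], [3]⟩,
  ⟨Int.negSucc 1242019950210, [2, 2, 2, 2, 2, 2, 4], [2, 2]⟩,
  ⟨Int.negSucc 749600800708, [2, 2, 2, 2, 2, 2, 2, 3], [3]⟩,
  ⟨Int.ofNat 993840673965, [2, 2, 2, 2, 2, 2, 2, 3], [2, 2]⟩,
  ⟨Int.negSucc 43654969055, [2, 2, 2, 2, 2, 2, 2, 2, 2], [3]⟩,
  ⟨Int.negSucc 116383570530, [2, 2, 2, 2, 2, 2, 2, 2, 2], [2, 2]⟩,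
  ⟨Int.negSucc 5104246947637, [5, 5], [4]⟩,
  ⟨Int.ofNat 14746534403438, [5, 5], [2, 3]⟩,
  ⟨Int.negSucc 7637602338157, [5, 5], [2, 2, 2]⟩,
  ⟨Int.negSucc 1588031636380, [4, 6], [4]⟩,
  ⟨Int.ofNat 435039177088, [4, 6], [2, 3]⟩,
  ⟨Int.ofNat 503092985406, [4, 6], [2, 2, 2]⟩,
  ⟨Int.negSucc 1089282390226, [3, 4, 4], [4]⟩,
  ⟨Int.negSucc 235022356728, [3, 4, 4], [2, 3]⟩,
  ⟨Int.ofNat 793497646199, [3, 4, 4], [2, 2, 2]⟩,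
  ⟨Int.ofNat 5125445715662, [3, 3, 5], [4]⟩,
  ⟨Int.negSucc 16305310092253, [3, 3, 5], [2, 3]⟩,
  ⟨Int.ofNat 8916489595915, [3, 3, 5], [2, 2, 2]⟩,
  ⟨Int.negSucc 2639080928815, [3, 3, 3, 3], [4]⟩,
  ⟨Int.ofNat 8626517285792, [3, 3, 3, 3], [2, 3]⟩,
  ⟨Int.negSucc 5661856817291, [3, 3, 3, 3], [2, 2, 2]⟩,
  ⟨Int.ofNat 3580278897193, [2, 4, 5], [4]⟩,
  ⟨Int.negSucc 8868872446974, [2, 4, 5], [2, 3]⟩,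
  ⟨Int.ofNat 3383062441583, [2, 4, 5], [2, 2, 2]⟩,
  ⟨Int.negSucc 293849342904, [2, 3, 6], [4]⟩,
  ⟨Int.ofNat 1498334694016, [2, 3, 6], [2, 3]⟩,
  ⟨Int.negSucc 735401918984, [2, 3, 6], [2, 2, 2]⟩,
  ⟨Int.negSucc 2299409610004, [2, 3, 3, 4], [4]⟩,
  ⟨Int.ofNat 8385981315995, [2, 3, 3, 4], [2, 3]⟩,
  ⟨Int.negSucc 3547009686203, [2, 3, 3, 4], [2, 2, 2]⟩,
  ⟨Int.negSucc 2333878264999, [2, 2, 4, 4], [4]⟩,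
  ⟨Int.ofNat 4870826682560, [2, 2, 4, 4], [2, 3]⟩,
  ⟨Int.negSucc 2113921365510, [2, 2, 4, 4], [2, 2, 2]⟩,
  ⟨Int.negSucc 2039565768263, [2, 2, 3, 5], [4]⟩,
  ⟨Int.ofNat 11294162219509, [2, 2, 3, 5], [2, 3]⟩,
  ⟨Int.negSucc 8669390369945, [2, 2, 3, 5], [2, 2, 2]⟩,
  ⟨Int.ofNat 4719472102265, [2, 2, 3, 3, 3], [4]⟩,
  ⟨Int.negSucc 13766016418915, [2, 2, 3, 3, 3], [2, 3]⟩,
  ⟨Int.ofNat 8772145662139, [2, 2, 3, 3, 3], [2, 2, 2]⟩,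
  ⟨Int.negSucc 93562471091, [2, 2, 2, 6], [4]⟩,
  ⟨Int.ofNat 1305254587564, [2, 2, 2, 6], [2, 3]⟩,
  ⟨Int.negSucc 1481360540810, [2, 2, 2, 6], [2, 2, 2]⟩,
  ⟨Int.ofNat 6924504279556, [2, 2, 2, 3, 4], [4]⟩,
  ⟨Int.negSucc 22903526386724, [2, 2, 2, 3, 4], [2, 3]⟩,
  ⟨Int.ofNat 15395703700726, [2, 2, 2, 3, 4], [2, 2, 2]⟩,
  ⟨Int.negSucc 506592338299, [2, 2, 2, 2, 5], [4]⟩,
  ⟨Int.negSucc 2075726640754, [2, 2, 2, 2, 5], [2, 3]⟩,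
  ⟨Int.ofNat 3087177029851, [2, 2, 2, 2, 5], [2, 2, 2]⟩,
  ⟨Int.negSucc 2144228828857, [2, 2, 2, 2, 3, 3], [4]⟩,
  ⟨Int.ofNat 12958281214551, [2, 2, 2, 2, 3, 3], [2, 3]⟩,
  ⟨Int.negSucc 11074067002444, [2, 2, 2, 2, 3, 3], [2, 2, 2]⟩,
  ⟨Int.negSucc 4081461596464, [2, 2, 2, 2, 2, 4], [4]⟩,
  ⟨Int.ofNat 10541430188420, [2, 2, 2, 2, 2, 4], [2, 3]⟩,
  ⟨Int.negSucc 6955047022047, [2, 2, 2, 2, 2, 4], [2, 2, 2]⟩,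
  ⟨Int.ofNat 368593128917, [2, 2, 2, 2, 2, 2, 3], [4]⟩,
  ⟨Int.negSucc 4143908927998, [2, 2, 2, 2, 2, 2, 3], [2, 3]⟩,
  ⟨Int.ofNat 4048462573821, [2, 2, 2, 2, 2, 2, 3], [2, 2, 2]⟩,
  ⟨Int.ofNat 597124253099, [2, 2, 2, 2, 2, 2, 2, 2], [4]⟩,
  ⟨Int.negSucc 825726686688, [2, 2, 2, 2, 2, 2, 2, 2], [2, 3]⟩,
  ⟨Int.ofNat 327037643399, [2, 2, 2, 2, 2, 2, 2, 2], [2, 2, 2]⟩,
  ⟨Int.negSucc 5104246947637, [4, 5], [5]⟩,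
  ⟨Int.ofNat 12526142199856, [4, 5], [3, 3]⟩,
  ⟨Int.ofNat 18937049200236, [4, 5], [2, 4]⟩,
  ⟨Int.negSucc 36612155218349, [4, 5], [2, 2, 3]⟩,
  ⟨Int.ofNat 13312724553911, [4, 5], [2, 2, 2, 2]⟩,
  ⟨Int.negSucc 792301104499, [3, 6], [5]⟩,
  ⟨Int.negSucc 3389187845993, [3, 6], [3, 3]⟩,
  ⟨Int.ofNat 2141727860056, [3, 6], [2, 4]⟩,
  ⟨Int.ofNat 739095916006, [3, 6], [2, 2, 3]⟩,
  ⟨Int.ofNat 441128122779, [3, 6], [2, 2, 2, 2]⟩,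
  ⟨Int.ofNat 8369663041503, [3, 3, 4], [5]⟩,
  ⟨Int.negSucc 16510559364906, [3, 3, 4], [3, 3]⟩,
  ⟨Int.negSucc 34168610451613, [3, 3, 4], [2, 4]⟩,
  ⟨Int.ofNat 73947844460616, [3, 3, 4], [2, 2, 3]⟩,
  ⟨Int.negSucc 32067313639836, [3, 3, 4], [2, 2, 2, 2]⟩,
  ⟨Int.ofNat 8094347276172, [2, 4, 4], [5]⟩,
  ⟨Int.negSucc 9724544635786, [2, 4, 4], [3, 3]⟩]

def d6b_F13 : List Term := [
  ⟨Int.negSucc 20485239118419, [2, 4, 4], [2, 4]⟩,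
  ⟨Int.ofNat 30593517796981, [2, 4, 4], [2, 2, 3]⟩,
  ⟨Int.negSucc 10012946591621, [2, 4, 4], [2, 2, 2, 2]⟩,
  ⟨Int.negSucc 16748057671419, [2, 3, 5], [5]⟩,
  ⟨Int.ofNat 19532700255738, [2, 3, 5], [3, 3]⟩,
  ⟨Int.ofNat 42856103071473, [2, 3, 5], [2, 4]⟩,
  ⟨Int.negSucc 52517385166365, [2, 3, 5], [2, 2, 3]⟩,
  ⟨Int.ofNat 8293041222064, [2, 3, 5], [2, 2, 2, 2]⟩,
  ⟨Int.ofNat 22383743432196, [2, 3, 3, 3], [5]⟩,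
  ⟨Int.negSucc 19477280467783, [2, 3, 3, 3], [3, 3]⟩,
  ⟨Int.negSucc 39433367227145, [2, 3, 3, 3], [2, 4]⟩,
  ⟨Int.ofNat 46050036388462, [2, 3, 3, 3], [2, 2, 3]⟩,
  ⟨Int.negSucc 9411732049909, [2, 3, 3, 3], [2, 2, 2, 2]⟩,
  ⟨Int.ofNat 10064477949708, [2, 2, 6], [5]⟩,
  ⟨Int.negSucc 4524873382934, [2, 2, 6], [3, 3]⟩,
  ⟨Int.negSucc 16463765098621, [2, 2, 6], [2, 4]⟩,
  ⟨Int.ofNat 17528250405476, [2, 2, 6], [2, 2, 3]⟩,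
  ⟨Int.negSucc 5574027117785, [2, 2, 6], [2, 2, 2, 2]⟩,
  ⟨Int.negSucc 26711757146873, [2, 2, 3, 4], [5]⟩,
  ⟨Int.ofNat 21086803748125, [2, 2, 3, 4], [3, 3]⟩,
  ⟨Int.ofNat 53315365431994, [2, 2, 3, 4], [2, 4]⟩,
  ⟨Int.negSucc 97046390213504, [2, 2, 3, 4], [2, 2, 3]⟩,
  ⟨Int.ofNat 44438105930661, [2, 2, 3, 4], [2, 2, 2, 2]⟩,
  ⟨Int.negSucc 4381992497426, [2, 2, 2, 5], [5]⟩,
  ⟨Int.ofNat 4371115453878, [2, 2, 2, 5], [3, 3]⟩,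
  ⟨Int.ofNat 6616162190563, [2, 2, 2, 5], [2, 4]⟩,
  ⟨Int.negSucc 22226229503590, [2, 2, 2, 5], [2, 2, 3]⟩,
  ⟨Int.ofNat 13853648665992, [2, 2, 2, 5], [2, 2, 2, 2]⟩,
  ⟨Int.negSucc 11277074175175, [2, 2, 2, 3, 3], [5]⟩,
  ⟨Int.ofNat 20721747780381, [2, 2, 2, 3, 3], [3, 3]⟩,
  ⟨Int.ofNat 33821825877935, [2, 2, 2, 3, 3], [2, 4]⟩,
  ⟨Int.negSucc 37790598455598, [2, 2, 2, 3, 3], [2, 2, 3]⟩,
  ⟨Int.negSucc 27731127457, [2, 2, 2, 3, 3], [2, 2, 2, 2]⟩,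
  ⟨Int.negSucc 1364219054663, [2, 2, 2, 2, 4], [5]⟩,
  ⟨Int.ofNat 4157572417774, [2, 2, 2, 2, 4], [3, 3]⟩,
  ⟨Int.ofNat 727210633529, [2, 2, 2, 2, 4], [2, 4]⟩,
  ⟨Int.ofNat 9995821952945, [2, 2, 2, 2, 4], [2, 2, 3]⟩,
  ⟨Int.negSucc 10599070798805, [2, 2, 2, 2, 4], [2, 2, 2, 2]⟩,
  ⟨Int.ofNat 23664483723008, [2, 2, 2, 2, 2, 3], [5]⟩,
  ⟨Int.negSucc 30694103028806, [2, 2, 2, 2, 2, 3], [3, 3]⟩,
  ⟨Int.negSucc 55319109724598, [2, 2, 2, 2, 2, 3], [2, 4]⟩,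
  ⟨Int.ofNat 75108295619555, [2, 2, 2, 2, 2, 3], [2, 2, 3]⟩,
  ⟨Int.negSucc 16445530250849, [2, 2, 2, 2, 2, 3], [2, 2, 2, 2]⟩,
  ⟨Int.negSucc 10303914083155, [2, 2, 2, 2, 2, 2, 2], [5]⟩,
  ⟨Int.ofNat 11640236754902, [2, 2, 2, 2, 2, 2, 2], [3, 3]⟩,
  ⟨Int.ofNat 22156156198655, [2, 2, 2, 2, 2, 2, 2], [2, 4]⟩,
  ⟨Int.negSucc 32535684194124, [2, 2, 2, 2, 2, 2, 2], [2, 2, 3]⟩,
  ⟨Int.ofNat 9590596425299, [2, 2, 2, 2, 2, 2, 2], [2, 2, 2, 2]⟩,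
  ⟨Int.ofNat 11074280726652, [4, 4], [6]⟩,
  ⟨Int.ofNat 3283711105543, [4, 4], [3, 4]⟩,
  ⟨Int.ofNat 3421804398426, [4, 4], [2, 5]⟩,
  ⟨Int.negSucc 30747991381258, [4, 4], [2, 3, 3]⟩,
  ⟨Int.negSucc 31116488851452, [4, 4], [2, 2, 4]⟩,
  ⟨Int.ofNat 69889321172031, [4, 4], [2, 2, 2, 3]⟩,
  ⟨Int.negSucc 23433543176022, [4, 4], [2, 2, 2, 2, 2]⟩,
  ⟨Int.negSucc 35342072238087, [3, 5], [6]⟩,
  ⟨Int.ofNat 28387358779432, [3, 5], [3, 4]⟩,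
  ⟨Int.ofNat 32125969828380, [3, 5], [2, 5]⟩,
  ⟨Int.negSucc 9345453310149, [3, 5], [2, 3, 3]⟩,
  ⟨Int.negSucc 14106746391584, [3, 5], [2, 2, 4]⟩,
  ⟨Int.negSucc 2523584636310, [3, 5], [2, 2, 2, 3]⟩,
  ⟨Int.negSucc 1850647997611, [3, 5], [2, 2, 2, 2, 2]⟩,
  ⟨Int.ofNat 32884037341474, [3, 3, 3], [6]⟩,
  ⟨Int.negSucc 33286189074305, [3, 3, 3], [3, 4]⟩,
  ⟨Int.negSucc 19753990362638, [3, 3, 3], [2, 5]⟩,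
  ⟨Int.ofNat 34593820246174, [3, 3, 3], [2, 3, 3]⟩,
  ⟨Int.ofNat 7376280664522, [3, 3, 3], [2, 2, 4]⟩,
  ⟨Int.negSucc 27454909107589, [3, 3, 3], [2, 2, 2, 3]⟩,
  ⟨Int.ofNat 11667766155006, [3, 3, 3], [2, 2, 2, 2, 2]⟩,
  ⟨Int.negSucc 17116452591072, [2, 6], [6]⟩,
  ⟨Int.ofNat 8832548425482, [2, 6], [3, 4]⟩,
  ⟨Int.ofNat 17408119089959, [2, 6], [2, 5]⟩,
  ⟨Int.negSucc 17949129552064, [2, 6], [2, 3, 3]⟩,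
  ⟨Int.negSucc 17031269804701, [2, 6], [2, 2, 4]⟩,
  ⟨Int.ofNat 35923640533701, [2, 6], [2, 2, 2, 3]⟩,
  ⟨Int.negSucc 14061512103744, [2, 6], [2, 2, 2, 2, 2]⟩,
  ⟨Int.ofNat 100011417343040, [2, 3, 4], [6]⟩,
  ⟨Int.negSucc 143807324501536, [2, 3, 4], [3, 4]⟩,
  ⟨Int.negSucc 238253229032340, [2, 3, 4], [2, 5]⟩,
  ⟨Int.ofNat 278429656508625, [2, 3, 4], [2, 3, 3]⟩,
  ⟨Int.ofNat 359080999883801, [2, 3, 4], [2, 2, 4]⟩,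
  ⟨Int.negSucc 510688429664887, [2, 3, 4], [2, 2, 2, 3]⟩,
  ⟨Int.ofNat 156908605159078, [2, 3, 4], [2, 2, 2, 2, 2]⟩,
  ⟨Int.negSucc 63264699995525, [2, 2, 5], [6]⟩,
  ⟨Int.ofNat 212551998361304, [2, 2, 5], [3, 4]⟩,
  ⟨Int.ofNat 161137429499007, [2, 2, 5], [2, 5]⟩,
  ⟨Int.negSucc 336643515890157, [2, 2, 5], [2, 3, 3]⟩,
  ⟨Int.negSucc 293693447481068, [2, 2, 5], [2, 2, 4]⟩,
  ⟨Int.ofNat 415185511885526, [2, 2, 5], [2, 2, 2, 3]⟩,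
  ⟨Int.negSucc 91199517012312, [2, 2, 5], [2, 2, 2, 2, 2]⟩,
  ⟨Int.negSucc 72260919295820, [2, 2, 3, 3], [6]⟩,
  ⟨Int.ofNat 52809504427211, [2, 2, 3, 3], [3, 4]⟩,
  ⟨Int.ofNat 130524372188007, [2, 2, 3, 3], [2, 5]⟩,
  ⟨Int.negSucc 117484411499921, [2, 2, 3, 3], [2, 3, 3]⟩,
  ⟨Int.negSucc 166135414456726, [2, 2, 3, 3], [2, 2, 4]⟩,
  ⟨Int.ofNat 267965354844821, [2, 2, 3, 3], [2, 2, 2, 3]⟩,
  ⟨Int.negSucc 101877834016661, [2, 2, 3, 3], [2, 2, 2, 2, 2]⟩,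
  ⟨Int.ofNat 67500020143888, [2, 2, 2, 4], [6]⟩,
  ⟨Int.negSucc 232979496087393, [2, 2, 2, 4], [3, 4]⟩,
  ⟨Int.negSucc 162136175461282, [2, 2, 2, 4], [2, 5]⟩]

def d6b_F14 : List Term := [
  ⟨Int.ofNat 305663560670537, [2, 2, 2, 4], [2, 3, 3]⟩,
  ⟨Int.ofNat 260205950689909, [2, 2, 2, 4], [2, 2, 4]⟩,
  ⟨Int.negSucc 291395883829074, [2, 2, 2, 4], [2, 2, 2, 3]⟩,
  ⟨Int.ofNat 40309480597986, [2, 2, 2, 4], [2, 2, 2, 2, 2]⟩,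
  ⟨Int.negSucc 57710683722236, [2, 2, 2, 2, 3], [6]⟩,
  ⟨Int.ofNat 247396348013569, [2, 2, 2, 2, 3], [3, 4]⟩,
  ⟨Int.ofNat 166868171628060, [2, 2, 2, 2, 3], [2, 5]⟩,
  ⟨Int.negSucc 332018418731424, [2, 2, 2, 2, 3], [2, 3, 3]⟩,
  ⟨Int.negSucc 283054392335605, [2, 2, 2, 2, 3], [2, 2, 4]⟩,
  ⟨Int.ofNat 304882161276791, [2, 2, 2, 2, 3], [2, 2, 2, 3]⟩,
  ⟨Int.negSucc 31641390309790, [2, 2, 2, 2, 3], [2, 2, 2, 2, 2]⟩,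
  ⟨Int.ofNat 29993433251667, [2, 2, 2, 2, 2, 2], [6]⟩,
  ⟨Int.negSucc 105138723393515, [2, 2, 2, 2, 2, 2], [3, 4]⟩,
  ⟨Int.negSucc 81723788072302, [2, 2, 2, 2, 2, 2], [2, 5]⟩,
  ⟨Int.ofNat 156437777418886, [2, 2, 2, 2, 2, 2], [2, 3, 3]⟩,
  ⟨Int.ofNat 138147089538066, [2, 2, 2, 2, 2, 2], [2, 2, 4]⟩,
  ⟨Int.negSucc 175222826077529, [2, 2, 2, 2, 2, 2], [2, 2, 2, 3]⟩,
  ⟨Int.ofNat 33012684542251, [2, 2, 2, 2, 2, 2], [2, 2, 2, 2, 2]⟩,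
  ⟨Int.negSucc 54745047478404, [6], [7]⟩,
  ⟨Int.ofNat 58491338504039, [6], [4, 4]⟩,
  ⟨Int.ofNat 149551494640709, [6], [3, 5]⟩,
  ⟨Int.negSucc 89212621813596, [6], [3, 3, 3]⟩,
  ⟨Int.ofNat 181351787504936, [6], [2, 6]⟩,
  ⟨Int.negSucc 514231629266481, [6], [2, 3, 4]⟩,
  ⟨Int.negSucc 307151689902884, [6], [2, 2, 5]⟩,
  ⟨Int.ofNat 571422338000718, [6], [2, 2, 3, 3]⟩,
  ⟨Int.ofNat 402276033150928, [6], [2, 2, 2, 4]⟩,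
  ⟨Int.negSucc 486425018782880, [6], [2, 2, 2, 2, 3]⟩,
  ⟨Int.ofNat 90585981444459, [6], [2, 2, 2, 2, 2, 2]⟩,
  ⟨Int.ofNat 93115642878039, [3, 4], [7]⟩,
  ⟨Int.negSucc 90531288518522, [3, 4], [4, 4]⟩,
  ⟨Int.negSucc 256337018609833, [3, 4], [3, 5]⟩,
  ⟨Int.ofNat 155887984518438, [3, 4], [3, 3, 3]⟩,
  ⟨Int.negSucc 265508902334780, [3, 4], [2, 6]⟩,
  ⟨Int.ofNat 763442216855586, [3, 4], [2, 3, 4]⟩,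
  ⟨Int.ofNat 418118074088632, [3, 4], [2, 2, 5]⟩,
  ⟨Int.negSucc 831218241895755, [3, 4], [2, 2, 3, 3]⟩,
  ⟨Int.negSucc 515160501461762, [3, 4], [2, 2, 2, 4]⟩,
  ⟨Int.ofNat 628032162167509, [3, 4], [2, 2, 2, 2, 3]⟩,
  ⟨Int.negSucc 105801412504073, [3, 4], [2, 2, 2, 2, 2, 2]⟩,
  ⟨Int.ofNat 12921282592078, [2, 5], [7]⟩,
  ⟨Int.negSucc 44194640828692, [2, 5], [4, 4]⟩,
  ⟨Int.negSucc 62259078359525, [2, 5], [3, 5]⟩,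
  ⟨Int.ofNat 44335923801120, [2, 5], [3, 3, 3]⟩,
  ⟨Int.negSucc 306456752431920, [2, 5], [2, 6]⟩,
  ⟨Int.ofNat 799181896232133, [2, 5], [2, 3, 4]⟩,
  ⟨Int.ofNat 629141756474942, [2, 5], [2, 2, 5]⟩,
  ⟨Int.negSucc 1056312501360919, [2, 5], [2, 2, 3, 3]⟩,
  ⟨Int.negSucc 958657998218197, [2, 5], [2, 2, 2, 4]⟩,
  ⟨Int.ofNat 1214136151845902, [2, 5], [2, 2, 2, 2, 3]⟩,
  ⟨Int.negSucc 269400035270053, [2, 5], [2, 2, 2, 2, 2, 2]⟩,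
  ⟨Int.negSucc 51359047675101, [2, 3, 3], [7]⟩,
  ⟨Int.ofNat 63832753702161, [2, 3, 3], [4, 4]⟩,
  ⟨Int.ofNat 193687792150244, [2, 3, 3], [3, 5]⟩,
  ⟨Int.negSucc 131442216765606, [2, 3, 3], [3, 3, 3]⟩,
  ⟨Int.ofNat 334296057367290, [2, 3, 3], [2, 6]⟩,
  ⟨Int.negSucc 897560264776475, [2, 3, 3], [2, 3, 4]⟩,
  ⟨Int.negSucc 630139651016557, [2, 3, 3], [2, 2, 5]⟩,
  ⟨Int.ofNat 1151570098144904, [2, 3, 3], [2, 2, 3, 3]⟩,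
  ⟨Int.ofNat 865262857381776, [2, 3, 3], [2, 2, 2, 4]⟩,
  ⟨Int.negSucc 1097171237670809, [2, 3, 3], [2, 2, 2, 2, 3]⟩,
  ⟨Int.ofNat 211220879325967, [2, 3, 3], [2, 2, 2, 2, 2, 2]⟩,
  ⟨Int.negSucc 24036316165111, [2, 2, 4], [7]⟩,
  ⟨Int.ofNat 88825121837955, [2, 2, 4], [4, 4]⟩,
  ⟨Int.ofNat 99669443521157, [2, 2, 4], [3, 5]⟩,
  ⟨Int.negSucc 82565337522927, [2, 2, 4], [3, 3, 3]⟩,
  ⟨Int.ofNat 398092637804843, [2, 2, 4], [2, 6]⟩,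
  ⟨Int.negSucc 1145476066652741, [2, 2, 4], [2, 3, 4]⟩,
  ⟨Int.negSucc 826970928511872, [2, 2, 4], [2, 2, 5]⟩,
  ⟨Int.ofNat 1447560766602948, [2, 2, 4], [2, 2, 3, 3]⟩,
  ⟨Int.ofNat 1284743329204162, [2, 2, 4], [2, 2, 2, 4]⟩,
  ⟨Int.negSucc 1603659921122012, [2, 2, 4], [2, 2, 2, 2, 3]⟩,
  ⟨Int.ofNat 350720337648454, [2, 2, 4], [2, 2, 2, 2, 2, 2]⟩,
  ⟨Int.ofNat 33072415505439, [2, 2, 2, 3], [7]⟩,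
  ⟨Int.negSucc 93462003184214, [2, 2, 2, 3], [4, 4]⟩,
  ⟨Int.negSucc 158678762433610, [2, 2, 2, 3], [3, 5]⟩,
  ⟨Int.ofNat 125370557119413, [2, 2, 2, 3], [3, 3, 3]⟩,
  ⟨Int.negSucc 478438166280399, [2, 2, 2, 3], [2, 6]⟩,
  ⟨Int.ofNat 1387941699521003, [2, 2, 2, 3], [2, 3, 4]⟩,
  ⟨Int.ofNat 1043447800545405, [2, 2, 2, 3], [2, 2, 5]⟩,
  ⟨Int.negSucc 1832259843646521, [2, 2, 2, 3], [2, 2, 3, 3]⟩,
  ⟨Int.negSucc 1615853647672685, [2, 2, 2, 3], [2, 2, 2, 4]⟩,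
  ⟨Int.ofNat 2037891213655889, [2, 2, 2, 3], [2, 2, 2, 2, 3]⟩,
  ⟨Int.negSucc 440240282472199, [2, 2, 2, 3], [2, 2, 2, 2, 2, 2]⟩,
  ⟨Int.negSucc 12672847807324, [2, 2, 2, 2, 2], [7]⟩,
  ⟨Int.ofNat 28193025241429, [2, 2, 2, 2, 2], [4, 4]⟩,
  ⟨Int.ofNat 49432797967513, [2, 2, 2, 2, 2], [3, 5]⟩,
  ⟨Int.negSucc 41898326922440, [2, 2, 2, 2, 2], [3, 3, 3]⟩,
  ⟨Int.ofNat 136405495290081, [2, 2, 2, 2, 2], [2, 6]⟩,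
  ⟨Int.negSucc 414683226476408, [2, 2, 2, 2, 2], [2, 3, 4]⟩,
  ⟨Int.negSucc 308198522145911, [2, 2, 2, 2, 2], [2, 2, 5]⟩,
  ⟨Int.ofNat 561705036017425, [2, 2, 2, 2, 2], [2, 2, 3, 3]⟩,
  ⟨Int.ofNat 496724706351448, [2, 2, 2, 2, 2], [2, 2, 2, 4]⟩,
  ⟨Int.negSucc 645499281812233, [2, 2, 2, 2, 2], [2, 2, 2, 2, 3]⟩,
  ⟨Int.ofNat 145640655491642, [2, 2, 2, 2, 2], [2, 2, 2, 2, 2, 2]⟩,
  ⟨Int.ofNat 5104246947638, [5], [4, 5]⟩,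
  ⟨Int.ofNat 43900298533624, [5], [3, 6]⟩,
  ⟨Int.negSucc 115773783354466, [5], [3, 3, 4]⟩,
  ⟨Int.ofNat 19717719447474, [5], [2, 7]⟩,
  ⟨Int.negSucc 55136806409729, [5], [2, 4, 4]⟩]

def d6b_F15 : List Term := [
  ⟨Int.negSucc 60549345579101, [5], [2, 3, 5]⟩,
  ⟨Int.ofNat 119307582614583, [5], [2, 3, 3, 3]⟩,
  ⟨Int.negSucc 117770993094612, [5], [2, 2, 6]⟩,
  ⟨Int.ofNat 459495280779712, [5], [2, 2, 3, 4]⟩,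
  ⟨Int.ofNat 200837243318394, [5], [2, 2, 2, 5]⟩,
  ⟨Int.negSucc 509299712700244, [5], [2, 2, 2, 3, 3]⟩,
  ⟨Int.negSucc 356795464573418, [5], [2, 2, 2, 2, 4]⟩,
  ⟨Int.ofNat 468427265488087, [5], [2, 2, 2, 2, 2, 3]⟩,
  ⟨Int.negSucc 98204492609262, [5], [2, 2, 2, 2, 2, 2, 2]⟩,
  ⟨Int.negSucc 6839771792756, [3, 3], [4, 5]⟩,
  ⟨Int.negSucc 16730888731974, [3, 3], [3, 6]⟩,
  ⟨Int.ofNat 64257281876540, [3, 3], [3, 3, 4]⟩,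
  ⟨Int.negSucc 4423657158149, [3, 3], [2, 7]⟩,
  ⟨Int.ofNat 14135486588513, [3, 3], [2, 4, 4]⟩,
  ⟨Int.negSucc 56776361106558, [3, 3], [2, 3, 5]⟩,
  ⟨Int.negSucc 43132094034158, [3, 3], [2, 3, 3, 3]⟩,
  ⟨Int.ofNat 45418674370037, [3, 3], [2, 2, 6]⟩,
  ⟨Int.negSucc 168111604632211, [3, 3], [2, 2, 3, 4]⟩,
  ⟨Int.negSucc 59223720352168, [3, 3], [2, 2, 2, 5]⟩,
  ⟨Int.ofNat 221422279050025, [3, 3], [2, 2, 2, 3, 3]⟩,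
  ⟨Int.ofNat 170207707420717, [3, 3], [2, 2, 2, 2, 4]⟩,
  ⟨Int.negSucc 217492641278413, [3, 3], [2, 2, 2, 2, 2, 3]⟩,
  ⟨Int.ofNat 39089829880298, [3, 3], [2, 2, 2, 2, 2, 2, 2]⟩,
  ⟨Int.negSucc 28614114509874, [2, 4], [4, 5]⟩,
  ⟨Int.negSucc 20991562699078, [2, 4], [3, 6]⟩,
  ⟨Int.ofNat 97908993578633, [2, 4], [3, 3, 4]⟩,
  ⟨Int.negSucc 8827822175566, [2, 4], [2, 7]⟩,
  ⟨Int.ofNat 151090739308405, [2, 4], [2, 4, 4]⟩,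
  ⟨Int.ofNat 28180299777474, [2, 4], [2, 3, 5]⟩,
  ⟨Int.negSucc 81233384991071, [2, 4], [2, 3, 3, 3]⟩,
  ⟨Int.ofNat 140031119203341, [2, 4], [2, 2, 6]⟩,
  ⟨Int.negSucc 712240711690733, [2, 4], [2, 2, 3, 4]⟩,
  ⟨Int.negSucc 240050280033296, [2, 4], [2, 2, 2, 5]⟩,
  ⟨Int.ofNat 631909729180870, [2, 4], [2, 2, 2, 3, 3]⟩,
  ⟨Int.ofNat 475185184937429, [2, 4], [2, 2, 2, 2, 4]⟩,
  ⟨Int.negSucc 537141088385018, [2, 4], [2, 2, 2, 2, 2, 3]⟩,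
  ⟨Int.ofNat 95885933762869, [2, 4], [2, 2, 2, 2, 2, 2, 2]⟩,
  ⟨Int.ofNat 47335606737881, [2, 2, 3], [4, 5]⟩,
  ⟨Int.ofNat 5086970278927, [2, 2, 3], [3, 6]⟩,
  ⟨Int.negSucc 138197719221319, [2, 2, 3], [3, 3, 4]⟩,
  ⟨Int.ofNat 16694747776724, [2, 2, 3], [2, 7]⟩,
  ⟨Int.negSucc 193136814209520, [2, 2, 3], [2, 4, 4]⟩,
  ⟨Int.ofNat 48329027391195, [2, 2, 3], [2, 3, 5]⟩,
  ⟨Int.ofNat 109272409085007, [2, 2, 3], [2, 3, 3, 3]⟩,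
  ⟨Int.negSucc 140693469167619, [2, 2, 3], [2, 2, 6]⟩,
  ⟨Int.ofNat 882095793090714, [2, 2, 3], [2, 2, 3, 4]⟩,
  ⟨Int.ofNat 252627200204735, [2, 2, 3], [2, 2, 2, 5]⟩,
  ⟨Int.negSucc 813166127500866, [2, 2, 3], [2, 2, 2, 3, 3]⟩,
  ⟨Int.negSucc 622115222953087, [2, 2, 3], [2, 2, 2, 2, 4]⟩,
  ⟨Int.ofNat 692029339830221, [2, 2, 3], [2, 2, 2, 2, 2, 3]⟩,
  ⟨Int.negSucc 112468210496790, [2, 2, 3], [2, 2, 2, 2, 2, 2, 2]⟩,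
  ⟨Int.negSucc 24147696441271, [2, 2, 2, 2], [4, 5]⟩,
  ⟨Int.negSucc 4720531925745, [2, 2, 2, 2], [3, 6]⟩,
  ⟨Int.ofNat 61703140730092, [2, 2, 2, 2], [3, 3, 4]⟩,
  ⟨Int.negSucc 9980909028239, [2, 2, 2, 2], [2, 7]⟩,
  ⟨Int.ofNat 80459134178875, [2, 2, 2, 2], [2, 4, 4]⟩,
  ⟨Int.ofNat 18977824196170, [2, 2, 2, 2], [2, 3, 5]⟩,
  ⟨Int.negSucc 66899798230317, [2, 2, 2, 2], [2, 3, 3, 3]⟩,
  ⟨Int.ofNat 54893348409564, [2, 2, 2, 2], [2, 2, 6]⟩,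
  ⟨Int.negSucc 371719855146077, [2, 2, 2, 2], [2, 2, 3, 4]⟩,
  ⟨Int.negSucc 109853071467866, [2, 2, 2, 2], [2, 2, 2, 5]⟩,
  ⟨Int.ofNat 355613175598205, [2, 2, 2, 2], [2, 2, 2, 3, 3]⟩,
  ⟨Int.ofNat 246693342331923, [2, 2, 2, 2], [2, 2, 2, 2, 4]⟩,
  ⟨Int.negSucc 287809882645422, [2, 2, 2, 2], [2, 2, 2, 2, 2, 3]⟩,
  ⟨Int.ofNat 47350827786284, [2, 2, 2, 2], [2, 2, 2, 2, 2, 2, 2]⟩,
  ⟨Int.ofNat 5104246947638, [4], [5, 5]⟩,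
  ⟨Int.ofNat 6758937220766, [4], [4, 6]⟩,
  ⟨Int.ofNat 5553929832202, [4], [3, 7]⟩,
  ⟨Int.negSucc 22468115465944, [4], [3, 4, 4]⟩,
  ⟨Int.negSucc 21067193616312, [4], [3, 3, 5]⟩,
  ⟨Int.ofNat 7819077523762, [4], [3, 3, 3, 3]⟩,
  ⟨Int.negSucc 8762217343944, [4], [2, 4, 5]⟩,
  ⟨Int.ofNat 4976096541182, [4], [2, 3, 6]⟩,
  ⟨Int.ofNat 51151873073219, [4], [2, 3, 3, 4]⟩,
  ⟨Int.negSucc 17057232849271, [4], [2, 2, 7]⟩,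
  ⟨Int.ofNat 37029193400083, [4], [2, 2, 4, 4]⟩,
  ⟨Int.ofNat 60401687398979, [4], [2, 2, 3, 5]⟩,
  ⟨Int.negSucc 65627511086629, [4], [2, 2, 3, 3, 3]⟩,
  ⟨Int.ofNat 24426106507845, [4], [2, 2, 2, 6]⟩,
  ⟨Int.negSucc 167883779082969, [4], [2, 2, 2, 3, 4]⟩,
  ⟨Int.negSucc 54047668322433, [4], [2, 2, 2, 2, 5]⟩,
  ⟨Int.ofNat 167844493026653, [4], [2, 2, 2, 2, 3, 3]⟩,
  ⟨Int.ofNat 80409905089431, [4], [2, 2, 2, 2, 2, 4]⟩,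
  ⟨Int.negSucc 108829762893051, [4], [2, 2, 2, 2, 2, 2, 3]⟩,
  ⟨Int.ofNat 18718695329544, [4], [2, 2, 2, 2, 2, 2, 2, 2]⟩,
  ⟨Int.negSucc 18758473813193, [2, 3], [5, 5]⟩,
  ⟨Int.negSucc 20533367271719, [2, 3], [4, 6]⟩,
  ⟨Int.ofNat 839298124762, [2, 3], [3, 7]⟩,
  ⟨Int.ofNat 59454709999531, [2, 3], [3, 4, 4]⟩,
  ⟨Int.ofNat 43907775543319, [2, 3], [3, 3, 5]⟩,
  ⟨Int.negSucc 15516436168972, [2, 3], [3, 3, 3, 3]⟩,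
  ⟨Int.ofNat 25962599792194, [2, 3], [2, 4, 5]⟩,
  ⟨Int.negSucc 33471202154478, [2, 3], [2, 3, 6]⟩,
  ⟨Int.negSucc 93784522660807, [2, 3], [2, 3, 3, 4]⟩,
  ⟨Int.ofNat 13466088686165, [2, 3], [2, 2, 7]⟩,
  ⟨Int.negSucc 57639393497902, [2, 3], [2, 2, 4, 4]⟩,
  ⟨Int.negSucc 89993857324160, [2, 3], [2, 2, 3, 5]⟩,
  ⟨Int.ofNat 87696103917362, [2, 3], [2, 2, 3, 3, 3]⟩,
  ⟨Int.negSucc 22189068362602, [2, 3], [2, 2, 2, 6]⟩,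
  ⟨Int.ofNat 224716967186006, [2, 3], [2, 2, 2, 3, 4]⟩]

def d6b_F16 : List Term := [
  ⟨Int.ofNat 87830832181772, [2, 3], [2, 2, 2, 2, 5]⟩,
  ⟨Int.negSucc 206819491359403, [2, 3], [2, 2, 2, 2, 3, 3]⟩,
  ⟨Int.negSucc 116715808230519, [2, 3], [2, 2, 2, 2, 2, 4]⟩,
  ⟨Int.ofNat 138389474922222, [2, 3], [2, 2, 2, 2, 2, 2, 3]⟩,
  ⟨Int.negSucc 23119636372076, [2, 3], [2, 2, 2, 2, 2, 2, 2, 2]⟩,
  ⟨Int.ofNat 8658860872732, [2, 2, 2], [5, 5]⟩,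
  ⟨Int.ofNat 10043026270150, [2, 2, 2], [4, 6]⟩,
  ⟨Int.ofNat 73494264917, [2, 2, 2], [3, 7]⟩,
  ⟨Int.negSucc 35481995032628, [2, 2, 2], [3, 4, 4]⟩,
  ⟨Int.negSucc 30722852422984, [2, 2, 2], [3, 3, 5]⟩,
  ⟨Int.ofNat 9489136114326, [2, 2, 2], [3, 3, 3, 3]⟩,
  ⟨Int.negSucc 19590960900505, [2, 2, 2], [2, 4, 5]⟩,
  ⟨Int.ofNat 1657296762785, [2, 2, 2], [2, 3, 6]⟩,
  ⟨Int.ofNat 78987168222068, [2, 2, 2], [2, 3, 3, 4]⟩,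
  ⟨Int.negSucc 4561213353033, [2, 2, 2], [2, 2, 7]⟩,
  ⟨Int.ofNat 30646183864408, [2, 2, 2], [2, 2, 4, 4]⟩,
  ⟨Int.ofNat 78640965279975, [2, 2, 2], [2, 2, 3, 5]⟩,
  ⟨Int.negSucc 71937555633883, [2, 2, 2], [2, 2, 3, 3, 3]⟩,
  ⟨Int.ofNat 16442330530731, [2, 2, 2], [2, 2, 2, 6]⟩,
  ⟨Int.negSucc 153060598545826, [2, 2, 2], [2, 2, 2, 3, 4]⟩,
  ⟨Int.negSucc 57035842113201, [2, 2, 2], [2, 2, 2, 2, 5]⟩,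
  ⟨Int.ofNat 144201609237823, [2, 2, 2], [2, 2, 2, 2, 3, 3]⟩,
  ⟨Int.ofNat 70467604288642, [2, 2, 2], [2, 2, 2, 2, 2, 4]⟩,
  ⟨Int.negSucc 86552890140765, [2, 2, 2], [2, 2, 2, 2, 2, 2, 3]⟩,
  ⟨Int.ofNat 13385816459809, [2, 2, 2], [2, 2, 2, 2, 2, 2, 2, 2]⟩,
  ⟨Int.ofNat 17297780388391, [3], [5, 6]⟩,
  ⟨Int.ofNat 2927129083166, [3], [4, 7]⟩,
  ⟨Int.negSucc 1427834955388, [3], [4, 4, 4]⟩,
  ⟨Int.negSucc 15454896670308, [3], [3, 4, 5]⟩,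
  ⟨Int.negSucc 7467781566314, [3], [3, 3, 6]⟩,
  ⟨Int.ofNat 15161411249395, [3], [3, 3, 3, 4]⟩,
  ⟨Int.negSucc 11940309782411, [3], [2, 5, 5]⟩,
  ⟨Int.negSucc 3876046660101, [3], [2, 4, 6]⟩,
  ⟨Int.ofNat 1572487277811, [3], [2, 3, 7]⟩,
  ⟨Int.ofNat 10347050406651, [3], [2, 3, 4, 4]⟩,
  ⟨Int.ofNat 18863218554012, [3], [2, 3, 3, 5]⟩,
  ⟨Int.negSucc 15588672984544, [3], [2, 3, 3, 3, 3]⟩,
  ⟨Int.ofNat 16277889393737, [3], [2, 2, 4, 5]⟩,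
  ⟨Int.ofNat 1997392604230, [3], [2, 2, 3, 6]⟩,
  ⟨Int.negSucc 40341533721013, [3], [2, 2, 3, 3, 4]⟩,
  ⟨Int.negSucc 280956672155, [3], [2, 2, 2, 7]⟩,
  ⟨Int.negSucc 13581788533327, [3], [2, 2, 2, 4, 4]⟩,
  ⟨Int.negSucc 13879549489712, [3], [2, 2, 2, 3, 5]⟩,
  ⟨Int.ofNat 25306717312695, [3], [2, 2, 2, 3, 3, 3]⟩,
  ⟨Int.ofNat 881934377869, [3], [2, 2, 2, 2, 6]⟩,
  ⟨Int.ofNat 39939645675162, [3], [2, 2, 2, 2, 3, 4]⟩,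
  ⟨Int.ofNat 3272449183111, [3], [2, 2, 2, 2, 2, 5]⟩,
  ⟨Int.negSucc 19159639182574, [3], [2, 2, 2, 2, 2, 3, 3]⟩,
  ⟨Int.negSucc 14372836117575, [3], [2, 2, 2, 2, 2, 2, 4]⟩,
  ⟨Int.ofNat 10168495430212, [3], [2, 2, 2, 2, 2, 2, 2, 3]⟩,
  ⟨Int.negSucc 1729550321085, [3], [2, 2, 2, 2, 2, 2, 2, 2, 2]⟩,
  ⟨Int.negSucc 11723741031935, [2, 2], [5, 6]⟩,
  ⟨Int.ofNat 968617917596, [2, 2], [4, 7]⟩,
  ⟨Int.ofNat 742931467721, [2, 2], [4, 4, 4]⟩,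
  ⟨Int.ofNat 13007127176894, [2, 2], [3, 4, 5]⟩,
  ⟨Int.ofNat 6102184626847, [2, 2], [3, 3, 6]⟩,
  ⟨Int.negSucc 14911892368740, [2, 2], [3, 3, 3, 4]⟩,
  ⟨Int.ofNat 7356458029709, [2, 2], [2, 5, 5]⟩,
  ⟨Int.ofNat 1335864435933, [2, 2], [2, 4, 6]⟩,
  ⟨Int.negSucc 1022745747521, [2, 2], [2, 3, 7]⟩,
  ⟨Int.negSucc 8019283940312, [2, 2], [2, 3, 4, 4]⟩,
  ⟨Int.negSucc 21163997186030, [2, 2], [2, 3, 3, 5]⟩,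
  ⟨Int.ofNat 17318912362454, [2, 2], [2, 3, 3, 3, 3]⟩,
  ⟨Int.negSucc 11482265548881, [2, 2], [2, 2, 4, 5]⟩,
  ⟨Int.negSucc 10128462572871, [2, 2], [2, 2, 3, 6]⟩,
  ⟨Int.ofNat 48411263765803, [2, 2], [2, 2, 3, 3, 4]⟩,
  ⟨Int.negSucc 1365074081361, [2, 2], [2, 2, 2, 7]⟩,
  ⟨Int.ofNat 10548975022991, [2, 2], [2, 2, 2, 4, 4]⟩,
  ⟨Int.ofNat 34148815390618, [2, 2], [2, 2, 2, 3, 5]⟩,
  ⟨Int.negSucc 42796668967714, [2, 2], [2, 2, 2, 3, 3, 3]⟩,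
  ⟨Int.ofNat 6429920036627, [2, 2], [2, 2, 2, 2, 6]⟩,
  ⟨Int.negSucc 61628977430334, [2, 2], [2, 2, 2, 2, 3, 4]⟩,
  ⟨Int.negSucc 13464920032730, [2, 2], [2, 2, 2, 2, 2, 5]⟩,
  ⟨Int.ofNat 45812299131910, [2, 2], [2, 2, 2, 2, 2, 3, 3]⟩,
  ⟨Int.ofNat 20568984602273, [2, 2], [2, 2, 2, 2, 2, 2, 4]⟩,
  ⟨Int.negSucc 20002817505872, [2, 2], [2, 2, 2, 2, 2, 2, 2, 3]⟩,
  ⟨Int.ofNat 2756178179504, [2, 2], [2, 2, 2, 2, 2, 2, 2, 2, 2]⟩,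
  ⟨Int.negSucc 323491562333, [2], [6, 6]⟩,
  ⟨Int.negSucc 5461611608, [2], [5, 7]⟩,
  ⟨Int.negSucc 283335825847, [2], [4, 4, 5]⟩,
  ⟨Int.negSucc 2977394450235, [2], [3, 5, 5]⟩,
  ⟨Int.ofNat 978895583771, [2], [3, 4, 6]⟩,
  ⟨Int.negSucc 185302733797, [2], [3, 3, 7]⟩,
  ⟨Int.ofNat 1782676722412, [2], [3, 3, 4, 4]⟩,
  ⟨Int.ofNat 1713615143158, [2], [3, 3, 3, 5]⟩,
  ⟨Int.negSucc 281440052752, [2], [3, 3, 3, 3, 3]⟩,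
  ⟨Int.negSucc 2301951958859, [2], [2, 5, 6]⟩,
  ⟨Int.ofNat 1264942582258, [2], [2, 4, 7]⟩,
  ⟨Int.ofNat 116129780938, [2], [2, 4, 4, 4]⟩,
  ⟨Int.ofNat 2454601661906, [2], [2, 3, 4, 5]⟩,
  ⟨Int.negSucc 1338646996597, [2], [2, 3, 3, 6]⟩,
  ⟨Int.negSucc 7643635846597, [2], [2, 3, 3, 3, 4]⟩,
  ⟨Int.ofNat 5085080622616, [2], [2, 2, 5, 5]⟩,
  ⟨Int.ofNat 1968511473473, [2], [2, 2, 4, 6]⟩,
  ⟨Int.ofNat 541136376161, [2], [2, 2, 3, 7]⟩,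
  ⟨Int.negSucc 7394414100118, [2], [2, 2, 3, 4, 4]⟩,
  ⟨Int.negSucc 7365646200690, [2], [2, 2, 3, 3, 5]⟩,
  ⟨Int.ofNat 6090178592408, [2], [2, 2, 3, 3, 3, 3]⟩,
  ⟨Int.negSucc 5708936751827, [2], [2, 2, 2, 4, 5]⟩,
  ⟨Int.negSucc 5944802415596, [2], [2, 2, 2, 3, 6]⟩]

def d6b_F17 : List Term := [
  ⟨Int.ofNat 26922764191250, [2], [2, 2, 2, 3, 3, 4]⟩,
  ⟨Int.negSucc 948470819114, [2], [2, 2, 2, 2, 7]⟩,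
  ⟨Int.ofNat 3952486104206, [2], [2, 2, 2, 2, 4, 4]⟩,
  ⟨Int.ofNat 16310018689727, [2], [2, 2, 2, 2, 3, 5]⟩,
  ⟨Int.negSucc 18531349126596, [2], [2, 2, 2, 2, 3, 3, 3]⟩,
  ⟨Int.ofNat 4070250621450, [2], [2, 2, 2, 2, 2, 6]⟩,
  ⟨Int.negSucc 24132027395545, [2], [2, 2, 2, 2, 2, 3, 4]⟩,
  ⟨Int.negSucc 7085120847121, [2], [2, 2, 2, 2, 2, 2, 5]⟩,
  ⟨Int.ofNat 17377644785497, [2], [2, 2, 2, 2, 2, 2, 3, 3]⟩,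
  ⟨Int.ofNat 6242648158865, [2], [2, 2, 2, 2, 2, 2, 2, 4]⟩,
  ⟨Int.negSucc 6094956738597, [2], [2, 2, 2, 2, 2, 2, 2, 2, 3]⟩,
  ⟨Int.ofNat 735999627305, [2], [2, 2, 2, 2, 2, 2, 2, 2, 2, 2]⟩,
  ⟨Int.ofNat 322381039354, [], [6, 7]⟩,
  ⟨Int.negSucc 180217796249, [], [4, 4, 6]⟩,
  ⟨Int.ofNat 1287931302704, [], [3, 5, 6]⟩,
  ⟨Int.negSucc 1471274004301, [], [3, 4, 7]⟩,
  ⟨Int.ofNat 472333132225, [], [3, 4, 4, 4]⟩,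
  ⟨Int.negSucc 1814201273323, [], [3, 3, 4, 5]⟩,
  ⟨Int.negSucc 490472461082, [], [3, 3, 3, 6]⟩,
  ⟨Int.ofNat 1500577958931, [], [3, 3, 3, 3, 4]⟩,
  ⟨Int.negSucc 407868524735, [], [2, 6, 6]⟩,
  ⟨Int.ofNat 1276104605006, [], [2, 5, 7]⟩,
  ⟨Int.negSucc 1828543607438, [], [2, 4, 4, 5]⟩,
  ⟨Int.negSucc 1054648904273, [], [2, 3, 5, 5]⟩,
  ⟨Int.ofNat 3367951723488, [], [2, 3, 4, 6]⟩,
  ⟨Int.ofNat 1233491733181, [], [2, 3, 3, 7]⟩,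
  ⟨Int.negSucc 1075439634224, [], [2, 3, 3, 4, 4]⟩,
  ⟨Int.ofNat 1282511371445, [], [2, 3, 3, 3, 5]⟩,
  ⟨Int.negSucc 748372930694, [], [2, 3, 3, 3, 3, 3]⟩,
  ⟨Int.negSucc 2380412845757, [], [2, 2, 5, 6]⟩,
  ⟨Int.ofNat 284191046170, [], [2, 2, 4, 7]⟩,
  ⟨Int.ofNat 2236839780520, [], [2, 2, 4, 4, 4]⟩,
  ⟨Int.ofNat 8005175500371, [], [2, 2, 3, 4, 5]⟩,
  ⟨Int.negSucc 1201744777046, [], [2, 2, 3, 3, 6]⟩,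
  ⟨Int.negSucc 1297162971178, [], [2, 2, 3, 3, 3, 4]⟩,
  ⟨Int.ofNat 2269850290910, [], [2, 2, 2, 5, 5]⟩,
  ⟨Int.negSucc 137150210523, [], [2, 2, 2, 4, 6]⟩,
  ⟨Int.negSucc 1569349265346, [], [2, 2, 2, 3, 7]⟩,
  ⟨Int.negSucc 6638589456415, [], [2, 2, 2, 3, 4, 4]⟩,
  ⟨Int.negSucc 6056706831102, [], [2, 2, 2, 3, 3, 5]⟩,
  ⟨Int.ofNat 437912077094, [], [2, 2, 2, 3, 3, 3, 3]⟩,
  ⟨Int.negSucc 7100595495610, [], [2, 2, 2, 2, 4, 5]⟩,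
  ⟨Int.ofNat 1347028921944, [], [2, 2, 2, 2, 3, 6]⟩,
  ⟨Int.ofNat 998587650095, [], [2, 2, 2, 2, 3, 3, 4]⟩,
  ⟨Int.ofNat 590026838441, [], [2, 2, 2, 2, 2, 7]⟩,
  ⟨Int.ofNat 3885431235076, [], [2, 2, 2, 2, 2, 4, 4]⟩,
  ⟨Int.ofNat 6356592466882, [], [2, 2, 2, 2, 2, 3, 5]⟩,
  ⟨Int.ofNat 4204047110685, [], [2, 2, 2, 2, 2, 3, 3, 3]⟩,
  ⟨Int.negSucc 699847931088, [], [2, 2, 2, 2, 2, 2, 6]⟩,
  ⟨Int.ofNat 978268664279, [], [2, 2, 2, 2, 2, 2, 3, 4]⟩,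
  ⟨Int.negSucc 1346590387314, [], [2, 2, 2, 2, 2, 2, 2, 5]⟩,
  ⟨Int.negSucc 5673604626018, [], [2, 2, 2, 2, 2, 2, 2, 3, 3]⟩,
  ⟨Int.negSucc 382327159128, [], [2, 2, 2, 2, 2, 2, 2, 2, 4]⟩,
  ⟨Int.ofNat 1844363318954, [], [2, 2, 2, 2, 2, 2, 2, 2, 2, 3]⟩,
  ⟨Int.negSucc 103647233795, [], [2, 2, 2, 2, 2, 2, 2, 2, 2, 2, 2]⟩]

def d6b_F : List Term := d6b_F0 ++ d6b_F1 ++ d6b_F2 ++ d6b_F3 ++ d6b_F4 ++ d6b_F5 ++ d6b_F6 ++ d6b_F7 ++ d6b_F8 ++ d6b_F9 ++ d6b_F10 ++ d6b_F11 ++ d6b_F12 ++ d6b_F13 ++ d6b_F14 ++ d6b_F15 ++ d6b_F16 ++ d6b_F17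

def d6b_sk : List (ℕ × ℕ) := [(25, 416), (52, 148), (20, 74), (32, 37), (20, 20), (2, 13), (2, 8), (4, 4), (2, 2), (1, 2), (1, 1), (2, 4), (1, 4), (4, 5), (2, 5), (1, 5), (1, 8), (5, 5), (4, 10), (8, 8), (5, 8), (4, 8), (2, 10), (1, 10), (10, 10), (8, 10), (5, 10), (1, 13), (10, 16), (1, 16), (8, 13), (5, 13), (4, 13), (13, 13), (10, 13), (5, 16), (4, 16), (2, 16), (8, 16), (5, 20), (1, 20), (16, 16), (13, 16), (4, 20), (2, 20), (13, 20), (10, 20), (8, 20), (16, 20), (2, 32), (2, 26), (10, 25), (4, 25), (2, 25), (1, 25), (8, 25), (5, 25), (20, 25), (16, 25), (13, 25), (1, 26), (25, 25), (16, 26), (8, 26), (5, 26), (4, 26), (13, 26), (10, 26), (26, 26), (25, 26), (20, 26), (1, 32), (1, 37), (16, 32), (8, 32), (5, 32), (4, 32), (13, 32), (10, 32), (26, 32), (25, 32), (20, 32), (32, 32),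 (13, 37), (5, 37), (4, 37), (2, 37), (10, 37), (8, 37), (25, 37), (20, 37), (16, 37), (26, 37), (50, 52), (16, 50), (26, 40), (8, 40), (2, 40), (1, 40), (37, 37), (5, 40), (4, 40), (16, 40), (13, 40), (10, 40), (25, 40), (20, 40), (4, 50), (40, 40), (37, 40), (32, 40), (2, 50), (1, 50), (10, 50), (8, 50), (5, 50), (13, 50), (5, 52), (40, 50), (26, 50), (25, 50), (20, 50), (37, 50), (32, 50), (2, 52), (1, 52), (50, 50), (4, 52), (25, 52), (13, 52), (10, 52), (8, 52), (20, 52), (16, 52), (37, 52), (32, 52), (26, 52), (40, 52), (8, 65), (26, 64), (8, 64), (2, 64), (1, 64), (52, 52), (5, 64), (4, 64), (16, 64), (13, 64), (10, 64), (25, 64), (20, 64), (64, 64), (40, 64), (37, 64), (32, 64), (52, 64), (50, 64), (4, 65), (2, 65), (1, 65), (5, 65), (52, 65), (26, 65), (16, 65), (13, 65), (10,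 65), (25, 65), (20, 65), (40, 65), (37, 65), (32, 65), (50, 65), (5, 74), (1, 74), (65, 65), (64, 65), (4, 74), (2, 74), (13, 74), (10, 74), (8, 74), (16, 74), (64, 104), (50, 89), (37, 80), (2, 80), (50, 74), (32, 74), (26, 74), (25, 74), (40, 74), (37, 74), (65, 74), (64, 74), (52, 74), (1, 80), (74, 74), (16, 80), (8, 80), (5, 80), (4, 80), (13, 80), (10, 80), (26, 80), (25, 80), (20, 80), (32, 80), (5, 89), (74, 80), (52, 80), (50, 80), (40, 80), (65, 80), (64, 80), (2, 89), (1, 89), (80, 80), (4, 89), (25, 89), (13, 89), (10, 89), (8, 89), (20, 89), (16, 89), (37, 89), (32, 89), (26, 89), (40, 89), (64, 100), (10, 100), (89, 89), (65, 89), (64, 89), (52, 89), (80, 89), (74, 89), (4, 100), (2, 100), (1, 100), (8, 100), (5, 100), (32, 100), (20, 100), (16, 100), (13, 100), (26, 100),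 (25, 100), (50, 100), (40, 100), (37, 100), (52, 100), (10, 104), (1, 104), (80, 100), (74, 100), (65, 100), (100, 100), (89, 100), (5, 104), (4, 104), (2, 104), (8, 104), (32, 104), (20, 104), (16, 104), (13, 104), (26, 104), (25, 104), (50, 104), (40, 104), (37, 104), (52, 104), (50, 128), (64, 125), (10, 125), (104, 104), (80, 104), (74, 104), (65, 104), (100, 104), (89, 104), (4, 125), (2, 125), (1, 125), (8, 125), (5, 125), (32, 125), (20, 125), (16, 125), (13, 125), (26, 125), (25, 125), (50, 125), (40, 125), (37, 125), (52, 125), (5, 128), (104, 125), (80, 125), (74, 125), (65, 125), (100, 125), (89, 125), (2, 128), (1, 128), (125, 125), (4, 128), (25, 128), (13, 128), (10, 128), (8, 128), (20, 128), (16, 128), (37, 128), (32, 128), (26, 128), (40, 128), (74, 130), (16, 130), (2,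 130), (74, 128), (65, 128), (52, 128), (1, 130), (89, 128), (8, 130), (5, 130), (4, 130), (13, 130), (10, 130), (40, 130), (26, 130), (25, 130), (20, 130), (37, 130), (32, 130), (64, 130), (52, 130), (50, 130), (65, 130), (8, 148), (130, 130), (100, 130), (89, 130), (80, 130), (125, 130), (104, 130), (4, 148), (2, 148), (1, 148), (5, 148), (26, 148), (16, 148), (13, 148), (10, 148), (25, 148), (20, 148), (40, 148), (37, 148), (32, 148), (50, 148), (185, 233), (10, 185), (52, 169), (37, 160), (2, 160), (100, 148), (74, 148), (65, 148), (64, 148), (89, 148), (80, 148), (130, 148), (125, 148), (104, 148), (1, 160), (148, 148), (16, 160), (8, 160), (5, 160), (4, 160), (13, 160), (10, 160), (26, 160), (25, 160), (20, 160), (32, 160), (8, 169), (89, 160), (52, 160), (50, 160), (40, 160), (74,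 160), (65, 160), (4, 169), (2, 169), (1, 169), (5, 169), (26, 169), (16, 169), (13, 169), (10, 169), (25, 169), (20, 169), (40, 169), (37, 169), (32, 169), (50, 169), (32, 178), (1, 178), (100, 169), (74, 169), (65, 169), (64, 169), (89, 169), (80, 169), (130, 169), (125, 169), (104, 169), (169, 169), (148, 169), (13, 178), (5, 178), (4, 178), (2, 178), (10, 178), (8, 178), (25, 178), (20, 178), (16, 178), (26, 178), (104, 178), (65, 178), (50, 178), (40, 178), (37, 178), (64, 178), (52, 178), (89, 178), (80, 178), (74, 178), (100, 178), (1, 185), (148, 178), (130, 178), (125, 178), (178, 178), (169, 178), (5, 185), (4, 185), (2, 185), (8, 185), (4, 208), (185, 185), (65, 185), (32, 185), (20, 185), (16, 185), (13, 185), (26, 185), (25, 185), (50, 185), (40, 185), (37, 185), (64, 185),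 (52, 185), (125, 185), (89, 185), (80, 185), (74, 185), (104, 185), (100, 185), (169, 185), (148, 185), (130, 185), (178, 185), (26, 200), (10, 200), (4, 200), (2, 200), (1, 200), (8, 200), (5, 200), (20, 200), (16, 200), (13, 200), (25, 200), (65, 200), (40, 200), (37, 200), (32, 200), (52, 200), (50, 200), (1, 208), (89, 200), (74, 200), (2, 208), (13, 233), (50, 208), (20, 208), (10, 208), (8, 208), (5, 208), (16, 208), (13, 208), (32, 208), (26, 208), (25, 208), (40, 208), (37, 208), (2, 233), (74, 208), (65, 208), (52, 208), (1, 233), (89, 208), (8, 233), (5, 233), (4, 233), (10, 233), (65, 233), (37, 233), (25, 233), (20, 233), (16, 233), (32, 233), (26, 233), (52, 233), (50, 233), (40, 233), (64, 233), (125, 233), (89, 233), (80, 233), (74, 233), (104, 233), (100, 233), (169, 233),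 (148, 233), (130, 233), (178, 233), (16, 325), (37, 260), (4, 256), (26, 250), (8, 250), (2, 250), (1, 250), (233, 233), (5, 250), (4, 250), (16, 250), (13, 250), (10, 250), (25, 250), (20, 250), (65, 250), (40, 250), (37, 250), (32, 250), (52, 250), (50, 250), (1, 256), (89, 250), (74, 250), (2, 256), (2, 260), (20, 256), (10, 256), (8, 256), (5, 256), (16, 256), (13, 256), (37, 256), (26, 256), (25, 256), (1, 260), (16, 260), (8, 260), (5, 260), (4, 260), (13, 260), (10, 260), (26, 260), (25, 260), (20, 260), (32, 260), (65, 296), (10, 296), (89, 260), (52, 260), (50, 260), (40, 260), (74, 260), (65, 260), (4, 296), (2, 296), (1, 296), (8, 296), (5, 296), (32, 296), (20, 296), (16, 296), (13, 296), (26, 296), (25, 296), (50, 296), (40, 296), (37, 296), (52, 296), (20, 320), (5, 320),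 (1, 320), (89, 296), (74, 296), (4, 320), (2, 320), (13, 320), (10, 320), (8, 320), (16, 320), (4, 325), (37, 320), (26, 320), (25, 320), (2, 325), (1, 325), (10, 325), (8, 325), (5, 325), (13, 325), (50, 356), (32, 338), (1, 338), (40, 325), (26, 325), (25, 325), (20, 325), (37, 325), (32, 325), (65, 325), (52, 325), (50, 325), (89, 325), (74, 325), (13, 338), (5, 338), (4, 338), (2, 338), (10, 338), (8, 338), (25, 338), (20, 338), (16, 338), (26, 338), (5, 356), (74, 338), (50, 338), (40, 338), (37, 338), (65, 338), (52, 338), (2, 356), (1, 356), (89, 338), (4, 356), (25, 356), (13, 356), (10, 356), (8, 356), (20, 356), (16, 356), (37, 356), (32, 356), (26, 356), (40, 356), (89, 370), (16, 370), (2, 370), (74, 356), (65, 356), (52, 356), (1, 370), (89, 356), (8, 370), (5, 370), (4,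 370), (13, 370), (10, 370), (40, 370), (26, 370), (25, 370), (20, 370), (37, 370), (32, 370), (65, 370), (52, 370), (50, 370), (74, 370), (26, 400), (10, 400), (4, 400), (2, 400), (1, 400), (8, 400), (5, 400), (20, 400), (16, 400), (13, 400), (25, 400), (8, 416), (2, 416), (1, 416), (37, 400), (5, 416), (4, 416), (16, 416), (13, 416), (10, 416), (20, 416), (2, 1690), (5, 832), (37, 520), (8, 481), (2, 466), (25, 445), (5, 445), (1, 445), (37, 416), (26, 416), (4, 445), (2, 445), (13, 445), (10, 445), (8, 445), (20, 445), (16, 445), (52, 445), (37, 445), (32, 445), (26, 445), (50, 445), (40, 445), (89, 445), (74, 445), (65, 445), (1, 466), (37, 466), (16, 466), (8, 466), (5, 466), (4, 466), (13, 466), (10, 466), (26, 466), (25, 466), (20, 466), (32, 466), (89, 466), (52, 466), (50, 466),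 (40, 466), (74, 466), (65, 466), (4, 481), (2, 481), (1, 481), (5, 481), (20, 500), (65, 481), (26, 481), (16, 481), (13, 481), (10, 481), (25, 481), (20, 481), (40, 481), (37, 481), (32, 481), (52, 481), (50, 481), (5, 500), (1, 500), (89, 481), (74, 481), (4, 500), (2, 500), (13, 500), (10, 500), (8, 500), (16, 500), (1, 520), (4, 512), (37, 500), (26, 500), (25, 500), (2, 512), (1, 512), (10, 512), (8, 512), (5, 512), (13, 512), (13, 520), (5, 520), (4, 520), (2, 520), (10, 520), (8, 520), (25, 520), (20, 520), (16, 520), (26, 520), (2, 676), (26, 625), (37, 592), (10, 592), (4, 592), (2, 592), (1, 592), (8, 592), (5, 592), (20, 592), (16, 592), (13, 592), (26, 592), (25, 592), (10, 625), (4, 625), (2, 625), (1, 625), (8, 625), (5, 625), (20, 625), (16, 625), (13, 625), (25, 625),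 (4, 650), (8, 640), (2, 640), (1, 640), (37, 625), (5, 640), (4, 640), (1, 650), (13, 640), (10, 640), (2, 650), (20, 650), (10, 650), (8, 650), (5, 650), (16, 650), (13, 650), (37, 650), (26, 650), (25, 650), (1, 676), (1, 740), (2, 712), (16, 676), (8, 676), (5, 676), (4, 676), (13, 676), (10, 676), (26, 676), (25, 676), (20, 676), (1, 712), (37, 676), (16, 712), (8, 712), (5, 712), (4, 712), (13, 712), (10, 712), (26, 712), (25, 712), (20, 712), (37, 712), (37, 740), (13, 740), (5, 740), (4, 740), (2, 740), (10, 740), (8, 740), (25, 740), (20, 740), (16, 740), (26, 740), (10, 800), (4, 800), (2, 800), (1, 800), (8, 800), (5, 800), (2, 832), (1, 832), (13, 800), (4, 832), (20, 1157), (10, 932), (16, 890), (20, 845), (4, 845), (13, 832), (10, 832), (8, 832), (2, 845), (1, 845), (10,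 845), (8, 845), (5, 845), (16, 845), (13, 845), (4, 890), (37, 845), (26, 845), (25, 845), (2, 890), (1, 890), (10, 890), (8, 890), (5, 890), (13, 890), (13, 925), (2, 925), (26, 890), (25, 890), (20, 890), (1, 925), (37, 890), (8, 925), (5, 925), (4, 925), (10, 925), (1, 932), (25, 925), (20, 925), (16, 925), (37, 925), (26, 925), (5, 932), (4, 932), (2, 932), (8, 932), (8, 1000), (10, 962), (37, 932), (20, 932), (16, 932), (13, 932), (26, 932), (25, 932), (4, 962), (2, 962), (1, 962), (8, 962), (5, 962), (37, 962), (20, 962), (16, 962), (13, 962), (26, 962), (25, 962), (4, 1000), (2, 1000), (1, 1000), (5, 1000), (8, 1040), (5, 1024), (1, 1024), (13, 1000), (10, 1000), (4, 1024), (2, 1024), (4, 1040), (2, 1040), (1, 1040), (5, 1040), (5, 1157), (1, 1157), (13, 1040), (10, 1040), (4,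 1157), (2, 1157), (13, 1157), (10, 1157), (8, 1157), (16, 1157), (8, 1352), (1, 1250), (20, 1165), (4, 1165), (37, 1157), (26, 1157), (25, 1157), (2, 1165), (1, 1165), (10, 1165), (8, 1165), (5, 1165), (16, 1165), (13, 1165), (4, 1184), (37, 1165), (26, 1165), (25, 1165), (2, 1184), (1, 1184), (10, 1184), (8, 1184), (5, 1184), (13, 1184), (1, 1300), (13, 1250), (5, 1250), (4, 1250), (2, 1250), (10, 1250), (8, 1250), (4, 1280), (2, 1280), (1, 1280), (5, 1280), (13, 1300), (5, 1300), (4, 1300), (2, 1300), (10, 1300), (8, 1300), (4, 1352), (2, 1352), (1, 1352), (5, 1352), (2, 1480), (25, 1369), (5, 1369), (1, 1369), (13, 1352), (10, 1352), (4, 1369), (2, 1369), (13, 1369), (10, 1369), (8, 1369), (20, 1369), (16, 1369), (5, 1424), (1, 1424), (37, 1369), (26, 1369), (4, 1424), (2, 1424), (13,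 1424), (10, 1424), (8, 1424), (1, 1480), (2, 1625), (1, 1600), (8, 1480), (5, 1480), (4, 1480), (13, 1480), (10, 1480), (5, 1600), (4, 1600), (2, 1600), (1, 1625), (1, 1664), (8, 1625), (5, 1625), (4, 1625), (13, 1625), (10, 1625), (5, 1664), (4, 1664), (2, 1664), (1, 1690), (2, 4628), (2, 2600), (2, 2197), (5, 1864), (13, 1780), (1, 1780), (8, 1690), (5, 1690), (4, 1690), (13, 1690), (10, 1690), (5, 1780), (4, 1780), (2, 1780), (10, 1780), (8, 1780), (10, 1850), (4, 1850), (2, 1850), (1, 1850), (8, 1850), (5, 1850), (2, 1864), (1, 1864), (13, 1850), (4, 1864), (1, 2000), (4, 1924), (13, 1864), (10, 1864), (8, 1864), (2, 1924), (1, 1924), (10, 1924), (8, 1924), (5, 1924), (13, 1924), (1, 2080), (5, 2000), (4, 2000), (2, 2000), (2, 2048), (1, 2048), (5, 2080), (4, 2080), (2, 2080), (1,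 2197), (5, 2330), (13, 2225), (1, 2225), (8, 2197), (5, 2197), (4, 2197), (13, 2197), (10, 2197), (5, 2225), (4, 2225), (2, 2225), (10, 2225), (8, 2225), (10, 2314), (4, 2314), (2, 2314), (1, 2314), (8, 2314), (5, 2314), (2, 2330), (1, 2330), (13, 2314), (4, 2330), (5, 2405), (4, 2368), (13, 2330), (10, 2330), (8, 2330), (2, 2368), (1, 2368), (2, 2405), (1, 2405), (5, 2368), (4, 2405), (4, 2500), (13, 2405), (10, 2405), (8, 2405), (2, 2500), (1, 2500), (2, 2560), (1, 2560), (5, 2500), (1, 2600), (13, 3293), (2, 3029), (10, 2738), (5, 2704), (1, 2704), (5, 2600), (4, 2600), (4, 2704), (2, 2704), (4, 2738), (2, 2738), (1, 2738), (8, 2738), (5, 2738), (1, 2960), (2, 2848), (1, 2848), (13, 2738), (5, 2848), (4, 2848), (5, 2960), (4, 2960), (2, 2960), (1, 3029), (2, 3200), (1, 3125), (8, 3029),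 (5, 3029), (4, 3029), (13, 3029), (10, 3029), (5, 3125), (4, 3125), (2, 3125), (1, 3200), (2, 3293), (4, 3250), (2, 3250), (1, 3250), (1, 3293), (5, 3250), (8, 3293), (5, 3293), (4, 3293), (10, 3293), (1, 4000), (2, 3700), (5, 3380), (1, 3380), (2, 3328), (1, 3328), (4, 3380), (2, 3380), (4, 3560), (2, 3560), (1, 3560), (1, 3700), (5, 3560), (5, 3728), (1, 3728), (5, 3700), (4, 3700), (4, 3728), (2, 3728), (4, 3848), (2, 3848), (1, 3848), (5, 3848), (4, 4394), (2, 4225), (1, 4160), (1, 4096), (2, 4000), (1, 4225), (2, 4160), (1, 4394), (5, 4225), (4, 4225), (2, 4394), (1, 4625), (2, 4450), (1, 4450), (5, 4394), (5, 4450), (4, 4450), (5, 4625), (4, 4625), (2, 4625), (1, 4628), (1, 9320), (5, 6253), (5, 5476), (5, 4810), (5, 4660), (1, 4660), (5, 4628), (4, 4628), (4, 4660), (2, 4660),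 (1, 4810), (2, 4736), (1, 4736), (4, 4810), (2, 4810), (1, 5408), (1, 5120), (2, 5000), (1, 5000), (2, 5200), (1, 5200), (2, 5476), (1, 5476), (2, 5408), (4, 5476), (1, 5920), (5, 5785), (1, 5785), (2, 5696), (1, 5696), (4, 5785), (2, 5785), (4, 5825), (2, 5825), (1, 5825), (5, 5825), (1, 6250), (2, 6058), (1, 6058), (2, 5920), (5, 6058), (4, 6058), (2, 6253), (1, 6253), (2, 6250), (4, 6253), (1, 7921), (2, 6845), (4, 6586), (2, 6500), (1, 6500), (1, 6400), (2, 6586), (1, 6586), (1, 6760), (1, 6656), (5, 6586), (1, 6845), (2, 6760), (2, 7400), (1, 7120), (5, 6845), (4, 6845), (1, 7400), (2, 7120), (1, 7696), (2, 7456), (1, 7456), (2, 7696), (2, 8621), (2, 8125), (5, 7921), (4, 7921), (2, 7921), (1, 8125), (1, 8000), (2, 8450), (1, 8450), (1, 8320), (1, 8621), (2, 8900), (1, 8788), (5,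 8621), (4, 8621), (1, 8900), (2, 8788), (1, 9256), (2, 9250), (1, 9250), (2, 9256), (1, 16465), (2, 12116), (1, 11125), (1, 10400), (1, 9620), (1, 9472), (2, 9320), (1, 10000), (2, 9620), (2, 10952), (1, 10952), (1, 10816), (2, 10985), (1, 10985), (2, 11650), (1, 11570), (1, 11392), (2, 11125), (1, 11650), (2, 11570), (2, 12025), (1, 12025), (1, 11840), (1, 12116), (1, 14800), (2, 13172), (2, 12506), (1, 12506), (1, 12500), (1, 13172), (1, 13000), (2, 13690), (1, 13690), (1, 13520), (1, 14240), (1, 15392), (2, 15041), (1, 15041), (1, 14912), (2, 15145), (1, 15145), (2, 15842), (1, 15842), (1, 15625), (1, 16250), (1, 24050), (1, 18640), (1, 17797), (1, 17242), (1, 16900), (2, 16465), (1, 17576), (2, 17242), (1, 18500), (1, 17800), (2, 17797), (1, 18512), (1, 21970), (2, 20737), (1, 20737),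 (1, 19240), (1, 21904), (1, 21125), (1, 23140), (1, 23125), (1, 22250), (1, 23300), (1, 31684), (1, 28925), (1, 26344), (1, 25012), (1, 24232), (1, 28561), (1, 27380), (1, 30290), (1, 30082), (1, 29125), (1, 31265), (1, 39605), (1, 34484), (1, 34225), (1, 32930), (1, 39377), (1, 35594), (1, 43105), (1, 42809), (1, 41474), (1, 54289)]

theorem d6b_okF : okF d6b_F = true := by decide +kernel

end Vale.Agent.Lib.P142.Chk
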