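import Mathlib

/-!
# P142 (Brennan): definitions for the dual-certificate method
-/

open Complex MeasureTheory Set Metric

namespace Vale.Agent.Lib.P142

/-- Univalent functions on the unit disc. -/
structure Univ (f : ℂ → ℂ) : Prop where
  diff : DifferentiableOn ℂ f (ball 0 1)
  inj : InjOn f (ball 0 1)

/-- `n`-th Taylor coefficient at `0`. -/
noncomputable def tc (g : ℂ → ℂ) (n : ℕ) : ℂ := iteratedDeriv n g 0 / (n.factorial : ℂ)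

/-- `al` is the coefficient sequence of `z / g` when `a` is the coefficient sequence of `g`
(`a 1 = 1`): `(∑ a (k+1) z^k) (∑ al k z^k) = 1`. -/
def IsInv (a al : ℕ → ℂ) : Prop :=
  al 0 = 1 ∧ ∀ n, 1 ≤ n → ∑ k ∈ Finset.range (n + 1), a (k + 1) * al (n - k) = 0

/-- `q` is the coefficient sequence of `(z / g)^{1/2}`. -/
def IsSqrt (al q : ℕ → ℂ) : Prop :=
  q 0 = 1 ∧ ∀ n, ∑ k ∈ Finset.range (n + 1), q k * q (n - k) = al n

/-- The coefficient body (relaxed): the two Prawitz inequalities (exponents `1` and `1/2`),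
truncated at every order. -/
def Body (a : ℕ → ℂ) : Prop :=
  a 1 = 1 ∧ ∃ al q : ℕ → ℂ, IsInv a al ∧ IsSqrt al q ∧
    (∀ N, ∑ n ∈ Finset.range (N + 1), ((n : ℝ) - 1) * ‖al n‖ ^ 2 ≤ 0) ∧
    (∀ N, ∑ n ∈ Finset.range (N + 1), (2 * (n : ℝ) - 1) * ‖q n‖ ^ 2 ≤ 0)

/-- the point `r e^{iθ}` -/
noncomputable def zp (r θ : ℝ) : ℂ := (r : ℂ) * exp ((θ : ℂ) * I)

/-- `ω = - e^{iθ} (1 - r^2)` -/
noncomputable def om (r θ : ℝ) : ℂ := - exp ((θ : ℂ) * I) * (1 - (r : ℂ) ^ 2)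

/-- `κ = (r + 1/r)/2` -/
noncomputable def kap (r : ℝ) : ℝ := (r + 1 / r) / 2

/-- `b_k = ω^{k-1} f^{(k)}(z) / (k! f'(z))` at `z = r e^{iθ}` -/
noncomputable def bk (f : ℂ → ℂ) (k : ℕ) (r θ : ℝ) : ℂ :=
  om r θ ^ (k - 1) * (iteratedDeriv k f (zp r θ) / (k.factorial : ℂ)) / deriv f (zp r θ)

/-- `a_n(r,θ) = ∑_{k=1}^{n} C(n-1,k-1) r^{n-k} b_k`: the `n`-th coefficient of the Koebe transform
`g(ζ) = (f(T ζ) - f(z)) / (ω f'(z))`, `T ζ = e^{iθ} (r - ζ)/(1 - r ζ)`, `z = r e^{iθ}`. -/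
noncomputable def ak (f : ℂ → ℂ) (n : ℕ) (r θ : ℝ) : ℂ :=
  ∑ k ∈ Finset.range n, ((n - 1).choose k : ℂ) * (r : ℂ) ^ (n - 1 - k) * bk f (k + 1) r θ

/-- the Möbius map `T ζ = e^{iθ} (r - ζ)/(1 - r ζ)` -/
noncomputable def mob (r θ : ℝ) (ζ : ℂ) : ℂ :=
  exp ((θ : ℂ) * I) * ((r : ℂ) - ζ) / (1 - (r : ℂ) * ζ)

/-- the Koebe transform of `f` at `z = r e^{iθ}` -/
noncomputable def koebe (f : ℂ → ℂ) (r θ : ℝ) (ζ : ℂ) : ℂ :=
  (f (mob r θ ζ) - f (zp r θ)) / (om r θ * deriv f (zp r θ))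

/-- `HasE u v w`: `u` is a function of `(r,θ)`, `0 < r < 1`, with
`E u = v`, `E^* u = w`, where `E = -(1-r^2)/2 (∂_r - (i/r) ∂_θ)`,
`E^* = -(1-r^2)/2 (∂_r + (i/r) ∂_θ)`; everything continuous and `2π`-periodic in `θ`. -/
structure HasE (u v w : ℝ → ℝ → ℂ) : Prop where
  dr : ∀ r θ, 0 < r → r < 1 →
    HasDerivAt (fun s : ℝ => u s θ) (-(v r θ + w r θ) / (1 - (r : ℂ) ^ 2)) r
  dth : ∀ r θ, 0 < r → r < 1 →
    HasDerivAt (fun s : ℝ => u r s) (-I * (r : ℂ) * (v r θ - w r θ) / (1 - (r : ℂ) ^ 2)) θ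
  cu : ContinuousOn (Function.uncurry u) (Ioo (0 : ℝ) 1 ×ˢ univ)
  cv : ContinuousOn (Function.uncurry v) (Ioo (0 : ℝ) 1 ×ˢ univ)
  cw : ContinuousOn (Function.uncurry w) (Ioo (0 : ℝ) 1 ×ˢ univ)
  per : ∀ r θ, 0 < r → r < 1 → u r (θ + 2 * Real.pi) = u r θ

/-- a term `c * ∏_{i ∈ h} a_i * ∏_{j ∈ k} conj a_j` -/
structure Term where
  c : ℤ
  h : List ℕ
  k : List ℕ

/-- holomorphic monomial -/
noncomputable def mono (a : ℕ → ℂ) (l : List ℕ) : ℂ := (l.map a).prod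

/-- evaluation of `F` -/
noncomputable def evF (a : ℕ → ℂ) (F : List Term) : ℂ :=
  (F.map fun T => (T.c : ℂ) * mono a T.h * (starRingEnd ℂ) (mono a T.k)).sum

/-- `D_κ a_n = (n+1) a_{n+1} - 2 a_2 a_n - κ (n-1) a_n` -/
noncomputable def Da (κ : ℝ) (a : ℕ → ℂ) (n : ℕ) : ℂ :=
  ((n : ℂ) + 1) * a (n + 1) - 2 * a 2 * a n - (κ : ℂ) * ((n : ℂ) - 1) * a n

/-- `E^* a_n = (n-1) (κ a_n - a_{n-1})` -/
noncomputable def Sa (κ : ℝ) (a : ℕ → ℂ) (n : ℕ) : ℂ :=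
  ((n : ℂ) - 1) * ((κ : ℂ) * a n - a (n - 1))

/-- derivation `D_κ` on monomials -/
noncomputable def dmono (κ : ℝ) (a : ℕ → ℂ) : List ℕ → ℂ
  | [] => 0
  | n :: l => Da κ a n * mono a l + a n * dmono κ a l

/-- derivation `E^*` on monomials -/
noncomputable def smono (κ : ℝ) (a : ℕ → ℂ) : List ℕ → ℂ
  | [] => 0
  | n :: l => Sa κ a n * mono a l + a n * smono κ a l

/-- `E F` -/
noncomputable def evE (κ : ℝ) (a : ℕ → ℂ) (F : List Term) : ℂ :=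
  (F.map fun T => (T.c : ℂ) * (dmono κ a T.h * (starRingEnd ℂ) (mono a T.k) +
    mono a T.h * (starRingEnd ℂ) (smono κ a T.k))).sum

/-- `E^* F` -/
noncomputable def evS (κ : ℝ) (a : ℕ → ℂ) (F : List Term) : ℂ :=
  (F.map fun T => (T.c : ℂ) * (smono κ a T.h * (starRingEnd ℂ) (mono a T.k) +
    mono a T.h * (starRingEnd ℂ) (dmono κ a T.k))).sum

/-- `L F = E F + (t a_2 + (β - t) ρ) F` (the limit `κ = ρ = 1` is what the certificate controls) -/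
noncomputable def evL (t β κ ρ : ℝ) (a : ℕ → ℂ) (F : List Term) : ℂ :=
  evE κ a F + ((t : ℂ) * a 2 + ((β : ℂ) - (t : ℂ)) * (ρ : ℂ)) * evF a F

/-- A certificate for `(t, β)`: `Re F ≥ δ > 0`, `Re L F ≥ ε > 0` on the coefficient body. -/
def Cert (t β : ℝ) (F : List Term) : Prop :=
  ∃ ε : ℝ, 0 < ε ∧ ∀ a : ℕ → ℂ, Body a → ε ≤ (evF a F).re ∧ ε ≤ (evL t β 1 1 a F).re

end Vale.Agent.Lib.P142
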