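import Vale.Agent.Lib.P142.Defs

/-!
# P142: algebra of `HasE`, and the derivative of the circle integral
-/

open Complex MeasureTheory Set Metric

namespace Vale.Agent.Lib.P142

theorem HasE.const (c : ℂ) : HasE (fun _ _ => c) (fun _ _ => 0) (fun _ _ => 0) where
  dr := by
    intro r θ _ _
    exact (hasDerivAt_const r c).congr_deriv (by simp)
  dth := by
    intro r θ _ _
    exact (hasDerivAt_const θ c).congr_deriv (by simp)
  cu := continuousOn_const
  cv := continuousOn_const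
  cw := continuousOn_const
  per := fun _ _ _ _ => rfl

theorem HasE.add {u v w u' v' w' : ℝ → ℝ → ℂ} (h : HasE u v w) (h' : HasE u' v' w') :
    HasE (fun r θ => u r θ + u' r θ) (fun r θ => v r θ + v' r θ) (fun r θ => w r θ + w' r θ) where
  dr := by
    intro r θ h0 h1
    exact ((h.dr r θ h0 h1).fun_add (h'.dr r θ h0 h1)).congr_deriv (by ring)
  dth := by
    intro r θ h0 h1
    exact ((h.dth r θ h0 h1).fun_add (h'.dth r θ h0 h1)).congr_deriv (by ring)
  cu := h.cu.add h'.cu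
  cv := h.cv.add h'.cv
  cw := h.cw.add h'.cw
  per := by
    intro r θ h0 h1
    show u r (θ + 2 * Real.pi) + u' r (θ + 2 * Real.pi) = u r θ + u' r θ
    rw [h.per r θ h0 h1, h'.per r θ h0 h1]

theorem HasE.mul {u v w u' v' w' : ℝ → ℝ → ℂ} (h : HasE u v w) (h' : HasE u' v' w') :
    HasE (fun r θ => u r θ * u' r θ) (fun r θ => v r θ * u' r θ + u r θ * v' r θ)
      (fun r θ => w r θ * u' r θ + u r θ * w' r θ) where
  dr := by
    intro r θ h0 h1
    exact ((h.dr r θ h0 h1).fun_mul (h'.dr r θ h0 h1)).congr_deriv (by ring)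
  dth := by
    intro r θ h0 h1
    exact ((h.dth r θ h0 h1).fun_mul (h'.dth r θ h0 h1)).congr_deriv (by ring)
  cu := h.cu.mul h'.cu
  cv := (h.cv.mul h'.cu).add (h.cu.mul h'.cv)
  cw := (h.cw.mul h'.cu).add (h.cu.mul h'.cw)
  per := by
    intro r θ h0 h1
    show u r (θ + 2 * Real.pi) * u' r (θ + 2 * Real.pi) = u r θ * u' r θ
    rw [h.per r θ h0 h1, h'.per r θ h0 h1]

theorem HasE.conj {u v w : ℝ → ℝ → ℂ} (h : HasE u v w) :
    HasE (fun r θ => (starRingEnd ℂ) (u r θ)) (fun r θ => (starRingEnd ℂ) (w r θ))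
      (fun r θ => (starRingEnd ℂ) (v r θ)) where
  dr := by
    intro r θ h0 h1
    refine (h.dr r θ h0 h1).star.congr_deriv ?_
    show (starRingEnd ℂ) (-(v r θ + w r θ) / (1 - (r : ℂ) ^ 2)) = _
    rw [map_div₀, map_neg, map_add, map_sub, map_one, map_pow, Complex.conj_ofReal]
    ring
  dth := by
    intro r θ h0 h1
    refine (h.dth r θ h0 h1).star.congr_deriv ?_
    show (starRingEnd ℂ) (-I * (r : ℂ) * (v r θ - w r θ) / (1 - (r : ℂ) ^ 2)) = _
    rw [map_div₀, map_mul, map_mul, map_neg, map_sub, map_sub, map_one, map_pow,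
      Complex.conj_ofReal, Complex.conj_I]
    ring
  cu := Complex.continuous_conj.comp_continuousOn h.cu
  cv := Complex.continuous_conj.comp_continuousOn h.cw
  cw := Complex.continuous_conj.comp_continuousOn h.cv
  per := by
    intro r θ h0 h1
    show (starRingEnd ℂ) (u r (θ + 2 * Real.pi)) = (starRingEnd ℂ) (u r θ)
    rw [h.per r θ h0 h1]

private theorem hasE_of_eq {u v w u' v' w' : ℝ → ℝ → ℂ} (h : HasE u v w)
    (hu : ∀ r θ, u r θ = u' r θ) (hv : ∀ r θ, v r θ = v' r θ) (hw : ∀ r θ, w r θ = w' r θ) :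
    HasE u' v' w' := by
  have h1 : u = u' := funext fun r => funext fun θ => hu r θ
  have h2 : v = v' := funext fun r => funext fun θ => hv r θ
  have h3 : w = w' := funext fun r => funext fun θ => hw r θ
  rw [← h1, ← h2, ← h3]
  exact h

private theorem hasE_mono {a : ℕ → ℝ → ℝ → ℂ}
    (ha : ∀ n, 1 ≤ n → HasE (a n) (fun r θ => Da (kap r) (fun m => a m r θ) n)
      (fun r θ => Sa (kap r) (fun m => a m r θ) n)) (l : List ℕ) (hl : ∀ i ∈ l, 1 ≤ i) :
    HasE (fun r θ => mono (fun m => a m r θ) l) (fun r θ => dmono (kap r) (fun m => a m r θ) l)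
      (fun r θ => smono (kap r) (fun m => a m r θ) l) := by
  induction l with
  | nil =>
    refine hasE_of_eq (HasE.const 1) (fun r θ => ?_) (fun r θ => rfl) (fun r θ => rfl)
    simp [mono]
  | cons n l ih =>
    have h1 := ha n (hl n List.mem_cons_self)
    have h2 := ih fun i hi => hl i (List.mem_cons_of_mem _ hi)
    refine hasE_of_eq (h1.mul h2) (fun r θ => ?_) (fun r θ => rfl) (fun r θ => rfl)
    simp [mono]

/-- `E` of the polynomial `F` in the coefficients (indices used: all `≥ 1`). -/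
theorem hasE_evF {a : ℕ → ℝ → ℝ → ℂ}
    (ha : ∀ n, 1 ≤ n → HasE (a n) (fun r θ => Da (kap r) (fun m => a m r θ) n)
      (fun r θ => Sa (kap r) (fun m => a m r θ) n))
    (F : List Term) (hF : ∀ T ∈ F, (∀ i ∈ T.h, 1 ≤ i) ∧ (∀ i ∈ T.k, 1 ≤ i)) :
    HasE (fun r θ => evF (fun m => a m r θ) F) (fun r θ => evE (kap r) (fun m => a m r θ) F)
      (fun r θ => evS (kap r) (fun m => a m r θ) F) := by
  induction F with
  | nil =>
    refine hasE_of_eq (HasE.const 0) (fun r θ => ?_) (fun r θ => ?_) (fun r θ => ?_)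
    · simp [evF]
    · simp [evE]
    · simp [evS]
  | cons T F ih =>
    have h1 := ih fun T' hT' => hF T' (List.mem_cons_of_mem _ hT')
    obtain ⟨h2, h3⟩ := hF T List.mem_cons_self
    have h4 := hasE_mono ha T.h h2
    have h5 := (hasE_mono ha T.k h3).conj
    refine hasE_of_eq ((((HasE.const (T.c : ℂ)).mul h4).mul h5).add h1)
      (fun r θ => ?_) (fun r θ => ?_) (fun r θ => ?_)
    · simp [evF]
    · simp only [evE, List.map_cons, List.sum_cons]
      ring
    · simp only [evS, List.map_cons, List.sum_cons]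
      ring

/-
PROOF.  `∂_r u = -(v+w)/(1-r^2)`, `∂_θ u = -i r (v-w)/(1-r^2)`; `∫_0^{2π} ∂_θ u dθ = 0` by
periodicity gives `∫ v = ∫ w`; differentiate under the integral sign (all continuous).
-/
theorem hasDerivAt_circle {u v w : ℝ → ℝ → ℂ} (h : HasE u v w) {r : ℝ} (hr0 : 0 < r)
    (hr1 : r < 1) :
    HasDerivAt (fun s : ℝ => ∫ θ in (0 : ℝ)..2 * Real.pi, u s θ)
      (-2 / (1 - (r : ℂ) ^ 2) * ∫ θ in (0 : ℝ)..2 * Real.pi, v r θ) r := by
  have hsec : ∀ {g : ℝ → ℝ → ℂ}, ContinuousOn (Function.uncurry g) (Ioo (0 : ℝ) 1 ×ˢ univ) →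
      ∀ s : ℝ, 0 < s → s < 1 → Continuous (g s) := by
    intro g hg s h0 h1
    exact hg.comp_continuous (f := fun θ : ℝ => (s, θ)) (by fun_prop)
      (fun θ => ⟨⟨h0, h1⟩, mem_univ _⟩)
  have hne : ∀ s : ℝ, 0 < s → s < 1 → (1 : ℂ) - (s : ℂ) ^ 2 ≠ 0 := by
    intro s h0 h1 hcon
    have h2 : ((1 - s ^ 2 : ℝ) : ℂ) = 0 := by
      push_cast
      exact hcon
    have h3 : (1 - s ^ 2 : ℝ) = 0 := by exact_mod_cast h2
    nlinarith
  have hF' : ContinuousOn (fun p : ℝ × ℝ => -(v p.1 p.2 + w p.1 p.2) / (1 - (p.1 : ℂ) ^ 2))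
      (Ioo (0 : ℝ) 1 ×ˢ univ) := by
    refine ContinuousOn.div ((h.cv.add h.cw).neg) ?_ ?_
    · fun_prop
    · intro p hp
      exact hne p.1 hp.1.1 hp.1.2
  have hK : Icc (r / 2) ((1 + r) / 2) ×ˢ Icc (0 : ℝ) (2 * Real.pi) ⊆ Ioo (0 : ℝ) 1 ×ˢ univ := by
    rintro ⟨s, θ⟩ ⟨⟨h1, h2⟩, -⟩
    have h1' : r / 2 ≤ s := h1
    have h2' : s ≤ (1 + r) / 2 := h2
    exact ⟨⟨by show 0 < s; linarith, by show s < 1; linarith⟩, mem_univ _⟩
  obtain ⟨M, hM⟩ := (isCompact_Icc.prod isCompact_Icc).exists_bound_of_continuousOn (hF'.mono hK)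
  have hpi : (0 : ℝ) ≤ 2 * Real.pi := by positivity
  have hmain := intervalIntegral.hasDerivAt_integral_of_dominated_loc_of_deriv_le
    (μ := volume) (a := 0) (b := 2 * Real.pi) (F := u)
    (F' := fun s θ => -(v s θ + w s θ) / (1 - (s : ℂ) ^ 2)) (x₀ := r)
    (s := Icc (r / 2) ((1 + r) / 2)) (bound := fun _ => M)
    (Icc_mem_nhds (by linarith) (by linarith)) ?_ ?_ ?_ ?_ ?_ ?_
  · have h1 := hmain.2
    refine h1.congr_deriv ?_
    have hv : IntervalIntegrable (v r) volume 0 (2 * Real.pi) :=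
      (hsec h.cv r hr0 hr1).intervalIntegrable _ _
    have hw : IntervalIntegrable (w r) volume 0 (2 * Real.pi) :=
      (hsec h.cw r hr0 hr1).intervalIntegrable _ _
    have hftc := intervalIntegral.integral_eq_sub_of_hasDerivAt
      (a := 0) (b := 2 * Real.pi) (f := u r)
      (f' := fun θ => -I * (r : ℂ) * (v r θ - w r θ) / (1 - (r : ℂ) ^ 2))
      (fun θ _ => h.dth r θ hr0 hr1)
      (by
        refine Continuous.intervalIntegrable ?_ _ _
        exact (continuous_const.mul ((hsec h.cv r hr0 hr1).sub (hsec h.cw r hr0 hr1))).div_const _)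
    have hper := h.per r 0 hr0 hr1
    rw [zero_add] at hper
    rw [hper, sub_self] at hftc
    have he1 : (∫ θ in (0 : ℝ)..2 * Real.pi, -I * (r : ℂ) * (v r θ - w r θ) / (1 - (r : ℂ) ^ 2)) =
        (-I * (r : ℂ) / (1 - (r : ℂ) ^ 2)) *
          ((∫ θ in (0 : ℝ)..2 * Real.pi, v r θ) - ∫ θ in (0 : ℝ)..2 * Real.pi, w r θ) := by
      rw [← intervalIntegral.integral_sub hv hw, ← intervalIntegral.integral_const_mul]
      refine intervalIntegral.integral_congr fun θ _ => ?_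
      show -I * (r : ℂ) * (v r θ - w r θ) / (1 - (r : ℂ) ^ 2) =
        (-I * (r : ℂ) / (1 - (r : ℂ) ^ 2)) * (v r θ - w r θ)
      ring
    rw [he1, mul_eq_zero] at hftc
    have hc : (-I * (r : ℂ) / (1 - (r : ℂ) ^ 2)) ≠ 0 := by
      refine div_ne_zero (mul_ne_zero (neg_ne_zero.mpr I_ne_zero) ?_) (hne r hr0 hr1)
      exact_mod_cast hr0.ne'
    have hvw : (∫ θ in (0 : ℝ)..2 * Real.pi, v r θ) = ∫ θ in (0 : ℝ)..2 * Real.pi, w r θ :=
      sub_eq_zero.mp (hftc.resolve_left hc)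
    have he2 : (∫ θ in (0 : ℝ)..2 * Real.pi, -(v r θ + w r θ) / (1 - (r : ℂ) ^ 2)) =
        (-1 / (1 - (r : ℂ) ^ 2)) *
          ((∫ θ in (0 : ℝ)..2 * Real.pi, v r θ) + ∫ θ in (0 : ℝ)..2 * Real.pi, w r θ) := by
      rw [← intervalIntegral.integral_add hv hw, ← intervalIntegral.integral_const_mul]
      refine intervalIntegral.integral_congr fun θ _ => ?_
      show -(v r θ + w r θ) / (1 - (r : ℂ) ^ 2) =
        (-1 / (1 - (r : ℂ) ^ 2)) * (v r θ + w r θ)
      ring
    rw [he2, ← hvw]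
    ring
  · filter_upwards [Ioo_mem_nhds hr0 hr1] with s hs
    exact (hsec h.cu s hs.1 hs.2).aestronglyMeasurable
  · exact (hsec h.cu r hr0 hr1).intervalIntegrable _ _
  · exact (((hsec h.cv r hr0 hr1).add (hsec h.cw r hr0 hr1)).neg.div_const _).aestronglyMeasurable
  · refine Filter.Eventually.of_forall fun t ht s hs => ?_
    rw [uIoc_of_le hpi] at ht
    exact hM (s, t) ⟨hs, Ioc_subset_Icc_self ht⟩
  · exact intervalIntegrable_const
  · refine Filter.Eventually.of_forall fun t _ s hs => ?_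
    have h1 : r / 2 ≤ s := hs.1
    have h2 : s ≤ (1 + r) / 2 := hs.2
    exact h.dr s t (by linarith) (by linarith)

end Vale.Agent.Lib.P142
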