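import Vale.Agent.Lib.P142.Defs

/-!
# P142: Koebe transform and its Taylor coefficients
-/

open Complex MeasureTheory Set Metric

namespace Vale.Agent.Lib.P142

open Topology in
/-- an injective holomorphic function has non-vanishing derivative -/
theorem deriv_ne_zero_of_univ {f : ℂ → ℂ} (hf : Univ f) {z : ℂ} (hz : z ∈ ball (0 : ℂ) 1) :
    deriv f z ≠ 0 := by
  have han : AnalyticOnNhd ℂ f (ball 0 1) := hf.diff.analyticOnNhd isOpen_ball
  have hopen : ∀ s ⊆ ball (0 : ℂ) 1, IsOpen s → IsOpen (f '' s) := by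
    rcases han.is_constant_or_isOpen (convex_ball (0 : ℂ) 1).isPreconnected with h | h
    · obtain ⟨w, hw⟩ := h
      have h0 : (0 : ℂ) ∈ ball (0 : ℂ) 1 := mem_ball_self one_pos
      have h1 : (1 / 2 : ℂ) ∈ ball (0 : ℂ) 1 := by
        rw [mem_ball_zero_iff]
        norm_num
      have h2 := hf.inj h0 h1 ((hw _ h0).trans (hw _ h1).symm)
      norm_num at h2
    · exact h
  set g : ℂ → ℂ := Function.invFunOn f (ball 0 1) with hgdef
  have hgf : ∀ x ∈ ball (0 : ℂ) 1, g (f x) = x := fun x hx => hf.inj.leftInvOn_invFunOn hx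
  have hgc : ∀ x ∈ ball (0 : ℂ) 1, ContinuousAt g (f x) := by
    intro x hx V hV
    rw [hgf x hx] at hV
    have h1 : IsOpen (f '' (interior V ∩ ball 0 1)) :=
      hopen _ inter_subset_right (isOpen_interior.inter isOpen_ball)
    have h2 : f x ∈ f '' (interior V ∩ ball 0 1) :=
      mem_image_of_mem f ⟨mem_interior_iff_mem_nhds.mpr hV, hx⟩
    refine Filter.mem_map.mpr (Filter.mem_of_superset (h1.mem_nhds h2) ?_)
    rintro w ⟨y, hy, rfl⟩
    rw [mem_preimage, hgf y hy.2]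
    exact interior_subset hy.1
  intro h0
  rcases (han z hz).deriv.eventually_eq_zero_or_eventually_ne_zero with h1 | h1
  · obtain ⟨ε, hε, hball⟩ := Metric.mem_nhds_iff.mp
      (Filter.inter_mem h1 (isOpen_ball.mem_nhds hz))
    have h2 : f z = f (z + (ε / 2 : ℝ)) := by
      refine isOpen_ball.is_const_of_deriv_eq_zero (convex_ball z ε).isPreconnected
        (hf.diff.mono (fun x hx => (hball hx).2)) (fun x hx => (hball hx).1)
        (mem_ball_self hε) ?_
      rw [mem_ball, dist_eq_norm, add_sub_cancel_left, Complex.norm_real, Real.norm_eq_abs,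
        abs_of_pos (by linarith)]
      linarith
    have h3 : z + (ε / 2 : ℝ) ∈ ball z ε := by
      rw [mem_ball, dist_eq_norm, add_sub_cancel_left, Complex.norm_real, Real.norm_eq_abs,
        abs_of_pos (by linarith)]
      linarith
    have h4 := hf.inj hz (hball h3).2 h2
    have h5 : ((ε / 2 : ℝ) : ℂ) = 0 := by
      have := congrArg (fun t => t - z) h4
      simpa using this.symm
    have h6 : ε / 2 = 0 := by exact_mod_cast h5
    linarith
  · rw [eventually_nhdsWithin_iff] at h1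
    obtain ⟨ε, hε, hball⟩ := Metric.mem_nhds_iff.mp
      (Filter.inter_mem h1 (isOpen_ball.mem_nhds hz))
    have hsub : ball z ε ⊆ ball 0 1 := fun x hx => (hball hx).2
    have hTo : IsOpen (f '' ball z ε) := hopen _ hsub isOpen_ball
    have hTn : f '' ball z ε ∈ 𝓝 (f z) := hTo.mem_nhds (mem_image_of_mem f (mem_ball_self hε))
    have hD : DifferentiableOn ℂ g (f '' ball z ε \ {f z}) := by
      rintro w ⟨⟨x, hx, rfl⟩, hw⟩
      have hxz : x ≠ z := by
        rintro rfl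
        exact hw rfl
      have hd : deriv f x ≠ 0 := (hball hx).1 hxz
      have hda : HasDerivAt f (deriv f x) (g (f x)) := by
        rw [hgf x (hsub hx)]
        exact (hf.diff.differentiableAt (isOpen_ball.mem_nhds (hsub hx))).hasDerivAt
      have hev : ∀ᶠ y in 𝓝 (f x), f (g y) = y := by
        filter_upwards [hTo.mem_nhds (mem_image_of_mem f hx)] with y hy
        obtain ⟨u, hu, rfl⟩ := hy
        rw [hgf u (hsub hu)]
      exact (HasDerivAt.of_local_left_inverse (hgc x (hsub hx)) hda hd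
        hev).differentiableAt.differentiableWithinAt
    have hD2 : DifferentiableAt ℂ g (f z) :=
      ((Complex.differentiableOn_compl_singleton_and_continuousAt_iff hTn).mp
        ⟨hD, hgc z hz⟩).differentiableAt hTn
    have hfz : HasDerivAt f (deriv f z) z :=
      (hf.diff.differentiableAt (isOpen_ball.mem_nhds hz)).hasDerivAt
    have hcomp := hD2.hasDerivAt.comp z hfz
    have hid : HasDerivAt (g ∘ f) 1 z := by
      refine (hasDerivAt_id z).congr_of_eventuallyEq ?_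
      filter_upwards [isOpen_ball.mem_nhds hz] with x hx
      exact hgf x hx
    have h7 := hcomp.unique hid
    rw [h0, mul_zero] at h7
    exact zero_ne_one h7

theorem zp_mem_ball {r θ : ℝ} (hr0 : 0 < r) (hr1 : r < 1) : zp r θ ∈ ball (0 : ℂ) 1 := by
  rw [mem_ball_zero_iff, zp, norm_mul, Complex.norm_exp_ofReal_mul_I, mul_one, Complex.norm_real,
    Real.norm_eq_abs, abs_of_pos hr0]
  exact hr1

theorem om_ne_zero {r θ : ℝ} (hr0 : 0 < r) (hr1 : r < 1) : om r θ ≠ 0 := by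
  unfold om
  have h1 : (1 - (r : ℂ) ^ 2) ≠ 0 := by
    intro h
    have h2 : 1 - r ^ 2 = 0 := by exact_mod_cast h
    nlinarith
  exact mul_ne_zero (neg_ne_zero.mpr (Complex.exp_ne_zero _)) h1

theorem mob_den_ne_zero {r : ℝ} (hr0 : 0 < r) (hr1 : r < 1) {ζ : ℂ} (hζ : ζ ∈ ball (0 : ℂ) 1) :
    1 - (r : ℂ) * ζ ≠ 0 := by
  intro h
  have h1 : (r : ℂ) * ζ = 1 := (sub_eq_zero.mp h).symm
  have h2 := congrArg norm h1
  rw [norm_mul, Complex.norm_real, Real.norm_eq_abs, abs_of_pos hr0, norm_one] at h2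
  rw [mem_ball_zero_iff] at hζ
  nlinarith [norm_nonneg ζ]

theorem mob_mem_ball {r θ : ℝ} (hr0 : 0 < r) (hr1 : r < 1) {ζ : ℂ} (hζ : ζ ∈ ball (0 : ℂ) 1) :
    mob r θ ζ ∈ ball (0 : ℂ) 1 := by
  have hden := mob_den_ne_zero hr0 hr1 hζ
  rw [mem_ball_zero_iff] at hζ ⊢
  unfold mob
  rw [norm_div, norm_mul, Complex.norm_exp_ofReal_mul_I, one_mul,
    div_lt_one (norm_pos_iff.mpr hden)]
  refine lt_of_pow_lt_pow_left₀ 2 (norm_nonneg _) ?_
  rw [← Complex.normSq_eq_norm_sq, ← Complex.normSq_eq_norm_sq]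
  have h1 : Complex.normSq ζ < 1 := by
    rw [Complex.normSq_eq_norm_sq]
    nlinarith [norm_nonneg ζ]
  rw [Complex.normSq_apply] at h1 ⊢
  rw [Complex.normSq_apply]
  simp only [sub_re, ofReal_re, sub_im, ofReal_im, mul_re, mul_im, one_re, one_im]
  have h2 : 0 < 1 - r ^ 2 := by nlinarith
  have h3 : 0 < 1 - (ζ.re * ζ.re + ζ.im * ζ.im) := by linarith
  nlinarith [mul_pos h2 h3]

theorem mob_zero (r θ : ℝ) : mob r θ 0 = zp r θ := by
  unfold mob zp
  simp [mul_comm]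

theorem mob_hasDerivAt {r θ : ℝ} {ζ : ℂ} (hden : 1 - (r : ℂ) * ζ ≠ 0) :
    HasDerivAt (mob r θ) (om r θ / (1 - (r : ℂ) * ζ) ^ 2) ζ := by
  unfold mob om
  have h1 : HasDerivAt (fun ζ : ℂ => exp ((θ : ℂ) * I) * ((r : ℂ) - ζ))
      (exp ((θ : ℂ) * I) * (-1)) ζ := by
    have := ((hasDerivAt_const ζ (r : ℂ)).sub (hasDerivAt_id ζ)).const_mul (exp ((θ : ℂ) * I))
    simpa using this
  have h2 : HasDerivAt (fun ζ : ℂ => 1 - (r : ℂ) * ζ) (-(r : ℂ)) ζ := by
    have := ((hasDerivAt_id ζ).const_mul (r : ℂ)).const_sub (1 : ℂ)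
    rw [mul_one] at this
    exact this
  have h3 := h1.div h2 hden
  refine h3.congr_deriv ?_
  congr 1
  ring

theorem mob_injOn {r θ : ℝ} (hr0 : 0 < r) (hr1 : r < 1) : InjOn (mob r θ) (ball 0 1) := by
  intro a ha b hb hab
  have h1 := mob_den_ne_zero hr0 hr1 ha
  have h2 := mob_den_ne_zero hr0 hr1 hb
  unfold mob at hab
  rw [div_eq_div_iff h1 h2] at hab
  have h3 : exp ((θ : ℂ) * I) * ((1 - (r : ℂ) ^ 2) * (a - b)) = 0 := by
    linear_combination (-1 : ℂ) * hab
  have h4 := (mul_eq_zero.mp h3).resolve_left (Complex.exp_ne_zero _)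
  have h5 : (1 - (r : ℂ) ^ 2) ≠ 0 := by
    intro h
    have h2 : 1 - r ^ 2 = 0 := by exact_mod_cast h
    nlinarith
  exact sub_eq_zero.mp ((mul_eq_zero.mp h4).resolve_left h5)

/-- `T` maps the disc into the disc, injectively, `T 0 = z`. -/
theorem koebe_univ {f : ℂ → ℂ} (hf : Univ f) {r θ : ℝ} (hr0 : 0 < r) (hr1 : r < 1) :
    Univ (koebe f r θ) ∧ koebe f r θ 0 = 0 ∧ deriv (koebe f r θ) 0 = 1 := by
  have hz := zp_mem_ball (θ := θ) hr0 hr1
  have hc : om r θ * deriv f (zp r θ) ≠ 0 :=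
    mul_ne_zero (om_ne_zero hr0 hr1) (deriv_ne_zero_of_univ hf hz)
  have hder : ∀ ζ ∈ ball (0 : ℂ) 1, HasDerivAt (koebe f r θ)
      (deriv f (mob r θ ζ) * (om r θ / (1 - (r : ℂ) * ζ) ^ 2) / (om r θ * deriv f (zp r θ))) ζ := by
    intro ζ hζ
    have h1 : HasDerivAt f (deriv f (mob r θ ζ)) (mob r θ ζ) :=
      (hf.diff.differentiableAt (isOpen_ball.mem_nhds (mob_mem_ball hr0 hr1 hζ))).hasDerivAt
    have h2 := h1.comp ζ (mob_hasDerivAt (θ := θ) (mob_den_ne_zero hr0 hr1 hζ))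
    have h3 := (h2.sub_const (f (zp r θ))).div_const (om r θ * deriv f (zp r θ))
    exact h3
  refine ⟨⟨?_, ?_⟩, ?_, ?_⟩
  · intro ζ hζ
    exact (hder ζ hζ).differentiableAt.differentiableWithinAt
  · intro a ha b hb hab
    unfold koebe at hab
    have h1 : f (mob r θ a) = f (mob r θ b) := by
      have h2 := congrArg (fun t => t * (om r θ * deriv f (zp r θ))) hab
      simp only [div_mul_cancel₀ _ hc] at h2
      exact sub_left_injective h2
    exact mob_injOn hr0 hr1 ha hb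
      (hf.inj (mob_mem_ball hr0 hr1 ha) (mob_mem_ball hr0 hr1 hb) h1)
  · unfold koebe
    rw [mob_zero, sub_self, zero_div]
  · rw [(hder 0 (mem_ball_self one_pos)).deriv, mob_zero, mul_zero, sub_zero, one_pow, div_one,
      mul_comm (deriv f (zp r θ)), div_self hc]

/-- multiplication by the variable shifts the derivatives at the origin -/
theorem iteratedDeriv_var_mul (n : ℕ) {h : ℂ → ℂ} (hh : AnalyticAt ℂ h 0) :
    iteratedDeriv n (fun ζ => ζ * h ζ) 0 = n * iteratedDeriv (n - 1) h 0 := by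
  have h0 : ContDiffAt ℂ n (fun ζ : ℂ => ζ) 0 := contDiffAt_id
  rw [iteratedDeriv_fun_mul h0 hh.contDiffAt]
  rcases Nat.eq_zero_or_pos n with rfl | hn
  · simp
  · rw [Finset.sum_eq_single 1]
    · simp [iteratedDeriv_one]
    · intro i _ hi
      have h1 : iteratedDeriv i (fun x : ℂ => x) 0 = 0 := by
        rw [iteratedDeriv_fun_id]
        rcases i with _ | _ | i
        · simp
        · exact absurd rfl hi
        · simp
      rw [h1]
      ring
    · intro h1
      exact absurd (Finset.mem_range.mpr (by omega)) h1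

/-- the composition of a derivative with the Moebius map -/
noncomputable def GG (f : ℂ → ℂ) (r θ : ℝ) (j : ℕ) (ζ : ℂ) : ℂ := iteratedDeriv j f (mob r θ ζ)

theorem GG_hasDerivAt {f : ℂ → ℂ} (hf : Univ f) {r θ : ℝ} (hr0 : 0 < r) (hr1 : r < 1) (j : ℕ)
    {ζ : ℂ} (hζ : ζ ∈ ball (0 : ℂ) 1) :
    HasDerivAt (GG f r θ j) (GG f r θ (j + 1) ζ * (om r θ / (1 - (r : ℂ) * ζ) ^ 2)) ζ := by
  have han : AnalyticOnNhd ℂ f (ball 0 1) := hf.diff.analyticOnNhd isOpen_ball
  have h1 : AnalyticAt ℂ (iteratedDeriv j f) (mob r θ ζ) := by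
    rw [iteratedDeriv_eq_iterate]
    exact (han _ (mob_mem_ball hr0 hr1 hζ)).iterated_deriv j
  have h2 := h1.differentiableAt.hasDerivAt.comp ζ
    (mob_hasDerivAt (θ := θ) (mob_den_ne_zero hr0 hr1 hζ))
  rw [← iteratedDeriv_succ] at h2
  exact h2

theorem GG_analytic {f : ℂ → ℂ} (hf : Univ f) {r θ : ℝ} (hr0 : 0 < r) (hr1 : r < 1) (j : ℕ) :
    AnalyticAt ℂ (GG f r θ j) 0 := by
  have h1 : DifferentiableOn ℂ (GG f r θ j) (ball 0 1) := fun ζ hζ =>
    (GG_hasDerivAt hf hr0 hr1 j hζ).differentiableAt.differentiableWithinAt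
  exact h1.analyticAt (isOpen_ball.mem_nhds (mem_ball_self one_pos))

theorem GG_rec {f : ℂ → ℂ} (hf : Univ f) {r θ : ℝ} (hr0 : 0 < r) (hr1 : r < 1) (j n : ℕ) :
    iteratedDeriv (n + 1) (GG f r θ j) 0 - 2 * r * (n * iteratedDeriv (n - 1 + 1) (GG f r θ j) 0) +
      (r : ℂ) ^ 2 * (n * ((n - 1 : ℕ) * iteratedDeriv (n - 1 - 1 + 1) (GG f r θ j) 0)) =
      om r θ * iteratedDeriv n (GG f r θ (j + 1)) 0 := by
  set D : ℂ → ℂ := deriv (GG f r θ j) with hD
  have hDan : AnalyticAt ℂ D 0 := (GG_analytic hf hr0 hr1 j).deriv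
  have hzan : AnalyticAt ℂ (fun ζ => ζ * D ζ) 0 := analyticAt_id.mul hDan
  have hzzan : AnalyticAt ℂ (fun ζ => ζ * (ζ * D ζ)) 0 := analyticAt_id.mul hzan
  have h1 : (fun ζ : ℂ => (D ζ + (-(2 * (r : ℂ))) * (ζ * D ζ)) + (r : ℂ) ^ 2 * (ζ * (ζ * D ζ)))
      =ᶠ[nhds 0] (fun ζ => om r θ * GG f r θ (j + 1) ζ) := by
    filter_upwards [isOpen_ball.mem_nhds (mem_ball_self (one_pos : (0 : ℝ) < 1))] with ζ hζ
    have h2 := (GG_hasDerivAt hf hr0 hr1 j (θ := θ) hζ).deriv
    have h3 := mob_den_ne_zero hr0 hr1 hζ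
    rw [← hD] at h2
    rw [h2]
    field_simp
    ring
  have h2 := h1.iteratedDeriv_eq n
  have hA : AnalyticAt ℂ (fun ζ : ℂ => D ζ + (-(2 * (r : ℂ))) * (ζ * D ζ)) 0 :=
    hDan.add (analyticAt_const.mul hzan)
  have hB1 : AnalyticAt ℂ (fun ζ : ℂ => (r : ℂ) ^ 2 * (ζ * (ζ * D ζ))) 0 :=
    analyticAt_const.mul hzzan
  have hB2 : AnalyticAt ℂ (fun ζ : ℂ => (-(2 * (r : ℂ))) * (ζ * D ζ)) 0 :=
    analyticAt_const.mul hzan
  rw [iteratedDeriv_fun_add hA.contDiffAt hB1.contDiffAt,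
    iteratedDeriv_fun_add hDan.contDiffAt hB2.contDiffAt,
    iteratedDeriv_const_mul_field, iteratedDeriv_const_mul_field, iteratedDeriv_const_mul_field,
    iteratedDeriv_var_mul n hzan, iteratedDeriv_var_mul (n - 1) hDan,
    iteratedDeriv_var_mul n hDan] at h2
  rw [iteratedDeriv_succ', iteratedDeriv_succ', iteratedDeriv_succ', ← hD]
  linear_combination h2

/-- the explicit sums -/
noncomputable def SS (r : ℂ) (E : ℕ → ℂ) (m : ℕ) : ℂ :=
  ∑ k ∈ Finset.range (m + 1), (m.choose k : ℂ) * r ^ (m - k) * E k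

theorem SS_choose (m k : ℕ) :
    ((m : ℂ) + 3) * ((m + 2).choose (k + 1) : ℂ) + ((m : ℂ) + 1) * (m.choose (k + 1) : ℂ) =
      2 * ((m : ℂ) + 2) * ((m + 1).choose (k + 1) : ℂ) + ((k : ℂ) + 2) * ((m + 1).choose k : ℂ) := by
  have h1 := Nat.choose_succ_right_eq (m + 1) k
  have h2 := Nat.choose_succ_succ (m + 1) k
  have h3 := Nat.choose_mul_succ_eq m (k + 1)
  have h4 : ((m + 2).choose (k + 1) : ℂ) = ((m + 1).choose k : ℂ) + ((m + 1).choose (k + 1) : ℂ) := by
    exact_mod_cast h2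
  by_cases hk : k ≤ m
  · have h5 : ((m + 1).choose (k + 1) : ℂ) * ((k : ℂ) + 1) =
        ((m + 1).choose k : ℂ) * ((m : ℂ) + 1 - k) := by
      have h6 : (m + 1 - k) + k = m + 1 := by omega
      have h7 : ((m + 1 - k : ℕ) : ℂ) = (m : ℂ) + 1 - k := by
        have := congrArg (fun t : ℕ => (t : ℂ)) h6
        push_cast at this
        linear_combination this
      rw [← h7]
      exact_mod_cast h1
    have h8 : (m.choose (k + 1) : ℂ) * ((m : ℂ) + 1) =
        ((m + 1).choose (k + 1) : ℂ) * ((m : ℂ) - k) := by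
      have h6 : (m + 1 - (k + 1)) + k = m := by omega
      have h7 : ((m + 1 - (k + 1) : ℕ) : ℂ) = (m : ℂ) - k := by
        have := congrArg (fun t : ℕ => (t : ℂ)) h6
        push_cast at this ⊢
        linear_combination this
      rw [← h7]
      exact_mod_cast h3
    rw [h4]
    linear_combination h8 - h5
  · have h5 : m.choose (k + 1) = 0 := Nat.choose_eq_zero_of_lt (by omega)
    have h6 : (m + 1).choose (k + 1) = 0 := Nat.choose_eq_zero_of_lt (by omega)
    rw [h4, h5, h6]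
    by_cases hk2 : k = m + 1
    · subst hk2
      simp
      ring
    · have h7 : (m + 1).choose k = 0 := Nat.choose_eq_zero_of_lt (by omega)
      rw [h7]
      simp

theorem SS_ext (r : ℂ) (E : ℕ → ℂ) (m M : ℕ) (h : m ≤ M) (c : ℂ) :
    c * (r ^ (M - m) * SS r E m) =
      ∑ k ∈ Finset.range (M + 1), c * (m.choose k : ℂ) * r ^ (M - k) * E k := by
  unfold SS
  rw [Finset.mul_sum, Finset.mul_sum]
  symm
  rw [← Finset.sum_subset (Finset.range_mono (show m + 1 ≤ M + 1 by omega))]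
  · refine Finset.sum_congr rfl ?_
    intro k hk
    rw [Finset.mem_range] at hk
    have h1 : M - k = (M - m) + (m - k) := by omega
    rw [h1, pow_add]
    ring
  · intro k _ hk
    rw [Finset.mem_range] at hk
    have h1 : m.choose k = 0 := Nat.choose_eq_zero_of_lt (by omega)
    rw [h1]
    simp

theorem SS_rec (r : ℂ) (E : ℕ → ℂ) (m : ℕ) :
    ((m : ℂ) + 3) * SS r E (m + 2) = 2 * r * ((m : ℂ) + 2) * SS r E (m + 1) -
      r ^ 2 * ((m : ℂ) + 1) * SS r E m + SS r (fun k => ((k : ℂ) + 2) * E (k + 1)) (m + 1) := by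
  have h1 := SS_ext r E (m + 2) (m + 2) le_rfl ((m : ℂ) + 3)
  have h2 := SS_ext r E (m + 1) (m + 2) (by omega) (2 * ((m : ℂ) + 2))
  have h3 := SS_ext r E m (m + 2) (by omega) ((m : ℂ) + 1)
  rw [show m + 2 - (m + 2) = 0 by omega, pow_zero, one_mul] at h1
  rw [show m + 2 - (m + 1) = 1 by omega, pow_one] at h2
  rw [show m + 2 - m = 2 by omega] at h3
  have h4 : SS r (fun k => ((k : ℂ) + 2) * E (k + 1)) (m + 1) =
      ∑ k ∈ Finset.range (m + 2), ((k : ℂ) + 2) * ((m + 1).choose k : ℂ) *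
        r ^ (m + 2 - (k + 1)) * E (k + 1) := by
    unfold SS
    refine Finset.sum_congr rfl ?_
    intro k _
    rw [show m + 2 - (k + 1) = m + 1 - k by omega]
    ring
  have h5 : ((m : ℂ) + 3) * SS r E (m + 2) + r ^ 2 * ((m : ℂ) + 1) * SS r E m =
      2 * r * ((m : ℂ) + 2) * SS r E (m + 1) +
        SS r (fun k => ((k : ℂ) + 2) * E (k + 1)) (m + 1) := by
    have e1 : r ^ 2 * ((m : ℂ) + 1) * SS r E m = ((m : ℂ) + 1) * (r ^ 2 * SS r E m) := by ring
    have e2 : 2 * r * ((m : ℂ) + 2) * SS r E (m + 1) =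
        2 * ((m : ℂ) + 2) * (r * SS r E (m + 1)) := by ring
    rw [e1, e2, h1, h2, h3, h4, Finset.sum_range_succ' _ (m + 2), Finset.sum_range_succ' _ (m + 2),
      Finset.sum_range_succ' _ (m + 2)]
    have h6 : ∀ k ∈ Finset.range (m + 2),
        ((m : ℂ) + 3) * ((m + 2).choose (k + 1) : ℂ) * r ^ (m + 2 - (k + 1)) * E (k + 1) +
        ((m : ℂ) + 1) * (m.choose (k + 1) : ℂ) * r ^ (m + 2 - (k + 1)) * E (k + 1) =
        2 * ((m : ℂ) + 2) * ((m + 1).choose (k + 1) : ℂ) * r ^ (m + 2 - (k + 1)) * E (k + 1) +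
        ((k : ℂ) + 2) * ((m + 1).choose k : ℂ) * r ^ (m + 2 - (k + 1)) * E (k + 1) := by
      intro k _
      have := SS_choose m k
      linear_combination (r ^ (m + 2 - (k + 1)) * E (k + 1)) * this
    have h7 := Finset.sum_congr rfl h6
    rw [Finset.sum_add_distrib, Finset.sum_add_distrib] at h7
    simp only [Nat.choose_zero_right, Nat.cast_one, mul_one, Nat.sub_zero]
    linear_combination h7
  linear_combination h5

/-- the building blocks of the coefficients -/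
noncomputable def EE (f : ℂ → ℂ) (r θ : ℝ) (j k : ℕ) : ℂ :=
  om r θ ^ (k + 1) * (iteratedDeriv (j + (k + 1)) f (zp r θ) / ((k + 1).factorial : ℂ))

theorem EE_shift (f : ℂ → ℂ) (r θ : ℝ) (j k : ℕ) :
    om r θ * EE f r θ (j + 1) k = ((k : ℂ) + 2) * EE f r θ j (k + 1) := by
  unfold EE
  rw [show j + 1 + (k + 1) = j + (k + 1 + 1) by omega, Nat.factorial_succ (k + 1)]
  have h1 : ((k + 1).factorial : ℂ) ≠ 0 := by exact_mod_cast Nat.factorial_ne_zero _
  have h2 : ((k : ℂ) + 2) ≠ 0 := by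
    have : ((k + 2 : ℕ) : ℂ) ≠ 0 := by exact_mod_cast (by omega : k + 2 ≠ 0)
    push_cast at this
    exact this
  push_cast
  have h3 : ((k : ℂ) + 1 + 1) = (k : ℂ) + 2 := by ring
  rw [h3]
  field_simp
  ring

theorem tc_GG {f : ℂ → ℂ} (hf : Univ f) {r θ : ℝ} (hr0 : 0 < r) (hr1 : r < 1) (m : ℕ) :
    (∀ j, iteratedDeriv (m + 1) (GG f r θ j) 0 =
      ((m + 1).factorial : ℂ) * SS r (EE f r θ j) m) ∧
    (∀ j, iteratedDeriv (m + 2) (GG f r θ j) 0 =
      ((m + 2).factorial : ℂ) * SS r (EE f r θ j) (m + 1)) := by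
  have base : ∀ j, iteratedDeriv 1 (GG f r θ j) 0 = ((1).factorial : ℂ) * SS r (EE f r θ j) 0 := by
    intro j
    have h1 := GG_rec hf hr0 hr1 (θ := θ) j 0
    simp only [Nat.cast_zero, zero_mul, mul_zero, sub_zero, add_zero, zero_add] at h1
    rw [h1, iteratedDeriv_zero]
    unfold SS EE GG
    simp [mob_zero]
  induction m with
  | zero =>
    refine ⟨base, ?_⟩
    intro j
    have h1 := GG_rec hf hr0 hr1 (θ := θ) j 1
    simp only [Nat.cast_one, one_mul, Nat.sub_self, Nat.cast_zero, zero_mul, mul_zero, add_zero,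
      zero_add] at h1
    rw [base j, base (j + 1)] at h1
    have h2 : iteratedDeriv (0 + 2) (GG f r θ j) 0 = iteratedDeriv (1 + 1) (GG f r θ j) 0 := rfl
    rw [h2]
    have h3 : om r θ * SS r (EE f r θ (j + 1)) 0 = 2 * EE f r θ j 1 := by
      have := EE_shift f r θ j 0
      unfold SS
      simp
      rw [this]
      simp
    have h4 : SS r (EE f r θ j) 0 = EE f r θ j 0 := by
      unfold SS
      simp
    have h5 : SS r (EE f r θ j) (0 + 1) = r * EE f r θ j 0 + EE f r θ j 1 := by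
      unfold SS
      rw [Finset.sum_range_succ, Finset.sum_range_one]
      simp
    have h6 : ((1).factorial : ℂ) = 1 := by simp
    have h7 : ((0 + 2).factorial : ℂ) = 2 := by
      norm_num [Nat.factorial]
    rw [h6, one_mul, one_mul, h3, h4] at h1
    rw [h7, h5]
    linear_combination h1
  | succ m ih =>
    refine ⟨ih.2, ?_⟩
    intro j
    have h1 := GG_rec hf hr0 hr1 (θ := θ) j (m + 2)
    rw [show m + 2 - 1 + 1 = m + 2 by omega, show m + 2 - 1 - 1 + 1 = m + 1 by omega,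
      ih.2 j, ih.1 j, ih.2 (j + 1)] at h1
    have h2 := SS_rec r (EE f r θ j) m
    have h3 : SS r (fun k => ((k : ℂ) + 2) * EE f r θ j (k + 1)) (m + 1) =
        om r θ * SS r (EE f r θ (j + 1)) (m + 1) := by
      unfold SS
      rw [Finset.mul_sum]
      refine Finset.sum_congr rfl ?_
      intro k _
      change ((m + 1).choose k : ℂ) * (r : ℂ) ^ (m + 1 - k) *
        (((k : ℂ) + 2) * EE f r θ j (k + 1)) = _
      rw [← EE_shift]
      ring
    rw [h3] at h2
    have h4 : ((m + 1 + 2).factorial : ℂ) = ((m : ℂ) + 3) * ((m + 2).factorial : ℂ) := by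
      rw [show m + 1 + 2 = (m + 2) + 1 by omega, Nat.factorial_succ]
      push_cast
      ring
    have h5 : ((m + 2).factorial : ℂ) = ((m : ℂ) + 2) * ((m + 1).factorial : ℂ) := by
      rw [show m + 2 = (m + 1) + 1 by omega, Nat.factorial_succ]
      push_cast
      ring
    rw [show m + 1 + 2 = m + 2 + 1 by omega] at *
    rw [show m + 2 - 1 = m + 1 by omega] at h1
    push_cast at h1
    rw [h4]
    have h6 : m + 1 + 1 = m + 2 := by omega
    rw [h6]
    rw [h5] at h1 ⊢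
    linear_combination h1 - ((m : ℂ) + 2) * ((m + 1).factorial : ℂ) * h2

/-
PROOF.  `T ζ = z + ω ζ / (1 - r ζ)`, `T' ζ = ω / (1 - r ζ)^2`.  For `j : ℕ` let
`G_j ζ = f^{(j)}(T ζ)` (holomorphic on the disc) and `c_n^j = tc G_j n`.  Then
`(1 - r ζ)^2 G_j' = ω G_{j+1}`, i.e.
`(n+1) c_{n+1}^j - 2 r n c_n^j + r^2 (n-1) c_{n-1}^j = ω c_n^{j+1}` (for `n ≥ 1`; for `n = 0`:
`c_1^j = ω c_0^{j+1}`), `c_0^j = f^{(j)}(z)`.  Claim, by induction on `n ≥ 1` for all `j`:
`c_n^j = ∑_{k=1}^{n} C(n-1,k-1) r^{n-k} ω^k f^{(j+k)}(z) / k!`.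
Then `tc (koebe f r θ) n = c_n^0 / (ω f' z) = ak f n r θ`.
-/
theorem tc_koebe {f : ℂ → ℂ} (hf : Univ f) {r θ : ℝ} (hr0 : 0 < r) (hr1 : r < 1) (n : ℕ)
    (hn : 1 ≤ n) :
    tc (koebe f r θ) n = ak f n r θ := by
  obtain ⟨m, rfl⟩ : ∃ m, n = m + 1 := ⟨n - 1, by omega⟩
  have h1 := (tc_GG hf hr0 hr1 (θ := θ) m).1 0
  have hz := zp_mem_ball (θ := θ) hr0 hr1
  have hw := om_ne_zero (θ := θ) hr0 hr1
  have hd := deriv_ne_zero_of_univ hf hz
  have h2 : iteratedDeriv (m + 1) (koebe f r θ) 0 =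
      iteratedDeriv (m + 1) (GG f r θ 0) 0 / (om r θ * deriv f (zp r θ)) := by
    have h3 : koebe f r θ = fun ζ => (GG f r θ 0 ζ - f (zp r θ)) / (om r θ * deriv f (zp r θ)) := by
      funext ζ
      unfold koebe GG
      rw [iteratedDeriv_zero]
    rw [h3, iteratedDeriv_div_const, iteratedDeriv_succ', iteratedDeriv_succ']
    congr 2
    funext ζ
    rw [deriv_sub_const]
  unfold tc ak
  rw [h2, h1]
  have h4 : ((m + 1).factorial : ℂ) ≠ 0 := by exact_mod_cast Nat.factorial_ne_zero _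
  have h5 : ((m + 1).factorial : ℂ) * SS r (EE f r θ 0) m / (om r θ * deriv f (zp r θ)) /
      ((m + 1).factorial : ℂ) = SS r (EE f r θ 0) m / (om r θ * deriv f (zp r θ)) := by
    field_simp
  rw [h5]
  unfold SS
  rw [Finset.sum_div]
  refine Finset.sum_congr rfl ?_
  intro k _
  unfold EE bk
  rw [show m + 1 - 1 = m by omega, show k + 1 - 1 = k by omega, Nat.zero_add]
  have h6 : ((k + 1).factorial : ℂ) ≠ 0 := by exact_mod_cast Nat.factorial_ne_zero _
  field_simp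
  ring

end Vale.Agent.Lib.P142
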