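import Vale.Agent.Lib.P142.Defs
import Vale.Agent.Lib.P142.KoebeTC

/-!
# P142: from integral means to the statements about Brennan's conjecture
-/

open Complex MeasureTheory Set Metric Filter

namespace Vale.Agent.Lib.P142

/-- an injective holomorphic function on an open set has non-vanishing derivative -/
private theorem fin_deriv_ne_zero {W : Set ℂ} (hW : IsOpen W) {φ : ℂ → ℂ}
    (hφ : DifferentiableOn ℂ φ W) (hi : InjOn φ W) {z : ℂ} (hz : z ∈ W) : deriv φ z ≠ 0 := by
  obtain ⟨ε, hε, hball⟩ := Metric.isOpen_iff.1 hW z hz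
  have hmaps : ∀ w ∈ ball (0 : ℂ) 1, z + (ε : ℂ) * w ∈ W := by
    intro w hw
    apply hball
    rw [mem_ball_zero_iff] at hw
    rw [mem_ball, dist_eq_norm, add_sub_cancel_left, norm_mul, Complex.norm_real,
      Real.norm_of_nonneg hε.le]
    nlinarith
  have hd : ∀ w : ℂ, HasDerivAt (fun w : ℂ => z + (ε : ℂ) * w) (ε : ℂ) w := by
    intro w
    simpa using ((hasDerivAt_id w).const_mul (ε : ℂ)).const_add z
  have hU : Univ (fun w => φ (z + (ε : ℂ) * w)) := by
    refine ⟨?_, ?_⟩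
    · intro w hw
      exact ((hφ.differentiableAt (hW.mem_nhds (hmaps w hw))).comp w
        (hd w).differentiableAt).differentiableWithinAt
    · intro a ha b hb hab
      have h1 := hi (hmaps a ha) (hmaps b hb) hab
      have h2 : (ε : ℂ) ≠ 0 := by exact_mod_cast hε.ne'
      exact mul_left_cancel₀ h2 (add_left_cancel h1)
  have h0 := deriv_ne_zero_of_univ hU (z := 0) (mem_ball_self one_pos)
  have h1 : HasDerivAt φ (deriv φ z) (z + (ε : ℂ) * 0) := by
    rw [mul_zero, add_zero]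
    exact (hφ.differentiableAt (hW.mem_nhds hz)).hasDerivAt
  have h2 := (h1.comp (0 : ℂ) (hd 0)).deriv
  intro h3
  apply h0
  change deriv (φ ∘ fun w => z + (ε : ℂ) * w) 0 = 0
  rw [h2, h3, zero_mul]

private theorem fin_continuousOn {f : ℂ → ℂ} (hf : Univ f) (t : ℝ) :
    ContinuousOn (fun z => ‖deriv f z‖ ^ t) (ball 0 1) := by
  have h1 : ContinuousOn (deriv f) (ball 0 1) := (hf.diff.deriv isOpen_ball).continuousOn
  exact h1.norm.rpow_const fun z hz => Or.inl (norm_ne_zero_iff.2 (deriv_ne_zero_of_univ hf hz))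

private theorem fin_zp_mem {r : ℝ} (hr : 0 ≤ r) (hr1 : r < 1) (φ : ℝ) : zp r φ ∈ ball (0 : ℂ) 1 := by
  rw [mem_ball_zero_iff]
  unfold zp
  rw [norm_mul, norm_exp_ofReal_mul_I, mul_one, Complex.norm_real, Real.norm_of_nonneg hr]
  exact hr1

private theorem fin_cont_theta {f : ℂ → ℂ} (hf : Univ f) (t : ℝ) {r : ℝ} (hr : 0 ≤ r)
    (hr1 : r < 1) : Continuous fun θ => ‖deriv f (zp r θ)‖ ^ t := by
  refine (fin_continuousOn hf t).comp_continuous ?_ (fin_zp_mem hr hr1)
  unfold zp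
  fun_prop

private theorem fin_periodic (f : ℂ → ℂ) (t r : ℝ) :
    Function.Periodic (fun θ => ‖deriv f (zp r θ)‖ ^ t) (2 * Real.pi) := by
  intro θ
  have h : zp r (θ + 2 * Real.pi) = zp r θ := by
    unfold zp
    congr 1
    push_cast
    rw [add_mul, Complex.exp_add, Complex.exp_two_pi_mul_I, mul_one]
  simp only [h]

private theorem fin_shift (f : ℂ → ℂ) (t r : ℝ) :
    ∫ θ in (-Real.pi)..Real.pi, ‖deriv f (zp r θ)‖ ^ t =
      ∫ θ in (0 : ℝ)..2 * Real.pi, ‖deriv f (zp r θ)‖ ^ t := by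
  have h := (fin_periodic f t r).intervalIntegral_add_eq (-Real.pi) 0
  rw [zero_add] at h
  rw [← h]
  congr 1
  ring

private theorem fin_base {f : ℂ → ℂ} (hf : Univ f) {t0 β : ℝ} (hβ : β < 1)
    (h : ∃ C r0 : ℝ, 0 < r0 ∧ r0 < 1 ∧ ∀ r : ℝ, r0 ≤ r → r < 1 →
      ∫ θ in (0 : ℝ)..2 * Real.pi, ‖deriv f (zp r θ)‖ ^ t0 ≤ C * (1 - r) ^ (-β)) :
    IntegrableOn (fun z => ‖deriv f z‖ ^ t0) (ball 0 1) volume := by
  obtain ⟨C, r0, hr0, hr1, h⟩ := h
  have hmeas : Measurable fun z => ‖deriv f z‖ ^ t0 := (measurable_deriv f).norm.pow_const t0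
  have hsplit : ball (0 : ℂ) 1 ⊆ closedBall 0 r0 ∪ {z | r0 < ‖z‖ ∧ ‖z‖ < 1} := by
    intro z hz
    rw [mem_ball_zero_iff] at hz
    rcases le_or_gt ‖z‖ r0 with h1 | h1
    · left
      rwa [mem_closedBall_zero_iff]
    · right
      exact ⟨h1, hz⟩
  refine IntegrableOn.mono_set ?_ hsplit
  refine IntegrableOn.union ?_ ?_
  · exact ((fin_continuousOn hf t0).mono (closedBall_subset_ball hr1)).integrableOn_compact
      (isCompact_closedBall 0 r0)
  -- the annulus
  set A : Set ℂ := {z | r0 < ‖z‖ ∧ ‖z‖ < 1} with hA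
  have hAm : MeasurableSet A :=
    (measurableSet_lt measurable_const measurable_norm).inter
      (measurableSet_lt measurable_norm measurable_const)
  refine ⟨hmeas.aestronglyMeasurable, ?_⟩
  rw [hasFiniteIntegral_iff_ofReal (Filter.Eventually.of_forall fun z => by positivity),
    ← lintegral_indicator hAm, ← Complex.lintegral_comp_polarCoord_symm]
  set G : ℂ → ENNReal := A.indicator fun z => ENNReal.ofReal (‖deriv f z‖ ^ t0) with hG
  have hGm : Measurable G := hmeas.ennreal_ofReal.indicator hAm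
  have hsymm : ∀ p : ℝ × ℝ, Complex.polarCoord.symm p = zp p.1 p.2 := by
    intro p
    rw [Complex.polarCoord_symm_apply, zp, Complex.exp_mul_I]
    push_cast
    rfl
  have hzpm : Measurable fun p : ℝ × ℝ => zp p.1 p.2 := by
    unfold zp
    fun_prop
  have hint : Measurable fun p : ℝ × ℝ => ENNReal.ofReal p.1 • G (Complex.polarCoord.symm p) := by
    simp only [hsymm, smul_eq_mul]
    exact measurable_fst.ennreal_ofReal.mul (hGm.comp hzpm)
  change ∫⁻ p in Set.Ioi (0 : ℝ) ×ˢ Set.Ioo (-Real.pi) Real.pi,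
    ENNReal.ofReal p.1 • G (Complex.polarCoord.symm p) < ⊤
  rw [Measure.volume_eq_prod, ← Measure.prod_restrict, lintegral_prod _ hint.aemeasurable]
  have hbound : ∀ r : ℝ, ∫⁻ θ in Set.Ioo (-Real.pi) Real.pi,
      ENNReal.ofReal (r, θ).1 • G (Complex.polarCoord.symm (r, θ)) ≤
      (Set.Ioo r0 1).indicator (fun r => ENNReal.ofReal (C * (1 - r) ^ (-β))) r := by
    intro r
    by_cases hr : r ∈ Set.Ioo r0 1
    · have hr' : 0 ≤ r := hr0.le.trans hr.1.le
      rw [indicator_of_mem hr]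
      have h1 : ∀ θ : ℝ, ENNReal.ofReal (r, θ).1 • G (Complex.polarCoord.symm (r, θ)) ≤
          ENNReal.ofReal (‖deriv f (zp r θ)‖ ^ t0) := by
        intro θ
        rw [hsymm, smul_eq_mul]
        calc ENNReal.ofReal r * G (zp r θ) ≤ 1 * ENNReal.ofReal (‖deriv f (zp r θ)‖ ^ t0) := by
              refine mul_le_mul' ?_ ?_
              · rw [← ENNReal.ofReal_one]
                exact ENNReal.ofReal_le_ofReal hr.2.le
              · exact indicator_le_self _ _ _
          _ = _ := one_mul _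
      have hpi : -Real.pi ≤ Real.pi := by linarith [Real.pi_pos]
      have hic : IntegrableOn (fun θ => ‖deriv f (zp r θ)‖ ^ t0) (Set.Ioo (-Real.pi) Real.pi)
          volume :=
        ((fin_cont_theta hf t0 hr' hr.2).integrableOn_Icc).mono_set Ioo_subset_Icc_self
      calc ∫⁻ θ in Set.Ioo (-Real.pi) Real.pi,
            ENNReal.ofReal (r, θ).1 • G (Complex.polarCoord.symm (r, θ))
          ≤ ∫⁻ θ in Set.Ioo (-Real.pi) Real.pi, ENNReal.ofReal (‖deriv f (zp r θ)‖ ^ t0) :=
            lintegral_mono h1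
        _ = ENNReal.ofReal (∫ θ in Set.Ioo (-Real.pi) Real.pi, ‖deriv f (zp r θ)‖ ^ t0) :=
            (ofReal_integral_eq_lintegral_ofReal hic
              (Filter.Eventually.of_forall fun θ => by positivity)).symm
        _ ≤ _ := by
            refine ENNReal.ofReal_le_ofReal ?_
            rw [← integral_Ioc_eq_integral_Ioo, ← intervalIntegral.integral_of_le hpi, fin_shift]
            exact h r hr.1.le hr.2
    · rw [indicator_of_notMem hr]
      refine le_of_eq ?_
      have h1 : ∀ θ ∈ Set.Ioo (-Real.pi) Real.pi,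
          ENNReal.ofReal (r, θ).1 • G (Complex.polarCoord.symm (r, θ)) = 0 := by
        intro θ _
        rcases le_or_gt r 0 with h0 | h0
        · simp [ENNReal.ofReal_of_nonpos h0]
        · have h2 : G (Complex.polarCoord.symm (r, θ)) = 0 := by
            rw [hsymm, hG]
            refine indicator_of_notMem ?_ _
            intro h3
            apply hr
            have h4 : ‖zp r θ‖ = r := by
              unfold zp
              rw [norm_mul, norm_exp_ofReal_mul_I, mul_one, Complex.norm_real,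
                Real.norm_of_nonneg h0.le]
            have h5 : r0 < ‖zp r θ‖ ∧ ‖zp r θ‖ < 1 := h3
            rw [h4] at h5
            exact h5
          rw [h2, smul_zero]
      rw [setLIntegral_congr_fun measurableSet_Ioo h1]
      simp
  refine lt_of_le_of_lt (lintegral_mono hbound) ?_
  refine lt_of_le_of_lt (setLIntegral_le_lintegral _ _) ?_
  rw [lintegral_indicator measurableSet_Ioo]
  have hI : IntegrableOn (fun r : ℝ => C * (1 - r) ^ (-β)) (Set.Ioo r0 1) volume := by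
    refine Integrable.const_mul ?_ C
    have h1 : IntervalIntegrable (fun x : ℝ => x ^ (-β)) volume 0 (1 - r0) :=
      intervalIntegral.intervalIntegrable_rpow' (by linarith)
    have h2 := (h1.comp_sub_left 1).symm
    have h3 : IntervalIntegrable (fun x : ℝ => (1 - x) ^ (-β)) volume r0 1 := by
      simpa using h2
    rw [intervalIntegrable_iff_integrableOn_Ioo_of_le hr1.le] at h3
    exact h3
  exact hI.lintegral_lt_top

/-- integral means bound with `β < 1` implies area integrability, for all exponents between -/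
theorem integrable_of_growth {f : ℂ → ℂ} (hf : Univ f) {t0 β : ℝ} (ht0 : t0 < 0) (hβ : β < 1)
    (h : ∃ C r0 : ℝ, 0 < r0 ∧ r0 < 1 ∧ ∀ r : ℝ, r0 ≤ r → r < 1 →
      ∫ θ in (0 : ℝ)..2 * Real.pi, ‖deriv f (zp r θ)‖ ^ t0 ≤ C * (1 - r) ^ (-β))
    {t : ℝ} (ht1 : t0 ≤ t) (ht2 : t ≤ 0) :
    IntegrableOn (fun z => ‖deriv f z‖ ^ t) (ball 0 1) volume := by
  have h0 := fin_base hf hβ h
  have h1 : IntegrableOn (fun z : ℂ => 1 + ‖deriv f z‖ ^ t0) (ball 0 1) volume :=
    (integrableOn_const (measure_ball_lt_top.ne)).add h0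
  refine Integrable.mono' h1
    ((measurable_deriv f).norm.pow_const t).aestronglyMeasurable.restrict ?_
  refine (ae_restrict_iff' measurableSet_ball).2 (Filter.Eventually.of_forall fun z hz => ?_)
  have h2 : 0 < ‖deriv f z‖ := norm_pos_iff.2 (deriv_ne_zero_of_univ hf hz)
  rw [Real.norm_of_nonneg (by positivity)]
  rcases le_total 1 ‖deriv f z‖ with h3 | h3
  · have h4 := Real.rpow_le_one_of_one_le_of_nonpos h3 ht2
    have h5 : 0 ≤ ‖deriv f z‖ ^ t0 := by positivity
    linarith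
  · have h4 := Real.rpow_le_rpow_of_exponent_ge h2 h3 ht1
    linarith

/-- the same on the image side: `φ : W → 𝔻` conformal, `s = 2 - t`. -/
theorem integrable_domain {W : Set ℂ} (hW : IsOpen W) {φ : ℂ → ℂ} (hφ : DifferentiableOn ℂ φ W)
    (hb : BijOn φ W (ball 0 1)) {t : ℝ}
    (h : ∀ f : ℂ → ℂ, Univ f → IntegrableOn (fun z => ‖deriv f z‖ ^ t) (ball 0 1) volume) :
    IntegrableOn (fun z => ‖deriv φ z‖ ^ (2 - t)) W volume := by
  set f : ℂ → ℂ := Function.invFunOn φ W with hf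
  have hfφ : ∀ w ∈ W, f (φ w) = w := fun w hw => hb.injOn.leftInvOn_invFunOn hw
  have hmem : ∀ z ∈ ball (0 : ℂ) 1, f z ∈ W ∧ φ (f z) = z := by
    intro z hz
    obtain ⟨w, hw, rfl⟩ := hb.surjOn hz
    rw [hfφ w hw]
    exact ⟨hw, rfl⟩
  have hder : ∀ z ∈ ball (0 : ℂ) 1, HasDerivAt f (deriv φ (f z))⁻¹ z := by
    intro z hz
    obtain ⟨h1, h2⟩ := hmem z hz
    have h3 : HasStrictDerivAt φ (deriv φ (f z)) (f z) :=
      (hφ.analyticAt (hW.mem_nhds h1)).hasStrictDerivAt
    have h4 := h3.to_local_left_inverse (fin_deriv_ne_zero hW hφ hb.injOn h1)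
      (g := f) (Filter.eventually_of_mem (hW.mem_nhds h1) hfφ)
    rw [h2] at h4
    exact h4.hasDerivAt
  have hU : Univ f := by
    refine ⟨fun z hz => (hder z hz).differentiableAt.differentiableWithinAt, ?_⟩
    intro a ha b hb' hab
    rw [← (hmem a ha).2, ← (hmem b hb').2, hab]
  have himg : f '' ball 0 1 = W := by
    ext w
    constructor
    · rintro ⟨z, hz, rfl⟩
      exact (hmem z hz).1
    · intro hw
      exact ⟨φ w, hb.mapsTo hw, hfφ w hw⟩
  have hfd : ∀ z ∈ ball (0 : ℂ) 1, HasFDerivWithinAt f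
      (((ContinuousLinearMap.toSpanSingleton ℂ (deriv f z)).restrictScalars ℝ)) (ball 0 1) z := by
    intro z hz
    have h1 : HasDerivAt f (deriv f z) z := (hder z hz).differentiableAt.hasDerivAt
    exact (h1.hasFDerivAt.restrictScalars ℝ).hasFDerivWithinAt
  rw [← himg, integrableOn_image_iff_integrableOn_abs_det_fderiv_smul volume measurableSet_ball
    hfd hU.inj]
  refine (h f hU).congr_fun ?_ measurableSet_ball
  intro z hz
  have h1 := (hder z hz).deriv
  have h2 : deriv φ (f z) ≠ 0 := fin_deriv_ne_zero hW hφ hb.injOn (hmem z hz).1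
  have h3 : deriv f z ≠ 0 := by rw [h1]; exact inv_ne_zero h2
  have h4 : (((ContinuousLinearMap.toSpanSingleton ℂ (deriv f z)).restrictScalars ℝ) :
      ℂ →L[ℝ] ℂ).det = ‖deriv f z‖ ^ 2 := by
    simp [ContinuousLinearMap.det, LinearMap.det_restrictScalars, Algebra.norm_complex_eq,
      Complex.normSq_eq_norm_sq]
  have h5 : ‖deriv φ (f z)‖ = ‖deriv f z‖⁻¹ := by
    rw [h1, norm_inv, inv_inv]
  have h6 : 0 < ‖deriv f z‖ := norm_pos_iff.2 h3
  simp only [smul_eq_mul]
  rw [h4, abs_of_nonneg (by positivity), h5, Real.inv_rpow h6.le, ← Real.rpow_neg h6.le,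
    ← Real.rpow_natCast, ← Real.rpow_add h6]
  congr 1
  push_cast
  ring

/-- the exponent `β_f(t)` of the integral means, as in the problem -/
noncomputable def betaExp (f : ℂ → ℂ) (t : ℝ) : ℝ :=
  limsup (fun r : ℝ =>
    Real.log ((2 * Real.pi)⁻¹ * ∫ θ in (-Real.pi)..Real.pi, ‖deriv f (zp r θ)‖ ^ t) /
      Real.log (1 / (1 - r))) (nhdsWithin 1 (Iio 1))

/-- the integral means are bounded from below (mean value property of `(f')^t`) -/
private theorem fin_mean_lower {f : ℂ → ℂ} (hf : Univ f) (t : ℝ) :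
    ∃ c : ℝ, 0 < c ∧ ∀ r : ℝ, 0 < r → r < 1 →
      c ≤ (2 * Real.pi)⁻¹ * ∫ θ in (0 : ℝ)..2 * Real.pi, ‖deriv f (zp r θ)‖ ^ t := by
  have hd1 : DifferentiableOn ℂ (deriv f) (ball 0 1) := hf.diff.deriv isOpen_ball
  have hd2 : DifferentiableOn ℂ (deriv (deriv f)) (ball 0 1) := hd1.deriv isOpen_ball
  have hne : ∀ z ∈ ball (0 : ℂ) 1, deriv f z ≠ 0 := fun z hz => deriv_ne_zero_of_univ hf hz
  obtain ⟨H, hH⟩ := (hd2.div hd1 hne).isExactOn_ball
  -- `f' exp (-H)` is constant
  have hconst : ∀ z ∈ ball (0 : ℂ) 1, deriv f z * exp (-H z) = deriv f 0 * exp (-H 0) := by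
    have hder : ∀ z ∈ ball (0 : ℂ) 1, HasDerivAt (fun z => deriv f z * exp (-H z)) 0 z := by
      intro z hz
      have h1 : HasDerivAt (deriv f) (deriv (deriv f) z) z :=
        (hd1.differentiableAt (isOpen_ball.mem_nhds hz)).hasDerivAt
      have h2 := (hH z hz).neg.cexp
      refine (h1.mul h2).congr_deriv ?_
      have h3 := hne z hz
      simp only [Pi.div_apply]
      field_simp
      ring
    intro z hz
    refine isOpen_ball.is_const_of_deriv_eq_zero (convex_ball (0 : ℂ) 1).isPreconnected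
      (fun z hz => (hder z hz).differentiableAt.differentiableWithinAt)
      (fun z hz => (hder z hz).deriv) hz (mem_ball_self one_pos)
  set K : ℝ := ‖deriv f 0 * exp (-H 0)‖ with hK
  have hKpos : 0 < K := norm_pos_iff.2
    (mul_ne_zero (hne 0 (mem_ball_self one_pos)) (exp_ne_zero _))
  have hval : ∀ z ∈ ball (0 : ℂ) 1, ‖deriv f z‖ ^ t = K ^ t * ‖exp ((t : ℂ) * H z)‖ := by
    intro z hz
    have h1 : deriv f z = (deriv f 0 * exp (-H 0)) * exp (H z) := by
      rw [← hconst z hz, mul_assoc, ← Complex.exp_add, neg_add_cancel, Complex.exp_zero, mul_one]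
    rw [h1, norm_mul, ← hK, Real.mul_rpow hKpos.le (norm_nonneg _), Complex.norm_exp,
      Complex.norm_exp, ← Real.exp_mul]
    congr 2
    simp [mul_comm]
  have hHd : DifferentiableOn ℂ (fun z => exp ((t : ℂ) * H z)) (ball 0 1) := fun z hz =>
    ((hH z hz).differentiableAt.const_mul (t : ℂ)).cexp.differentiableWithinAt
  refine ⟨K ^ t * ‖exp ((t : ℂ) * H 0)‖,
    mul_pos (Real.rpow_pos_of_pos hKpos _) (norm_pos_iff.2 (exp_ne_zero _)), ?_⟩
  intro r hr hr1
  have hcl : closedBall (0 : ℂ) r ⊆ ball 0 1 := closedBall_subset_ball hr1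
  have hmean := (hHd.mono hcl).circleIntegral_one_div_sub_center_pow_smul hr 0
  rw [circleIntegral] at hmean
  have h2 : ∀ φ : ℝ, deriv (circleMap 0 r) φ • (1 / (circleMap 0 r φ - 0) ^ (0 + 1)) •
      exp ((t : ℂ) * H (circleMap 0 r φ)) = I * exp ((t : ℂ) * H (zp r φ)) := by
    intro φ
    have h3 : circleMap 0 r φ = zp r φ := by simp [circleMap, zp]
    have h4 : zp r φ ≠ 0 := by
      unfold zp
      exact mul_ne_zero (by exact_mod_cast hr.ne') (exp_ne_zero _)
    rw [deriv_circleMap, h3, sub_zero]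
    simp only [smul_eq_mul, zero_add, pow_one]
    field_simp
  rw [intervalIntegral.integral_congr (fun φ _ => h2 φ), intervalIntegral.integral_const_mul]
    at hmean
  have h5 : ∫ φ in (0 : ℝ)..2 * Real.pi, exp ((t : ℂ) * H (zp r φ))
      = 2 * Real.pi * exp ((t : ℂ) * H 0) := by
    refine mul_left_cancel₀ I_ne_zero ?_
    rw [hmean]
    simp only [Nat.factorial_zero, Nat.cast_one, div_one, iteratedDeriv_zero, smul_eq_mul]
    ring
  have hpi : (0 : ℝ) ≤ 2 * Real.pi := by positivity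
  have hpi' : (0 : ℝ) < 2 * Real.pi := by positivity
  have h6 : ‖∫ φ in (0 : ℝ)..2 * Real.pi, exp ((t : ℂ) * H (zp r φ))‖ ≤
      ∫ φ in (0 : ℝ)..2 * Real.pi, ‖exp ((t : ℂ) * H (zp r φ))‖ :=
    intervalIntegral.norm_integral_le_integral_norm hpi
  rw [h5, norm_mul] at h6
  have h7 : ‖(2 * (Real.pi : ℂ))‖ = 2 * Real.pi := by
    rw [norm_mul, Complex.norm_real, Real.norm_of_nonneg Real.pi_pos.le]
    norm_num
  rw [h7] at h6
  have h8 : ∫ θ in (0 : ℝ)..2 * Real.pi, ‖deriv f (zp r θ)‖ ^ t =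
      K ^ t * ∫ φ in (0 : ℝ)..2 * Real.pi, ‖exp ((t : ℂ) * H (zp r φ))‖ := by
    rw [← intervalIntegral.integral_const_mul]
    exact intervalIntegral.integral_congr fun φ _ => hval _ (fin_zp_mem hr.le hr1 φ)
  rw [h8]
  have hKt : 0 ≤ K ^ t := by positivity
  calc K ^ t * ‖exp ((t : ℂ) * H 0)‖
      = (2 * Real.pi)⁻¹ * (K ^ t * (2 * Real.pi * ‖exp ((t : ℂ) * H 0)‖)) := by
        field_simp
    _ ≤ _ := by
        refine mul_le_mul_of_nonneg_left (mul_le_mul_of_nonneg_left h6 hKt) (by positivity)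

theorem betaExp_le_of_growth {f : ℂ → ℂ} (hf : Univ f) {t β : ℝ}
    (h : ∃ C r0 : ℝ, 0 < r0 ∧ r0 < 1 ∧ ∀ r : ℝ, r0 ≤ r → r < 1 →
      ∫ θ in (0 : ℝ)..2 * Real.pi, ‖deriv f (zp r θ)‖ ^ t ≤ C * (1 - r) ^ (-β)) :
    betaExp f t ≤ β := by
  obtain ⟨C, r0, hr0, hr1, h⟩ := h
  obtain ⟨c, hc, hlow⟩ := fin_mean_lower hf t
  have hpi : (0 : ℝ) < (2 * Real.pi)⁻¹ := by positivity
  -- `C` is positive
  have hCpos : 0 < (2 * Real.pi)⁻¹ * C := by
    have h1 := h r0 le_rfl hr1
    have h2 := hlow r0 hr0 hr1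
    have h3 : 0 < (1 - r0) ^ (-β) := Real.rpow_pos_of_pos (by linarith) _
    have h4 : c ≤ (2 * Real.pi)⁻¹ * (C * (1 - r0) ^ (-β)) :=
      h2.trans (mul_le_mul_of_nonneg_left h1 hpi.le)
    by_contra hcon
    have h5 : (2 * Real.pi)⁻¹ * C * (1 - r0) ^ (-β) ≤ 0 :=
      mul_nonpos_of_nonpos_of_nonneg (not_lt.1 hcon) h3.le
    rw [mul_assoc] at h5
    linarith
  -- the logarithm tends to infinity
  have hlog : Tendsto (fun r : ℝ => Real.log (1 / (1 - r))) (nhdsWithin 1 (Iio 1)) atTop := by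
    refine Real.tendsto_log_atTop.comp ?_
    have h1 : Tendsto (fun r : ℝ => 1 - r) (nhdsWithin 1 (Iio 1)) (nhdsWithin 0 (Ioi 0)) := by
      refine tendsto_nhdsWithin_of_tendsto_nhds_of_eventually_within _ ?_ ?_
      · have h2 : Tendsto (fun r : ℝ => 1 - r) (nhds 1) (nhds (1 - 1)) :=
          (continuous_const.sub continuous_id).tendsto 1
        rw [sub_self] at h2
        exact h2.mono_left nhdsWithin_le_nhds
      · filter_upwards [self_mem_nhdsWithin] with r hr
        exact sub_pos.2 (mem_Iio.1 hr)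
    simpa only [one_div, Function.comp_def] using tendsto_inv_nhdsGT_zero.comp h1
  have hev : ∀ᶠ r in nhdsWithin (1 : ℝ) (Iio 1), r0 < r ∧ r < 1 :=
    Ioo_mem_nhdsLT hr1
  have hup : ∀ᶠ r in nhdsWithin (1 : ℝ) (Iio 1),
      Real.log ((2 * Real.pi)⁻¹ * ∫ θ in (-Real.pi)..Real.pi, ‖deriv f (zp r θ)‖ ^ t) /
        Real.log (1 / (1 - r)) ≤ Real.log ((2 * Real.pi)⁻¹ * C) / Real.log (1 / (1 - r)) + β := by
    filter_upwards [hev, hlog.eventually_gt_atTop 0] with r hr hL
    have h1 := h r hr.1.le hr.2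
    have h2 := hlow r (hr0.trans hr.1) hr.2
    have h3 : 0 < (1 - r) := by linarith [hr.2]
    have h4 : 0 < (1 - r) ^ (-β) := Real.rpow_pos_of_pos h3 _
    have h5 : (2 * Real.pi)⁻¹ * ∫ θ in (0 : ℝ)..2 * Real.pi, ‖deriv f (zp r θ)‖ ^ t ≤
        ((2 * Real.pi)⁻¹ * C) * (1 - r) ^ (-β) := by
      rw [mul_assoc]
      exact mul_le_mul_of_nonneg_left h1 hpi.le
    have h6 := Real.log_le_log (hc.trans_le h2) h5
    rw [Real.log_mul hCpos.ne' h4.ne', Real.log_rpow h3] at h6
    have h7 : Real.log (1 / (1 - r)) = -Real.log (1 - r) := by rw [one_div, Real.log_inv]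
    rw [fin_shift, div_add' _ _ _ hL.ne']
    refine div_le_div_of_nonneg_right ?_ hL.le
    rw [h7]
    linarith
  have hlo : ∀ᶠ r in nhdsWithin (1 : ℝ) (Iio 1), Real.log c / Real.log (1 / (1 - r)) ≤
      Real.log ((2 * Real.pi)⁻¹ * ∫ θ in (-Real.pi)..Real.pi, ‖deriv f (zp r θ)‖ ^ t) /
        Real.log (1 / (1 - r)) := by
    filter_upwards [hev, hlog.eventually_gt_atTop 0] with r hr hL
    refine div_le_div_of_nonneg_right ?_ hL.le
    rw [fin_shift]
    exact Real.log_le_log hc (hlow r (hr0.trans hr.1) hr.2)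
  have hlim1 : Tendsto (fun r : ℝ => Real.log ((2 * Real.pi)⁻¹ * C) / Real.log (1 / (1 - r)) + β)
      (nhdsWithin 1 (Iio 1)) (nhds β) := by
    have := (hlog.const_div_atTop (Real.log ((2 * Real.pi)⁻¹ * C))).add_const β
    rwa [zero_add] at this
  have hlim2 : Tendsto (fun r : ℝ => Real.log c / Real.log (1 / (1 - r)))
      (nhdsWithin 1 (Iio 1)) (nhds 0) := hlog.const_div_atTop _
  have hne : (nhdsWithin (1 : ℝ) (Iio 1)).NeBot := inferInstance
  have hcob : IsCoboundedUnder (· ≤ ·) (nhdsWithin (1 : ℝ) (Iio 1)) (fun r : ℝ =>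
      Real.log ((2 * Real.pi)⁻¹ * ∫ θ in (-Real.pi)..Real.pi, ‖deriv f (zp r θ)‖ ^ t) /
        Real.log (1 / (1 - r))) := by
    refine IsBoundedUnder.isCoboundedUnder_le ?_
    refine ⟨-1, ?_⟩
    rw [eventually_map]
    filter_upwards [hlo, hlim2.eventually (lt_mem_nhds (by norm_num : (-1 : ℝ) < 0))] with r h1 h2
    exact h2.le.trans h1
  unfold betaExp
  rw [← hlim1.limsup_eq]
  exact limsup_le_limsup hup hcob hlim1.isBoundedUnder_le

end Vale.Agent.Lib.P142
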