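import Vale.Agent.Lib.P142.Defs

/-!
# P142: Parseval step
-/

open Complex MeasureTheory Set Metric

namespace Vale.Agent.Lib.P142

private theorem contDiffAt_zero {P : ℂ → ℂ} (hP : DifferentiableOn ℂ P (ball 0 1)) (n : ℕ) :
    ContDiffAt ℂ n P 0 :=
  (hP.analyticAt (isOpen_ball.mem_nhds (mem_ball_self one_pos))).contDiffAt

/-- Cauchy product for Taylor coefficients. -/
theorem tc_mul {P Q : ℂ → ℂ} (hP : DifferentiableOn ℂ P (ball 0 1))
    (hQ : DifferentiableOn ℂ Q (ball 0 1)) (n : ℕ) :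
    tc (fun z => P z * Q z) n = ∑ k ∈ Finset.range (n + 1), tc P k * tc Q (n - k) := by
  unfold tc
  rw [iteratedDeriv_fun_mul (contDiffAt_zero hP n) (contDiffAt_zero hQ n), Finset.sum_div]
  refine Finset.sum_congr rfl fun k hk => ?_
  have hk' : k ≤ n := Nat.lt_succ_iff.1 (Finset.mem_range.1 hk)
  have h1 : (n.factorial : ℂ) = (n.choose k : ℂ) * (k.factorial : ℂ) * ((n - k).factorial : ℂ) := by
    exact_mod_cast (Nat.choose_mul_factorial_mul_factorial hk').symm
  have h2 : (k.factorial : ℂ) ≠ 0 := by exact_mod_cast Nat.factorial_ne_zero k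
  have h3 : ((n - k).factorial : ℂ) ≠ 0 := by exact_mod_cast Nat.factorial_ne_zero (n - k)
  have h4 : (n.choose k : ℂ) ≠ 0 := by exact_mod_cast (Nat.choose_pos hk').ne'
  rw [h1]
  field_simp

/-- Taylor coefficients of `z * P z`. -/
theorem tc_id_mul {P : ℂ → ℂ} (hP : DifferentiableOn ℂ P (ball 0 1)) (n : ℕ) :
    tc (fun z => z * P z) (n + 1) = tc P n := by
  have h := tc_mul (P := fun z : ℂ => z) (Q := P) differentiableOn_id hP (n + 1)
  rw [h, Finset.sum_eq_single 1]
  · simp [tc]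
  · intro k _ hk
    have : tc (fun z : ℂ => z) k = 0 := by
      unfold tc
      rw [iteratedDeriv_fun_id_zero, if_neg hk, zero_div]
    rw [this, zero_mul]
  · intro h1
    exact absurd (Finset.mem_range.2 (by omega)) h1

/-- Taylor coefficients only depend on the function near `0`. -/
theorem tc_congr {P Q : ℂ → ℂ} (h : ∀ z ∈ ball (0 : ℂ) 1, P z = Q z) (n : ℕ) :
    tc P n = tc Q n := by
  unfold tc
  rw [Filter.EventuallyEq.iteratedDeriv_eq n
    (Filter.eventually_of_mem (isOpen_ball.mem_nhds (mem_ball_self one_pos)) h)]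

private theorem tc_deriv (P : ℂ → ℂ) (n : ℕ) :
    tc (deriv P) n = ((n : ℂ) + 1) * tc P (n + 1) := by
  unfold tc
  rw [iteratedDeriv_succ', Nat.factorial_succ]
  have h2 : (n.factorial : ℂ) ≠ 0 := by exact_mod_cast Nat.factorial_ne_zero n
  have h3 : (n : ℂ) + 1 ≠ 0 := by exact_mod_cast Nat.succ_ne_zero n
  push_cast
  field_simp

private theorem tc_sub_smul {P Q : ℂ → ℂ} (hP : DifferentiableOn ℂ P (ball 0 1))
    (hQ : DifferentiableOn ℂ Q (ball 0 1)) (s : ℂ) (n : ℕ) :
    tc (fun z => P z - s * Q z) n = tc P n - s * tc Q n := by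
  unfold tc
  rw [iteratedDeriv_fun_sub (contDiffAt_zero hP n)
    (contDiffAt_const.mul (contDiffAt_zero hQ n)), iteratedDeriv_const_mul_field]
  ring

private theorem tc_euler {P : ℂ → ℂ} (hP : DifferentiableOn ℂ P (ball 0 1)) (s : ℂ) (n : ℕ) :
    tc (fun z => P z - s * z * deriv P z) n = (1 - s * (n : ℂ)) * tc P n := by
  have hd : DifferentiableOn ℂ (deriv P) (ball 0 1) := hP.deriv isOpen_ball
  have h1 : tc (fun z => P z - s * z * deriv P z) n = tc P n - s * tc (fun z => z * deriv P z) n := by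
    have hQ : DifferentiableOn ℂ (fun z : ℂ => z * deriv P z) (ball 0 1) :=
      differentiableOn_id.mul hd
    rw [← tc_sub_smul hP hQ s n]
    exact tc_congr (fun z _ => by ring) n
  rw [h1]
  rcases n with _ | n
  · have : tc (fun z => z * deriv P z) 0 = 0 := by simp [tc]
    rw [this]
    simp
  · rw [tc_id_mul hd, tc_deriv]
    push_cast
    ring

private theorem zp_ne {r : ℝ} (hr : 0 < r) (φ : ℝ) : zp r φ ≠ 0 := by
  unfold zp
  exact mul_ne_zero (by exact_mod_cast hr.ne') (exp_ne_zero _)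

private theorem norm_zp {r : ℝ} (hr : 0 < r) (φ : ℝ) : ‖zp r φ‖ = r := by
  unfold zp
  rw [norm_mul, norm_exp_ofReal_mul_I, mul_one, Complex.norm_real, Real.norm_of_nonneg hr.le]

private theorem continuous_zp (r : ℝ) : Continuous (zp r) := by
  unfold zp
  fun_prop

private theorem zp_mem {r : ℝ} (hr : 0 < r) (hr1 : r < 1) (φ : ℝ) : zp r φ ∈ ball (0 : ℂ) 1 := by
  rw [mem_ball_zero_iff, norm_zp hr]
  exact hr1

private theorem cauchy_coeff {G : ℂ → ℂ} (hG : DifferentiableOn ℂ G (ball 0 1)) {r : ℝ}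
    (hr : 0 < r) (hr1 : r < 1) (n : ℕ) :
    ∫ φ in (0 : ℝ)..2 * Real.pi, G (zp r φ) / zp r φ ^ n = 2 * Real.pi * tc G n := by
  have h1 := (hG.mono (closedBall_subset_ball hr1)).circleIntegral_one_div_sub_center_pow_smul hr n
  rw [circleIntegral] at h1
  have h2 : ∀ φ : ℝ, deriv (circleMap 0 r) φ • (1 / (circleMap 0 r φ - 0) ^ (n + 1)) •
      G (circleMap 0 r φ) = I * (G (zp r φ) / zp r φ ^ n) := by
    intro φ
    have h3 : circleMap 0 r φ = zp r φ := by simp [circleMap, zp]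
    rw [deriv_circleMap, h3, sub_zero]
    have h4 := zp_ne hr φ
    simp only [smul_eq_mul]
    field_simp
    ring
  rw [intervalIntegral.integral_congr (fun φ _ => h2 φ), intervalIntegral.integral_const_mul] at h1
  have h5 : I * ∫ φ in (0 : ℝ)..2 * Real.pi, G (zp r φ) / zp r φ ^ n
      = I * (2 * Real.pi * tc G n) := by
    rw [h1]
    unfold tc
    simp only [smul_eq_mul]
    ring
  exact mul_left_cancel₀ I_ne_zero h5

private theorem hasSum_parseval {P G : ℂ → ℂ} (hP : DifferentiableOn ℂ P (ball 0 1))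
    (hG : DifferentiableOn ℂ G (ball 0 1)) {r : ℝ} (hr : 0 < r) (hr1 : r < 1) :
    HasSum (fun n : ℕ => 2 * Real.pi * ((r : ℂ) ^ (2 * n) * (tc G n * (starRingEnd ℂ) (tc P n))))
      (∫ φ in (0 : ℝ)..2 * Real.pi, G (zp r φ) * (starRingEnd ℂ) (P (zp r φ))) := by
  have hGc : Continuous fun φ => G (zp r φ) :=
    hG.continuousOn.comp_continuous (continuous_zp r) (zp_mem hr hr1)
  have hser : ∀ z ∈ ball (0 : ℂ) 1, HasSum (fun n : ℕ => tc P n * z ^ n) (P z) := by
    intro z hz
    have h1 := Complex.hasSum_taylorSeries_on_ball hP hz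
    refine h1.congr_fun ?_ |> fun h => h
    intro n
    simp only [smul_eq_mul, sub_zero, tc]
    ring
  have hsum : Summable fun n : ℕ => ‖tc P n‖ * r ^ n := by
    have h1 := (hser (zp r 0) (zp_mem hr hr1 0)).summable.norm
    refine h1.congr fun n => ?_
    rw [norm_mul, norm_pow, norm_zp hr]
  obtain ⟨M, hM⟩ : ∃ M, ∀ φ ∈ Icc (0 : ℝ) (2 * Real.pi), ‖G (zp r φ)‖ ≤ M :=
    isCompact_Icc.exists_bound_of_continuousOn hGc.continuousOn
  have hpi : (0 : ℝ) ≤ 2 * Real.pi := by positivity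
  have key := intervalIntegral.hasSum_integral_of_dominated_convergence
    (a := 0) (b := 2 * Real.pi) (μ := volume)
    (F := fun (n : ℕ) (φ : ℝ) => G (zp r φ) * (starRingEnd ℂ) (tc P n * zp r φ ^ n))
    (f := fun φ => G (zp r φ) * (starRingEnd ℂ) (P (zp r φ)))
    (fun (n : ℕ) (_ : ℝ) => M * (‖tc P n‖ * r ^ n))
    (fun n => (hGc.mul (Complex.continuous_conj.comp
      (continuous_const.mul ((continuous_zp r).pow n)))).aestronglyMeasurable)
    (fun n => Filter.Eventually.of_forall fun φ hφ => ?_)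
    (Filter.Eventually.of_forall fun φ _ => hsum.mul_left M)
    intervalIntegrable_const
    (Filter.Eventually.of_forall fun φ _ => ?_)
  · refine key.congr_fun ?_ |> fun h => h
    intro n
    have h3 : ∀ φ : ℝ, G (zp r φ) * (starRingEnd ℂ) (tc P n * zp r φ ^ n)
        = ((starRingEnd ℂ) (tc P n) * (r : ℂ) ^ (2 * n)) * (G (zp r φ) / zp r φ ^ n) := by
      intro φ
      have h4 := zp_ne hr φ
      have h5 : (starRingEnd ℂ) (zp r φ) * zp r φ = (r : ℂ) ^ 2 := by
        rw [mul_comm, Complex.mul_conj, Complex.normSq_eq_norm_sq, norm_zp hr]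
        push_cast
        ring
      have h6 : (starRingEnd ℂ) (zp r φ) ^ n * zp r φ ^ n = (r : ℂ) ^ (2 * n) := by
        rw [← mul_pow, h5, ← pow_mul]
      rw [map_mul, map_pow, ← h6]
      field_simp
    rw [intervalIntegral.integral_congr (fun φ _ => h3 φ), intervalIntegral.integral_const_mul,
      cauchy_coeff hG hr hr1]
    ring
  · rw [uIoc_of_le hpi] at hφ
    rw [norm_mul, RCLike.norm_conj, norm_mul, norm_pow, norm_zp hr]
    exact mul_le_mul_of_nonneg_right (hM φ ⟨hφ.1.le, hφ.2⟩) (by positivity)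
  · have h1 := hser (zp r φ) (zp_mem hr hr1 φ)
    exact ((Complex.hasSum_conj'.2 h1)).mul_left _

/-
PROOF.  `P z = ∑ p_n z^n`, `P z - s z P' z = ∑ (1 - s n) p_n z^n` with `p_n = tc P n`, absolutely
convergent for `|z| = r < 1`.  Orthogonality on the circle gives
`(1/2π) ∫ Re((P - s z P') conj P) dφ = ∑ (1 - s n) |p_n|^2 r^{2n}`.  By hypothesis this is `≥ 0`;
for `s ≥ 1` every term with `n ≥ 1` is `≤ 0`, so dropping the terms `n > N` keeps `≥ 0`; let `r → 1`.
-/
theorem parseval_trunc {P : ℂ → ℂ} (hP : DifferentiableOn ℂ P (ball 0 1)) {s : ℝ} (hs : 1 ≤ s)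
    (h : ∀ r : ℝ, 0 < r → r < 1 →
      0 ≤ ∫ φ in (0 : ℝ)..2 * Real.pi,
        ((P (zp r φ) - (s : ℂ) * zp r φ * deriv P (zp r φ)) * (starRingEnd ℂ) (P (zp r φ))).re)
    (N : ℕ) :
    ∑ n ∈ Finset.range (N + 1), (s * (n : ℝ) - 1) * ‖tc P n‖ ^ 2 ≤ 0 := by
  have hd : DifferentiableOn ℂ (deriv P) (ball 0 1) := hP.deriv isOpen_ball
  have hG : DifferentiableOn ℂ (fun z => P z - (s : ℂ) * z * deriv P z) (ball 0 1) :=
    hP.sub (((differentiableOn_const _).mul differentiableOn_id).mul hd)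
  have main : ∀ r : ℝ, 0 < r → r < 1 →
      ∑ n ∈ Finset.range (N + 1), (s * (n : ℝ) - 1) * ‖tc P n‖ ^ 2 * r ^ (2 * n) ≤ 0 := by
    intro r hr hr1
    have h1 := hasSum_parseval hP hG hr hr1
    have h2 := Complex.hasSum_re h1
    have hint : IntervalIntegrable (fun φ => (fun z => P z - (s : ℂ) * z * deriv P z) (zp r φ) *
        (starRingEnd ℂ) (P (zp r φ))) volume 0 (2 * Real.pi) := by
      refine Continuous.intervalIntegrable ?_ _ _
      exact (hG.continuousOn.comp_continuous (continuous_zp r) (zp_mem hr hr1)).mul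
        (Complex.continuous_conj.comp
          (hP.continuousOn.comp_continuous (continuous_zp r) (zp_mem hr hr1)))
    have h3 := intervalIntegral.intervalIntegral_re hint
    have h4 : (0 : ℝ) ≤ (∫ φ in (0 : ℝ)..2 * Real.pi,
        (fun z => P z - (s : ℂ) * z * deriv P z) (zp r φ) * (starRingEnd ℂ) (P (zp r φ))).re := by
      rw [← RCLike.re_eq_complex_re, ← h3]
      exact h r hr hr1
    have h5 : ∀ n : ℕ, (2 * Real.pi * ((r : ℂ) ^ (2 * n) *
        (tc (fun z => P z - (s : ℂ) * z * deriv P z) n * (starRingEnd ℂ) (tc P n)))).re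
        = -(2 * Real.pi * ((s * (n : ℝ) - 1) * ‖tc P n‖ ^ 2 * r ^ (2 * n))) := by
      intro n
      rw [tc_euler hP, mul_assoc (1 - (s : ℂ) * (n : ℂ)), Complex.mul_conj,
        Complex.normSq_eq_norm_sq]
      have : (2 * (Real.pi : ℂ) * ((r : ℂ) ^ (2 * n) *
          ((1 - (s : ℂ) * (n : ℂ)) * (((‖tc P n‖ ^ 2 : ℝ)) : ℂ))))
          = ((-(2 * Real.pi * ((s * (n : ℝ) - 1) * ‖tc P n‖ ^ 2 * r ^ (2 * n))) : ℝ) : ℂ) := by
        push_cast
        ring
      rw [this, Complex.ofReal_re]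
    have h6 : HasSum (fun n : ℕ => (2 * Real.pi) * ((s * (n : ℝ) - 1) * ‖tc P n‖ ^ 2 * r ^ (2 * n)))
        (-(∫ φ in (0 : ℝ)..2 * Real.pi,
        (fun z => P z - (s : ℂ) * z * deriv P z) (zp r φ) * (starRingEnd ℂ) (P (zp r φ))).re) := by
      have := h2.neg
      refine this.congr_fun ?_ |> fun h => h
      intro n
      rw [h5, neg_neg]
    have h7 : ∑ n ∈ Finset.range (N + 1),
        (2 * Real.pi) * ((s * (n : ℝ) - 1) * ‖tc P n‖ ^ 2 * r ^ (2 * n)) ≤ _ :=
      sum_le_hasSum (Finset.range (N + 1)) (fun n hn => ?_) h6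
    · rw [← Finset.mul_sum] at h7
      have hpi : (0 : ℝ) < 2 * Real.pi := by positivity
      by_contra hcon
      rw [not_le] at hcon
      have := mul_pos hpi hcon
      linarith
    · have hn1 : 1 ≤ n := by
        by_contra h0
        apply hn
        rw [Finset.mem_range]
        omega
      have hn2 : (1 : ℝ) ≤ (n : ℝ) := by exact_mod_cast hn1
      have hn3 : 0 ≤ s * (n : ℝ) - 1 := by nlinarith
      positivity
  have hcont : Continuous fun r : ℝ =>
      ∑ n ∈ Finset.range (N + 1), (s * (n : ℝ) - 1) * ‖tc P n‖ ^ 2 * r ^ (2 * n) := by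
    fun_prop
  have hlim := hcont.continuousWithinAt (s := Iio (1 : ℝ)) (x := 1)
  have hev : ∀ᶠ r in nhdsWithin (1 : ℝ) (Iio 1),
      ∑ n ∈ Finset.range (N + 1), (s * (n : ℝ) - 1) * ‖tc P n‖ ^ 2 * r ^ (2 * n) ≤ 0 := by
    filter_upwards [Ioo_mem_nhdsLT (zero_lt_one' ℝ)] with r hr
    exact main r hr.1 hr.2
  have := le_of_tendsto hlim hev
  simpa using this

end Vale.Agent.Lib.P142
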