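import Vale.Agent.Lib.P142.Circle
import Vale.Agent.Lib.P142.Parseval

/-!
# P142: univalent functions lie in the body
-/

open Complex MeasureTheory Set Metric

namespace Vale.Agent.Lib.P142

/-- holomorphic square root on the disc -/
theorem exists_sqrt {P : ℂ → ℂ} (hP : DifferentiableOn ℂ P (ball 0 1))
    (hne : ∀ z ∈ ball (0 : ℂ) 1, P z ≠ 0) (h0 : P 0 = 1) :
    ∃ Q : ℂ → ℂ, DifferentiableOn ℂ Q (ball 0 1) ∧ Q 0 = 1 ∧
      (∀ z ∈ ball (0 : ℂ) 1, Q z ≠ 0) ∧ ∀ z ∈ ball (0 : ℂ) 1, Q z * Q z = P z := by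
  have hP' : DifferentiableOn ℂ (fun z => deriv P z / P z) (ball 0 1) :=
    (hP.deriv isOpen_ball).div hP hne
  obtain ⟨L, hL0, hL⟩ := (hP'.isExactOn_ball).with_val_at 0 0
  have h0b : (0 : ℂ) ∈ ball (0 : ℂ) 1 := mem_ball_self one_pos
  have hexp : ∀ z ∈ ball (0 : ℂ) 1, exp (L z) = P z := by
    have hd : ∀ z ∈ ball (0 : ℂ) 1, HasDerivAt (fun z => P z * exp (-L z)) 0 z := by
      intro z hz
      have h1 : HasDerivAt P (deriv P z) z :=
        (hP.differentiableAt (isOpen_ball.mem_nhds hz)).hasDerivAt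
      have h2 : HasDerivAt (fun z => P z * exp (-L z))
          (deriv P z * exp (-L z) + P z * (exp (-L z) * -(deriv P z / P z))) z :=
        h1.mul ((hL z hz).neg.cexp)
      have e : P z * (deriv P z / P z) = deriv P z := mul_div_cancel₀ _ (hne z hz)
      have e2 : deriv P z * exp (-L z) + P z * (exp (-L z) * -(deriv P z / P z)) = 0 := by
        linear_combination -exp (-L z) * e
      rw [e2] at h2
      exact h2
    have hc : ∀ z ∈ ball (0 : ℂ) 1, P z * exp (-L z) = P 0 * exp (-L 0) := by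
      intro z hz
      exact isOpen_ball.is_const_of_deriv_eq_zero (convex_ball (0 : ℂ) 1).isPreconnected
        (fun w hw => (hd w hw).differentiableAt.differentiableWithinAt)
        (fun w hw => (hd w hw).deriv) hz h0b
    intro z hz
    have h3 := hc z hz
    rw [hL0, h0, neg_zero, Complex.exp_zero, mul_one, Complex.exp_neg] at h3
    have h4 : exp (L z) ≠ 0 := Complex.exp_ne_zero _
    field_simp at h3
    exact h3.symm
  refine ⟨fun z => exp (L z / 2), ?_, ?_, ?_, ?_⟩
  · intro z hz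
    exact ((hL z hz).differentiableAt.div_const 2).cexp.differentiableWithinAt
  · simp [hL0]
  · intro z _
    exact Complex.exp_ne_zero _
  · intro z hz
    rw [← Complex.exp_add, add_halves]
    exact hexp z hz

theorem zp_mem {r : ℝ} (hr0 : 0 < r) (hr1 : r < 1) (φ : ℝ) : zp r φ ∈ ball (0 : ℂ) 1 := by
  rw [mem_ball_zero_iff]
  unfold zp
  rw [norm_mul, Complex.norm_exp_ofReal_mul_I, mul_one, Complex.norm_real, Real.norm_eq_abs,
    abs_of_pos hr0]
  exact hr1

theorem norm_zp {r : ℝ} (hr0 : 0 < r) (φ : ℝ) : ‖zp r φ‖ = r := by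
  unfold zp
  rw [norm_mul, Complex.norm_exp_ofReal_mul_I, mul_one, Complex.norm_real, Real.norm_eq_abs,
    abs_of_pos hr0]

theorem zp_ne {r : ℝ} (hr0 : 0 < r) (φ : ℝ) : zp r φ ≠ 0 := by
  rw [← norm_pos_iff, norm_zp hr0]; exact hr0

theorem tc_zero' (P : ℂ → ℂ) : tc P 0 = P 0 := by
  simp [tc]

theorem body_of_univ {g : ℂ → ℂ} (hg : Univ g) (h0 : g 0 = 0) (h1 : deriv g 0 = 1) :
    Body (tc g) := by
  have h0b : (0 : ℂ) ∈ ball (0 : ℂ) 1 := mem_ball_self one_pos
  set k : ℂ → ℂ := dslope g 0 with hk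
  have hkd : DifferentiableOn ℂ k (ball 0 1) :=
    (Complex.differentiableOn_dslope (isOpen_ball.mem_nhds h0b)).2 hg.diff
  have hk0 : k 0 = 1 := by rw [hk, dslope_same, h1]
  have hgk : ∀ z, g z = z * k z := by
    intro z
    have := sub_smul_dslope g 0 z
    rw [sub_zero, h0, sub_zero, smul_eq_mul] at this
    exact this.symm
  have hkne : ∀ z ∈ ball (0 : ℂ) 1, k z ≠ 0 := by
    intro z hz h
    by_cases hz0 : z = 0
    · rw [hz0, hk0] at h; exact one_ne_zero h
    · have h2 : g z = g 0 := by rw [hgk z, h, mul_zero, h0]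
      exact hz0 (hg.inj hz h0b h2)
  set P : ℂ → ℂ := fun z => (k z)⁻¹ with hPdef
  have hPd : DifferentiableOn ℂ P (ball 0 1) := hkd.inv hkne
  have hPne : ∀ z ∈ ball (0 : ℂ) 1, P z ≠ 0 := fun z hz => inv_ne_zero (hkne z hz)
  have hP0 : P 0 = 1 := by simp [hPdef, hk0]
  obtain ⟨Q, hQd, hQ0, hQne, hQP⟩ := exists_sqrt hPd hPne hP0
  have hkP : ∀ z ∈ ball (0 : ℂ) 1, k z * P z = 1 := fun z hz => mul_inv_cancel₀ (hkne z hz)
  -- derivative formulas
  have hgP : ∀ z ∈ ball (0 : ℂ) 1, g z * P z = z := by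
    intro z hz
    rw [hgk z, mul_assoc, hkP z hz, mul_one]
  have hderivg : ∀ z ∈ ball (0 : ℂ) 1, deriv g z * P z + g z * deriv P z = 1 := by
    intro z hz
    have hgz : HasDerivAt g (deriv g z) z :=
      (hg.diff.differentiableAt (isOpen_ball.mem_nhds hz)).hasDerivAt
    have hPz : HasDerivAt P (deriv P z) z :=
      (hPd.differentiableAt (isOpen_ball.mem_nhds hz)).hasDerivAt
    have h2 : HasDerivAt (fun z => g z * P z) (deriv g z * P z + g z * deriv P z) z :=
      hgz.mul hPz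
    have h3 : HasDerivAt (fun z => g z * P z) 1 z := by
      refine (hasDerivAt_id z).congr_of_eventuallyEq ?_
      filter_upwards [isOpen_ball.mem_nhds hz] with w hw
      exact hgP w hw
    exact h2.unique h3
  have hderivP : ∀ z ∈ ball (0 : ℂ) 1, 2 * (Q z * deriv Q z) = deriv P z := by
    intro z hz
    have hQz : HasDerivAt Q (deriv Q z) z :=
      (hQd.differentiableAt (isOpen_ball.mem_nhds hz)).hasDerivAt
    have h2 : HasDerivAt (fun z => Q z * Q z) (deriv Q z * Q z + Q z * deriv Q z) z :=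
      hQz.mul hQz
    have hPz : HasDerivAt P (deriv P z) z :=
      (hPd.differentiableAt (isOpen_ball.mem_nhds hz)).hasDerivAt
    have h3 : HasDerivAt (fun z => Q z * Q z) (deriv P z) z := by
      refine hPz.congr_of_eventuallyEq ?_
      filter_upwards [isOpen_ball.mem_nhds hz] with w hw
      exact hQP w hw
    rw [← h2.unique h3]; ring
  have key : ∀ z ∈ ball (0 : ℂ) 1, z * deriv g z * P z ^ 2 = z * (P z - z * deriv P z) := by
    intro z hz
    have h2 := hderivg z hz
    have h3 := hgP z hz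
    linear_combination z * P z * h2 - z * deriv P z * h3
  -- pointwise identities on the circle
  have id1 : ∀ r : ℝ, 0 < r → r < 1 → ∀ φ : ℝ,
      (zp r φ * deriv g (zp r φ) * (starRingEnd ℂ) (g (zp r φ))).re *
          (‖g (zp r φ)‖ ^ 2) ^ (-(1 + (1 : ℝ))) =
        (r ^ 2)⁻¹ * ((P (zp r φ) - ((1 : ℝ) : ℂ) * zp r φ * deriv P (zp r φ)) *
          (starRingEnd ℂ) (P (zp r φ))).re := by
    intro r hr0 hr1 φ
    have hz := zp_mem hr0 hr1 φ
    have hz0 := zp_ne hr0 φ
    have hnz := norm_zp hr0 φ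
    set z := zp r φ with hzdef
    have hw := hgP z hz
    have hp := hPne z hz
    have hk1 := key z hz
    have hwne : g z ≠ 0 := by
      intro h; rw [h, zero_mul] at hw; exact hz0 hw.symm
    have hc : (‖g z‖ ^ 2) ^ (-(1 + (1 : ℝ))) = ((‖g z‖ ^ 2) ^ 2)⁻¹ := by
      rw [Real.rpow_neg (by positivity)]
      norm_num
    rw [hc, ← Complex.re_mul_ofReal, ← Complex.re_ofReal_mul]
    congr 1
    push_cast
    rw [← Complex.mul_conj' (g z)]
    have hr2 : (r : ℂ) ^ 2 = z * (starRingEnd ℂ) z := by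
      rw [Complex.mul_conj', hnz]
    rw [hr2]
    have hcw : (starRingEnd ℂ) (g z) * (starRingEnd ℂ) (P z) = (starRingEnd ℂ) z := by
      rw [← map_mul, hw]
    have hcwne : (starRingEnd ℂ) (g z) ≠ 0 := by simpa using hwne
    have hczne : (starRingEnd ℂ) z ≠ 0 := by simpa using hz0
    have e1 : z ^ 2 * deriv g z = (P z - z * deriv P z) * g z ^ 2 := by
      have h5 : z * (z ^ 2 * deriv g z) = z * ((P z - z * deriv P z) * g z ^ 2) := by
        have h6 : (g z * P z) ^ 2 = z ^ 2 := by rw [hw]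
        linear_combination (g z) ^ 2 * hk1 - z * deriv g z * h6
      exact mul_left_cancel₀ hz0 h5
    rw [← div_eq_mul_inv, inv_mul_eq_div, div_eq_div_iff
      (pow_ne_zero 2 (mul_ne_zero hwne hcwne)) (mul_ne_zero hz0 hczne), one_mul]
    linear_combination (starRingEnd ℂ) (g z) * (starRingEnd ℂ) z * e1 -
      (P z - z * deriv P z) * g z ^ 2 * (starRingEnd ℂ) (g z) * hcw
  have id2 : ∀ r : ℝ, 0 < r → r < 1 → ∀ φ : ℝ,
      (zp r φ * deriv g (zp r φ) * (starRingEnd ℂ) (g (zp r φ))).re *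
          (‖g (zp r φ)‖ ^ 2) ^ (-(1 + (1 / 2 : ℝ))) =
        r⁻¹ * ((Q (zp r φ) - ((2 : ℝ) : ℂ) * zp r φ * deriv Q (zp r φ)) *
          (starRingEnd ℂ) (Q (zp r φ))).re := by
    intro r hr0 hr1 φ
    have hz := zp_mem hr0 hr1 φ
    have hz0 := zp_ne hr0 φ
    have hnz := norm_zp hr0 φ
    set z := zp r φ with hzdef
    have hw := hgP z hz
    have hp := hPne z hz
    have hq := hQne z hz
    have hqp := hQP z hz
    have hdq := hderivP z hz
    have hk1 := key z hz
    have hwq : g z * (Q z * Q z) = z := by rw [hqp, hw]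
    have hnorm : ‖g z‖ * ‖Q z‖ ^ 2 = r := by
      have h5 := congrArg norm hwq
      rw [norm_mul, norm_mul, hnz] at h5
      rw [← h5]; ring
    have hqpos : 0 < ‖Q z‖ := norm_pos_iff.2 hq
    have hwpos : 0 < ‖g z‖ := by
      rw [norm_pos_iff]; intro h; rw [h, zero_mul] at hw; exact hz0 hw.symm
    have hc : (‖g z‖ ^ 2) ^ (-(1 + (1 / 2 : ℝ))) = (‖Q z‖ ^ 2) ^ 3 * (r ^ 3)⁻¹ := by
      have h5 : (‖g z‖ ^ 2) ^ (-(1 + (1 / 2 : ℝ))) = (‖g z‖ ^ 3)⁻¹ := by
        rw [← Real.rpow_natCast, ← Real.rpow_natCast, ← Real.rpow_mul hwpos.le,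
          ← Real.rpow_neg hwpos.le]
        congr 1
        push_cast
        norm_num
      rw [h5, ← hnorm]
      field_simp
    rw [hc, ← Complex.re_mul_ofReal, ← Complex.re_ofReal_mul]
    congr 1
    push_cast
    rw [← Complex.mul_conj' (Q z)]
    have hr2 : (r : ℂ) ^ 2 = z * (starRingEnd ℂ) z := by
      rw [Complex.mul_conj', hnz]
    have hcw : (starRingEnd ℂ) (g z) * ((starRingEnd ℂ) (Q z) * (starRingEnd ℂ) (Q z)) =
        (starRingEnd ℂ) z := by
      rw [← map_mul, ← map_mul, hwq]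
    have hrne : (r : ℂ) ≠ 0 := by exact_mod_cast hr0.ne'
    have e1 : deriv g z * Q z ^ 3 = Q z - 2 * z * deriv Q z := by
      have h5 : (z * Q z) * (deriv g z * Q z ^ 3) = (z * Q z) * (Q z - 2 * z * deriv Q z) := by
        rw [← hqp, ← hdq] at hk1
        linear_combination hk1
      exact mul_left_cancel₀ (mul_ne_zero hz0 hq) h5
    have e2 : z * deriv g z * (starRingEnd ℂ) (g z) * (Q z * (starRingEnd ℂ) (Q z)) ^ 3 =
        (r : ℂ) ^ 2 * ((Q z - 2 * z * deriv Q z) * (starRingEnd ℂ) (Q z)) := by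
      rw [hr2]
      linear_combination z * (starRingEnd ℂ) (Q z) * (starRingEnd ℂ) z * e1 +
        z * deriv g z * Q z ^ 3 * (starRingEnd ℂ) (Q z) * hcw
    have e3 : ((r : ℂ) ^ 3)⁻¹ * (r : ℂ) ^ 2 = (r : ℂ)⁻¹ := by
      field_simp
    rw [← e3]
    linear_combination ((r : ℂ) ^ 3)⁻¹ * e2
  refine ⟨?_, tc P, tc Q, ⟨?_, ?_⟩, ⟨?_, ?_⟩, ?_, ?_⟩
  · simp [tc, h1]
  · rw [tc_zero', hP0]
  · intro n hn
    have h2 := tc_mul hkd hPd n
    have h3 : tc (fun z => k z * P z) n = tc (fun _ => (1 : ℂ)) n := tc_congr hkP n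
    have h4 : tc (fun _ : ℂ => (1 : ℂ)) n = 0 := by
      unfold tc
      have : iteratedDeriv n (fun _ : ℂ => (1 : ℂ)) 0 = 0 := by
        rw [iteratedDeriv_const]
        simp; omega
      rw [this, zero_div]
    rw [h3, h4] at h2
    rw [h2]
    refine Finset.sum_congr rfl fun j _ => ?_
    congr 1
    rw [← tc_id_mul hkd j]
    congr 1
    funext z
    exact hgk z
  · rw [tc_zero', hQ0]
  · intro n
    rw [← tc_mul hQd hQd n]
    exact tc_congr hQP n
  · intro N
    have := parseval_trunc hPd (s := 1) le_rfl (by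
      intro r hr0 hr1
      have h2 := prawitz_circle hg h0 (th := 1) one_pos hr0 hr1
      rw [intervalIntegral.integral_congr (fun φ _ => id1 r hr0 hr1 φ),
        intervalIntegral.integral_const_mul] at h2
      have h3 : 0 < (r ^ 2)⁻¹ := by positivity
      exact nonneg_of_mul_nonneg_right h2 h3) N
    simpa using this
  · intro N
    exact parseval_trunc hQd (s := 2) one_le_two (by
      intro r hr0 hr1
      have h2 := prawitz_circle hg h0 (th := 1 / 2) (by norm_num) hr0 hr1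
      rw [intervalIntegral.integral_congr (fun φ _ => id2 r hr0 hr1 φ),
        intervalIntegral.integral_const_mul] at h2
      have h3 : 0 < r⁻¹ := by positivity
      exact nonneg_of_mul_nonneg_right h2 h3) N

end Vale.Agent.Lib.P142
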