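import Vale.Agent.Lib.P142.KoebeE
import Vale.Agent.Lib.P142.EAlg
import Vale.Agent.Lib.P142.Prawitz

/-!
# P142: a certificate bounds the integral means
-/

open Complex MeasureTheory Set Metric

namespace Vale.Agent.Lib.P142

theorem body_ak {f : ℂ → ℂ} (hf : Univ f) {r θ : ℝ} (hr0 : 0 < r) (hr1 : r < 1) :
    ∃ a : ℕ → ℂ, Body a ∧ ∀ n, 1 ≤ n → a n = ak f n r θ := by
  obtain ⟨h1, h2, h3⟩ := koebe_univ hf (θ := θ) hr0 hr1
  exact ⟨tc (koebe f r θ), body_of_univ h1 h2 h3, fun n hn => tc_koebe hf hr0 hr1 n hn⟩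

/-- the body only sees the coefficients of positive index -/
theorem gr_body_congr {a b : ℕ → ℂ} (ha : Body a) (h : ∀ n, 1 ≤ n → a n = b n) : Body b := by
  obtain ⟨h1, al, q, hinv, hsq, hp1, hp2⟩ := ha
  refine ⟨by rw [← h 1 le_rfl, h1], al, q, ⟨hinv.1, fun n hn => ?_⟩, hsq, hp1, hp2⟩
  rw [← hinv.2 n hn]
  refine Finset.sum_congr rfl fun k _ => ?_
  rw [h (k + 1) (by omega)]

theorem gr_body_ak' {f : ℂ → ℂ} (hf : Univ f) {r θ : ℝ} (hr0 : 0 < r) (hr1 : r < 1) :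
    Body (fun n => ak f n r θ) := by
  obtain ⟨a, ha, h⟩ := body_ak hf (θ := θ) hr0 hr1
  exact gr_body_congr ha h

theorem gr_al_bound {a : ℕ → ℂ} {al q : ℕ → ℂ} (hinv : IsInv a al) (hsq : IsSqrt al q)
    (hp1 : ∀ N, ∑ n ∈ Finset.range (N + 1), ((n : ℝ) - 1) * ‖al n‖ ^ 2 ≤ 0)
    (hp2 : ∀ N, ∑ n ∈ Finset.range (N + 1), (2 * (n : ℝ) - 1) * ‖q n‖ ^ 2 ≤ 0) (n : ℕ) :
    ‖al n‖ ≤ 2 := by
  match n with
  | 0 => rw [hinv.1, norm_one]; norm_num
  | 1 =>
    have h1 := hp2 1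
    rw [Finset.sum_range_succ, Finset.sum_range_one, hsq.1, norm_one] at h1
    have h2 : ‖q 1‖ ≤ 1 := by
      have : ‖q 1‖ ^ 2 ≤ 1 := by
        push_cast at h1
        linarith
      nlinarith [norm_nonneg (q 1)]
    have h3 := hsq.2 1
    rw [Finset.sum_range_succ, Finset.sum_range_one, hsq.1] at h3
    have h4 : al 1 = 2 * q 1 := by
      rw [← h3]
      simp [hsq.1]
      ring
    rw [h4, norm_mul, Complex.norm_ofNat]
    linarith
  | (m + 2) =>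
    have h1 := hp1 (m + 2)
    rw [Finset.sum_range_succ, Finset.sum_range_succ'] at h1
    have h2 : 0 ≤ ∑ k ∈ Finset.range (m + 1), (((k + 1 : ℕ) : ℝ) - 1) * ‖al (k + 1)‖ ^ 2 := by
      refine Finset.sum_nonneg fun k _ => ?_
      have : (0 : ℝ) ≤ ((k + 1 : ℕ) : ℝ) - 1 := by
        push_cast
        have := Nat.cast_nonneg (α := ℝ) k
        linarith
      positivity
    rw [hinv.1, norm_one] at h1
    have h3 : ((m : ℝ) + 1) * ‖al (m + 2)‖ ^ 2 ≤ 1 := by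
      push_cast at h1 h2
      linarith
    have h4 : ‖al (m + 2)‖ ^ 2 ≤ 1 := by
      have h5 : (0 : ℝ) ≤ m := Nat.cast_nonneg m
      nlinarith [sq_nonneg ‖al (m + 2)‖]
    nlinarith [norm_nonneg (al (m + 2))]

theorem gr_body_bounded_aux (n : ℕ) : ∃ B : ℝ, 0 ≤ B ∧ ∀ a : ℕ → ℂ, Body a → ∀ m ≤ n,
    ‖a (m + 1)‖ ≤ B := by
  induction n with
  | zero =>
    refine ⟨1, zero_le_one, fun a ha m hm => ?_⟩
    obtain rfl : m = 0 := by omega
    rw [ha.1, norm_one]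
  | succ n ih =>
    obtain ⟨B, hB0, hB⟩ := ih
    refine ⟨B + (n + 1) * (B * 2), by positivity, fun a ha m hm => ?_⟩
    rcases Nat.lt_or_ge n m with h | h
    · obtain rfl : m = n + 1 := by omega
      have ha' := ha
      obtain ⟨h1, al, q, hinv, hsq, hp1, hp2⟩ := ha
      have h2 := hinv.2 (n + 1) (by omega)
      rw [Finset.sum_range_succ, Nat.sub_self, hinv.1, mul_one] at h2
      have h3 : a (n + 1 + 1) = -∑ k ∈ Finset.range (n + 1), a (k + 1) * al (n + 1 - k) := by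
        linear_combination h2
      rw [h3, norm_neg]
      refine (norm_sum_le _ _).trans ?_
      have h4 : ∑ k ∈ Finset.range (n + 1), ‖a (k + 1) * al (n + 1 - k)‖ ≤
          ∑ _k ∈ Finset.range (n + 1), B * 2 := by
        refine Finset.sum_le_sum fun k hk => ?_
        rw [norm_mul]
        exact mul_le_mul (hB a ha' k (by have := Finset.mem_range.1 hk; omega))
          (gr_al_bound hinv hsq hp1 hp2 _) (norm_nonneg _) hB0
      rw [Finset.sum_const, Finset.card_range, nsmul_eq_mul] at h4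
      push_cast at h4
      linarith
    · have h5 := hB a ha m h
      have h6 : 0 ≤ ((n : ℝ) + 1) * (B * 2) := by positivity
      linarith

/-- boundedness of the coefficients on the body -/
theorem body_bounded (n : ℕ) (hn : 1 ≤ n) : ∃ B : ℝ, ∀ a : ℕ → ℂ, Body a → ‖a n‖ ≤ B := by
  obtain ⟨B, -, hB⟩ := gr_body_bounded_aux (n - 1)
  refine ⟨B, fun a ha => ?_⟩
  have h := hB a ha (n - 1) le_rfl
  rwa [Nat.sub_add_cancel hn] at h

/-- bounded on the body -/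
def BB (g : (ℕ → ℂ) → ℂ) : Prop := ∃ B : ℝ, ∀ a : ℕ → ℂ, Body a → ‖g a‖ ≤ B

theorem BB.const (c : ℂ) : BB (fun _ => c) := ⟨‖c‖, fun _ _ => le_rfl⟩

theorem BB.coef {n : ℕ} (hn : 1 ≤ n) : BB (fun a => a n) := body_bounded n hn

theorem BB.add {g h : (ℕ → ℂ) → ℂ} (hg : BB g) (hh : BB h) : BB (fun a => g a + h a) := by
  obtain ⟨B, hB⟩ := hg
  obtain ⟨C, hC⟩ := hh
  exact ⟨B + C, fun a ha => (norm_add_le _ _).trans (add_le_add (hB a ha) (hC a ha))⟩

theorem BB.sub {g h : (ℕ → ℂ) → ℂ} (hg : BB g) (hh : BB h) : BB (fun a => g a - h a) := by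
  obtain ⟨B, hB⟩ := hg
  obtain ⟨C, hC⟩ := hh
  exact ⟨B + C, fun a ha => (norm_sub_le _ _).trans (add_le_add (hB a ha) (hC a ha))⟩

theorem BB.mul {g h : (ℕ → ℂ) → ℂ} (hg : BB g) (hh : BB h) : BB (fun a => g a * h a) := by
  obtain ⟨B, hB⟩ := hg
  obtain ⟨C, hC⟩ := hh
  refine ⟨|B| * |C|, fun a ha => ?_⟩
  rw [norm_mul]
  exact mul_le_mul ((hB a ha).trans (le_abs_self B)) ((hC a ha).trans (le_abs_self C))
    (norm_nonneg _) (abs_nonneg _)

theorem BB.conj {g : (ℕ → ℂ) → ℂ} (hg : BB g) : BB (fun a => (starRingEnd ℂ) (g a)) := by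
  obtain ⟨B, hB⟩ := hg
  refine ⟨B, fun a ha => ?_⟩
  rw [Complex.norm_conj]
  exact hB a ha

theorem BB.Da (κ : ℝ) {n : ℕ} (hn : 1 ≤ n) : BB (fun a => Da κ a n) :=
  (((BB.const _).mul (BB.coef (by omega))).sub
    (((BB.const 2).mul (BB.coef (by omega))).mul (BB.coef hn))).sub
    ((BB.const _).mul (BB.coef hn))

theorem BB.Sa (κ : ℝ) {n : ℕ} (hn : 1 ≤ n) : BB (fun a => Sa κ a n) := by
  rcases Nat.lt_or_ge 1 n with h | h
  · exact (BB.const _).mul (((BB.const _).mul (BB.coef hn)).sub (BB.coef (by omega)))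
  · obtain rfl : n = 1 := by omega
    refine ⟨0, fun a _ => ?_⟩
    unfold P142.Sa
    simp

theorem BB.mono {l : List ℕ} (hl : ∀ i ∈ l, 1 ≤ i) : BB (fun a => mono a l) := by
  induction l with
  | nil => exact ⟨1, fun a _ => by simp [P142.mono]⟩
  | cons n l ih =>
    have h1 := (BB.coef (hl n List.mem_cons_self)).mul
      (ih fun i hi => hl i (List.mem_cons_of_mem _ hi))
    obtain ⟨B, hB⟩ := h1
    exact ⟨B, fun a ha => by simpa [P142.mono] using hB a ha⟩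

theorem BB.dmono (κ : ℝ) {l : List ℕ} (hl : ∀ i ∈ l, 1 ≤ i) : BB (fun a => dmono κ a l) := by
  induction l with
  | nil => exact ⟨0, fun a _ => by simp [P142.dmono]⟩
  | cons n l ih =>
    have hl' : ∀ i ∈ l, 1 ≤ i := fun i hi => hl i (List.mem_cons_of_mem _ hi)
    have hn := hl n List.mem_cons_self
    exact ((BB.Da κ hn).mul (BB.mono hl')).add ((BB.coef hn).mul (ih hl'))

theorem BB.smono (κ : ℝ) {l : List ℕ} (hl : ∀ i ∈ l, 1 ≤ i) : BB (fun a => smono κ a l) := by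
  induction l with
  | nil => exact ⟨0, fun a _ => by simp [P142.smono]⟩
  | cons n l ih =>
    have hl' : ∀ i ∈ l, 1 ≤ i := fun i hi => hl i (List.mem_cons_of_mem _ hi)
    have hn := hl n List.mem_cons_self
    exact ((BB.Sa κ hn).mul (BB.mono hl')).add ((BB.coef hn).mul (ih hl'))

theorem BB.evF {F : List Term} (hF : ∀ T ∈ F, (∀ i ∈ T.h, 1 ≤ i) ∧ (∀ i ∈ T.k, 1 ≤ i)) :
    BB (fun a => evF a F) := by
  induction F with
  | nil => exact ⟨0, fun a _ => by simp [P142.evF]⟩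
  | cons T F ih =>
    have h1 := hF T List.mem_cons_self
    have h2 := (((BB.const (T.c : ℂ)).mul (BB.mono h1.1)).mul (BB.mono h1.2).conj).add
      (ih fun T' hT' => hF T' (List.mem_cons_of_mem _ hT'))
    obtain ⟨B, hB⟩ := h2
    exact ⟨B, fun a ha => by simpa [P142.evF] using hB a ha⟩

theorem BB.evE (κ : ℝ) {F : List Term} (hF : ∀ T ∈ F, (∀ i ∈ T.h, 1 ≤ i) ∧ (∀ i ∈ T.k, 1 ≤ i)) :
    BB (fun a => evE κ a F) := by
  induction F with
  | nil => exact ⟨0, fun a _ => by simp [P142.evE]⟩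
  | cons T F ih =>
    have h1 := hF T List.mem_cons_self
    have h2 := ((BB.const (T.c : ℂ)).mul
      (((BB.dmono κ h1.1).mul (BB.mono h1.2).conj).add
        ((BB.mono h1.1).mul (BB.smono κ h1.2).conj))).add
      (ih fun T' hT' => hF T' (List.mem_cons_of_mem _ hT'))
    obtain ⟨B, hB⟩ := h2
    exact ⟨B, fun a ha => by simpa [P142.evE] using hB a ha⟩

theorem gr_dmono_affine (κ : ℝ) (a : ℕ → ℂ) (l : List ℕ) :
    dmono κ a l = dmono 1 a l + ((κ : ℂ) - 1) * (dmono 1 a l - dmono 0 a l) := by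
  induction l with
  | nil => simp [dmono]
  | cons n l ih =>
    simp only [dmono, Da]
    rw [ih]
    push_cast
    ring

theorem gr_smono_affine (κ : ℝ) (a : ℕ → ℂ) (l : List ℕ) :
    smono κ a l = smono 1 a l + ((κ : ℂ) - 1) * (smono 1 a l - smono 0 a l) := by
  induction l with
  | nil => simp [smono]
  | cons n l ih =>
    simp only [smono, Sa]
    rw [ih]
    push_cast
    ring

theorem gr_evE_affine (κ : ℝ) (a : ℕ → ℂ) (F : List Term) :
    evE κ a F = evE 1 a F + ((κ : ℂ) - 1) * (evE 1 a F - evE 0 a F) := by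
  induction F with
  | nil => simp [evE]
  | cons T F ih =>
    simp only [evE, List.map_cons, List.sum_cons] at ih ⊢
    rw [ih, gr_dmono_affine κ a T.h, gr_smono_affine κ a T.k]
    simp only [map_add, map_mul, map_sub, Complex.conj_ofReal, map_one]
    ring

theorem gr_evL_affine (t β κ ρ : ℝ) (a : ℕ → ℂ) (F : List Term) :
    evL t β κ ρ a F = evL t β 1 1 a F + ((κ : ℂ) - 1) * (evE 1 a F - evE 0 a F) +
      ((ρ : ℂ) - 1) * (((β : ℂ) - (t : ℂ)) * evF a F) := by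
  unfold evL
  rw [gr_evE_affine κ a F]
  push_cast
  ring

/-
PROOF.  `evL t β κ ρ a F` is affine in `(κ, ρ)`:
`evL t β κ ρ a F = evL t β 1 1 a F + (κ-1) * (evL t β 1 1 a F - evL t β 0 1 a F) + (ρ-1) (β-t) evF a F`
and `evL 1 1`, `evL 0 1`, `evF` are bounded on the body by some `C` (`body_bounded`, induction on
lists; `evF`, `evE` only use indices occurring in `F` plus one).  `kap r - 1 = (1-r)^2/(2r)`.
-/
theorem evL_perturb {t β : ℝ} {F : List Term}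
    (hF : ∀ T ∈ F, (∀ i ∈ T.h, 1 ≤ i) ∧ (∀ i ∈ T.k, 1 ≤ i)) (hC : Cert t β F) :
    ∃ ε r0 : ℝ, 0 < ε ∧ 0 < r0 ∧ r0 < 1 ∧ ∀ r : ℝ, r0 ≤ r → r < 1 → ∀ a : ℕ → ℂ, Body a →
      ε ≤ (evF a F).re ∧ 0 ≤ (evL t β (kap r) r a F).re := by
  obtain ⟨ε, hε, hcert⟩ := hC
  obtain ⟨B1, hB1⟩ := (BB.evE 1 hF).sub (BB.evE 0 hF)
  obtain ⟨B2, hB2⟩ := (BB.const ((β : ℂ) - (t : ℂ))).mul (BB.evF hF)
  obtain ⟨C, hCdef⟩ : ∃ C : ℝ, C = |B1| + |B2| + 1 := ⟨_, rfl⟩
  have hC1 : |B1| ≤ C := by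
    have := abs_nonneg B2
    linarith
  have hC2 : |B2| ≤ C := by
    have := abs_nonneg B1
    linarith
  have hCpos : 0 < C := by
    have := abs_nonneg B1
    have := abs_nonneg B2
    linarith
  have hd : 0 < ε / (2 * C) := by positivity
  refine ⟨ε, max (1 / 2) (1 - ε / (2 * C)), hε, lt_of_lt_of_le (by norm_num) (le_max_left _ _),
    max_lt (by norm_num) (by linarith), fun r hr hr1 a ha => ⟨(hcert a ha).1, ?_⟩⟩
  have hr2 : 1 / 2 ≤ r := (le_max_left _ _).trans hr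
  have hr3 : 1 - ε / (2 * C) ≤ r := (le_max_right _ _).trans hr
  have hrpos : 0 < r := by linarith
  have hk : kap r - 1 = (1 - r) ^ 2 / (2 * r) := by
    unfold kap
    field_simp
    ring
  have hk0 : 0 ≤ kap r - 1 := by
    rw [hk]
    positivity
  have hk1 : kap r - 1 ≤ 1 - r := by
    rw [hk, div_le_iff₀ (by positivity)]
    nlinarith
  rw [gr_evL_affine, add_re, add_re]
  have h1 := (hcert a ha).2
  have h2 : |((((kap r : ℝ) : ℂ) - 1) * (evE 1 a F - evE 0 a F)).re| ≤ (1 - r) * C := by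
    refine (Complex.abs_re_le_norm _).trans ?_
    rw [norm_mul]
    have e1 : ‖((kap r : ℝ) : ℂ) - 1‖ = kap r - 1 := by
      rw [← Complex.ofReal_one, ← Complex.ofReal_sub, Complex.norm_real, Real.norm_eq_abs,
        abs_of_nonneg hk0]
    rw [e1]
    exact mul_le_mul hk1 ((hB1 a ha).trans ((le_abs_self _).trans hC1)) (norm_nonneg _)
      (by linarith)
  have h3 : |(((r : ℂ) - 1) * (((β : ℂ) - (t : ℂ)) * evF a F)).re| ≤ (1 - r) * C := by
    refine (Complex.abs_re_le_norm _).trans ?_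
    rw [norm_mul]
    have e1 : ‖(r : ℂ) - 1‖ = 1 - r := by
      rw [← Complex.ofReal_one, ← Complex.ofReal_sub, Complex.norm_real, Real.norm_eq_abs,
        abs_sub_comm, abs_of_nonneg (by linarith)]
    rw [e1]
    exact mul_le_mul le_rfl ((hB2 a ha).trans ((le_abs_self _).trans hC2)) (norm_nonneg _)
      (by linarith)
  have h4 : 2 * ((1 - r) * C) ≤ ε := by
    have h5 : 1 - r ≤ ε / (2 * C) := by linarith
    rw [le_div_iff₀ (by positivity)] at h5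
    linarith
  have h6 := neg_le_of_abs_le h2
  have h7 := neg_le_of_abs_le h3
  linarith

theorem gr_cont {u : ℝ → ℝ → ℂ} (hu : ContinuousOn (Function.uncurry u) (Ioo (0 : ℝ) 1 ×ˢ univ))
    {r : ℝ} (hr0 : 0 < r) (hr1 : r < 1) : Continuous (u r) :=
  hu.comp_continuous (f := fun θ : ℝ => (r, θ)) (by fun_prop) (fun θ => ⟨⟨hr0, hr1⟩, mem_univ _⟩)

theorem gr_re_integral {u : ℝ → ℂ} (hu : Continuous u) (a b : ℝ) :
    (∫ θ in a..b, u θ).re = ∫ θ in a..b, (u θ).re :=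
  (Complex.reCLM.intervalIntegral_comp_comm (hu.intervalIntegrable a b)).symm

/-
PROOF.  `J(r) = Re ∫ evF(a(r,θ)) W(r,θ) dθ`, `W = |f'|^t (1-r^2)^β`.  By `hasE_evF`, `hasE_ak`,
`hasE_W`, `HasE.mul` and `hasDerivAt_circle`: `J'(r) = -2/(1-r^2) ∫ Re(evL t β (kap r) r a F) W dθ ≤ 0`
for `r ≥ r0`, so `J` is antitone on `[r0,1)`; and `J(r) ≥ ε (1-r^2)^β ∫ |f'|^t dθ`; finally
`(1-r^2)^{-β} ≤ C' (1-r)^{-β}` (`β ≥ 0`: `1-r^2 ≥ 1-r`).  (`evF`, `evL` only see `a n`, `n ≥ 1`...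
note `evL` may see `a 0` through `Sa 1`: but the factor `n-1` kills it.)
-/
theorem growth {t β : ℝ} (hβ : 0 ≤ β) {F : List Term}
    (hF : ∀ T ∈ F, (∀ i ∈ T.h, 1 ≤ i) ∧ (∀ i ∈ T.k, 1 ≤ i)) (hC : Cert t β F)
    {f : ℂ → ℂ} (hf : Univ f) :
    ∃ C r0 : ℝ, 0 < r0 ∧ r0 < 1 ∧ ∀ r : ℝ, r0 ≤ r → r < 1 →
      ∫ θ in (0 : ℝ)..2 * Real.pi, ‖deriv f (zp r θ)‖ ^ t ≤ C * (1 - r) ^ (-β) := by
  obtain ⟨ε, r0, hε, hr00, hr01, hper⟩ := evL_perturb hF hC
  have hE1 := hasE_evF (a := fun n r θ => ak f n r θ) (fun n hn => hasE_ak hf n hn) F hF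
  have hE2 := hasE_W hf t β
  have hE := hE1.mul hE2
  obtain ⟨W, hW⟩ : ∃ W : ℝ → ℝ → ℝ, W = fun r θ => ‖deriv f (zp r θ)‖ ^ t * (1 - r ^ 2) ^ β :=
    ⟨_, rfl⟩
  obtain ⟨U, hU⟩ : ∃ U : ℝ → ℝ → ℂ, U = fun r θ => evF (fun m => ak f m r θ) F *
    ((‖deriv f (zp r θ)‖ ^ t * (1 - r ^ 2) ^ β : ℝ) : ℂ) := ⟨_, rfl⟩
  obtain ⟨V, hV⟩ : ∃ V : ℝ → ℝ → ℂ, V = fun r θ => evE (kap r) (fun m => ak f m r θ) F *
      ((‖deriv f (zp r θ)‖ ^ t * (1 - r ^ 2) ^ β : ℝ) : ℂ) +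
      evF (fun m => ak f m r θ) F * (((t : ℂ) * ak f 2 r θ + ((β : ℂ) - (t : ℂ)) * (r : ℂ)) *
        ((‖deriv f (zp r θ)‖ ^ t * (1 - r ^ 2) ^ β : ℝ) : ℂ)) := ⟨_, rfl⟩
  have hWpos : ∀ r θ, 0 < r → r < 1 → 0 ≤ W r θ := by
    intro r θ h0 h1
    rw [hW]
    have : 0 ≤ 1 - r ^ 2 := by nlinarith
    positivity
  have hVre : ∀ r θ, r0 ≤ r → r < 1 → 0 ≤ (V r θ).re := by
    intro r θ h0 h1
    have h2 : V r θ = evL t β (kap r) r (fun m => ak f m r θ) F * ((W r θ : ℝ) : ℂ) := by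
      rw [hV, hW]
      unfold evL
      ring
    rw [h2, Complex.re_mul_ofReal]
    exact mul_nonneg (hper r h0 h1 _ (gr_body_ak' hf (by linarith) h1)).2
      (hWpos r θ (by linarith) h1)
  have hUre : ∀ r θ, r0 ≤ r → r < 1 → ε * W r θ ≤ (U r θ).re := by
    intro r θ h0 h1
    have h2 : U r θ = evF (fun m => ak f m r θ) F * ((W r θ : ℝ) : ℂ) := by
      rw [hU, hW]
    rw [h2, Complex.re_mul_ofReal]
    exact mul_le_mul_of_nonneg_right (hper r h0 h1 _ (gr_body_ak' hf (by linarith) h1)).1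
      (hWpos r θ (by linarith) h1)
  have hUc : ∀ r, 0 < r → r < 1 → Continuous (U r) := by
    intro r h0 h1
    rw [hU]
    exact gr_cont hE.cu h0 h1
  have hVc : ∀ r, 0 < r → r < 1 → Continuous (V r) := by
    intro r h0 h1
    rw [hV]
    exact gr_cont hE.cv h0 h1
  have hWc : ∀ r, 0 < r → r < 1 → Continuous (W r) := by
    intro r h0 h1
    have h2 := Complex.continuous_re.comp (gr_cont hE2.cu h0 h1)
    rw [hW]
    exact h2
  have hder : ∀ r, 0 < r → r < 1 → HasDerivAt (fun s : ℝ => (∫ θ in (0 : ℝ)..2 * Real.pi, U s θ).re)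
      (-2 / (1 - r ^ 2) * (∫ θ in (0 : ℝ)..2 * Real.pi, V r θ).re) r := by
    intro r h0 h1
    have h2 := hasDerivAt_circle hE h0 h1
    rw [hU, hV]
    have h3 := Complex.reCLM.hasFDerivAt.comp_hasDerivAt r h2
    refine h3.congr_deriv ?_
    simp only [Complex.reCLM_apply]
    have h4 : (-2 / (1 - (r : ℂ) ^ 2)) = ((-2 / (1 - r ^ 2) : ℝ) : ℂ) := by
      push_cast
      rfl
    rw [h4, Complex.re_ofReal_mul]
  obtain ⟨J, hJ⟩ : ∃ J : ℝ → ℝ, J = fun s : ℝ => (∫ θ in (0 : ℝ)..2 * Real.pi, U s θ).re :=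
    ⟨_, rfl⟩
  rw [← hJ] at hder
  have hanti : AntitoneOn J (Ico r0 1) := by
    refine antitoneOn_of_deriv_nonpos (convex_Ico r0 1) ?_ ?_ ?_
    · intro r hr
      exact (hder r (by linarith [hr.1]) hr.2).continuousAt.continuousWithinAt
    · intro r hr
      rw [interior_Ico] at hr
      exact (hder r (by linarith [hr.1]) hr.2).differentiableAt.differentiableWithinAt
    · intro r hr
      rw [interior_Ico] at hr
      have h0 : 0 < r := by linarith [hr.1]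
      rw [(hder r h0 hr.2).deriv, gr_re_integral (hVc r h0 hr.2)]
      have h5 : 0 ≤ ∫ θ in (0 : ℝ)..2 * Real.pi, (V r θ).re :=
        intervalIntegral.integral_nonneg (by positivity) fun θ _ => hVre r θ hr.1.le hr.2
      have h6 : 0 < 1 - r ^ 2 := by nlinarith [hr.2]
      have h7 : -2 / (1 - r ^ 2) ≤ 0 := div_nonpos_of_nonpos_of_nonneg (by norm_num) h6.le
      exact mul_nonpos_of_nonpos_of_nonneg h7 h5
  have hlow : ∀ r, r0 ≤ r → r < 1 →
      ε * ((1 - r ^ 2) ^ β * ∫ θ in (0 : ℝ)..2 * Real.pi, ‖deriv f (zp r θ)‖ ^ t) ≤ J r := by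
    intro r h0 h1
    have hrp : 0 < r := by linarith
    rw [hJ]
    show _ ≤ (∫ θ in (0 : ℝ)..2 * Real.pi, U r θ).re
    rw [gr_re_integral (hUc r hrp h1)]
    have h2 : ε * ((1 - r ^ 2) ^ β * ∫ θ in (0 : ℝ)..2 * Real.pi, ‖deriv f (zp r θ)‖ ^ t) =
        ∫ θ in (0 : ℝ)..2 * Real.pi, ε * W r θ := by
      rw [intervalIntegral.integral_const_mul, hW]
      simp only
      rw [intervalIntegral.integral_mul_const]
      ring
    rw [h2]
    refine intervalIntegral.integral_mono_on (by positivity) ?_ ?_ fun θ _ => hUre r θ h0 h1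
    · exact ((hWc r hrp h1).const_mul ε).intervalIntegrable _ _
    · exact (Complex.continuous_re.comp (hUc r hrp h1)).intervalIntegrable _ _
  refine ⟨J r0 / ε, r0, hr00, hr01, fun r h0 h1 => ?_⟩
  have hrp : 0 < r := by linarith
  have h2 := (hlow r h0 h1).trans (hanti ⟨le_rfl, hr01⟩ ⟨h0, h1⟩ h0)
  have hI : 0 ≤ ∫ θ in (0 : ℝ)..2 * Real.pi, ‖deriv f (zp r θ)‖ ^ t :=
    intervalIntegral.integral_nonneg (by positivity) fun θ _ => by positivity
  generalize (∫ θ in (0 : ℝ)..2 * Real.pi, ‖deriv f (zp r θ)‖ ^ t) = Iv at h2 hI ⊢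
  have h3 : 0 < 1 - r := by linarith
  have h4 : (1 - r) ^ β ≤ (1 - r ^ 2) ^ β :=
    Real.rpow_le_rpow h3.le (by nlinarith) hβ
  have h5 : 0 < (1 - r) ^ β := Real.rpow_pos_of_pos h3 β
  rw [Real.rpow_neg h3.le, ← div_eq_mul_inv, le_div_iff₀ h5, le_div_iff₀ hε]
  calc Iv * (1 - r) ^ β * ε = ε * ((1 - r) ^ β * Iv) := by ring
    _ ≤ ε * ((1 - r ^ 2) ^ β * Iv) := by gcongr
    _ ≤ J r0 := h2

end Vale.Agent.Lib.P142
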