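import Vale.Agent.Lib.P142.Final

/-!
# P142: interpolation of growth bounds of integral means
-/

open Complex MeasureTheory Set Metric Filter Asymptotics

namespace Vale.Agent.Lib.P142

theorem itp_cont {f : ℂ → ℂ} (hf : Univ f) (t : ℝ) {r : ℝ} (hr : 0 ≤ r)
    (hr1 : r < 1) : Continuous fun θ => ‖deriv f (zp r θ)‖ ^ t := by
  have hmem : ∀ φ, zp r φ ∈ ball (0 : ℂ) 1 := by
    intro φ
    rw [mem_ball_zero_iff]
    unfold zp
    rw [norm_mul, norm_exp_ofReal_mul_I, mul_one, Complex.norm_real, Real.norm_of_nonneg hr]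
    exact hr1
  have h1 : ContinuousOn (deriv f) (ball 0 1) := (hf.diff.deriv isOpen_ball).continuousOn
  have h2 : ContinuousOn (fun z => ‖deriv f z‖ ^ t) (ball 0 1) :=
    h1.norm.rpow_const fun z hz => Or.inl (norm_ne_zero_iff.2 (deriv_ne_zero_of_univ hf hz))
  refine h2.comp_continuous ?_ hmem
  unfold zp
  fun_prop

theorem itp_rpow_le {y e : ℝ} (hy : 0 ≤ y) (he0 : 0 ≤ e) (he1 : e ≤ 1) : y ^ e ≤ 1 + y := by
  rcases le_or_gt y 1 with h | h
  · exact (Real.rpow_le_one hy h he0).trans (by linarith)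
  · have h1 : y ^ e ≤ y ^ (1 : ℝ) := Real.rpow_le_rpow_of_exponent_le h.le he1
    rw [Real.rpow_one] at h1
    linarith

theorem itp_periodic (f : ℂ → ℂ) (t r : ℝ) :
    ∫ θ in (-Real.pi)..Real.pi, ‖deriv f ((r : ℂ) * exp ((θ : ℂ) * I))‖ ^ t =
    ∫ θ in (0 : ℝ)..2 * Real.pi, ‖deriv f (zp r θ)‖ ^ t := by
  have h : Function.Periodic (fun θ : ℝ => ‖deriv f ((r : ℂ) * exp ((θ : ℂ) * I))‖ ^ t)
      (2 * Real.pi) := by
    intro θ
    have h : exp (((θ + 2 * Real.pi : ℝ) : ℂ) * I) = exp ((θ : ℂ) * I) := by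
      push_cast
      rw [add_mul, Complex.exp_add, Complex.exp_two_pi_mul_I, mul_one]
    simp only [h]
  have h2 := h.intervalIntegral_add_eq (-Real.pi) 0
  rw [zero_add] at h2
  unfold zp
  rw [← h2]
  congr 1
  ring

/-- interpolation of the growth bound -/
theorem itp_growth {f : ℂ → ℂ} (hf : Univ f) {t0 β : ℝ} (ht0 : 0 < t0)
    (h : ∃ C r0 : ℝ, 0 < r0 ∧ r0 < 1 ∧ ∀ r : ℝ, r0 ≤ r → r < 1 →
      ∫ θ in (0 : ℝ)..2 * Real.pi, ‖deriv f (zp r θ)‖ ^ (-t0) ≤ C * (1 - r) ^ (-β))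
    {t : ℝ} (ht : 0 ≤ t) (htt : t ≤ t0) :
    (fun r : ℝ => ∫ θ in (-Real.pi)..Real.pi, ‖deriv f ((r : ℂ) * exp ((θ : ℂ) * I))‖ ^ (-t))
      =O[nhdsWithin 1 (Iio 1)] fun r : ℝ => (1 - r) ^ (-(β / t0 * t)) := by
  obtain ⟨C, r0, hr0, hr1, h⟩ := h
  obtain ⟨K, hK⟩ : ∃ K : ℝ, K = max C 1 := ⟨_, rfl⟩
  have hK1 : 1 ≤ K := hK ▸ le_max_right _ _
  have hCK : C ≤ K := hK ▸ le_max_left _ _
  have hK0 : 0 < K := by linarith
  have he0 : 0 ≤ t / t0 := by positivity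
  have he1 : t / t0 ≤ 1 := (div_le_one ht0).2 htt
  refine IsBigO.of_bound (K ^ (t / t0) * (2 * Real.pi + 1)) ?_
  have hev : ∀ᶠ r in nhdsWithin (1 : ℝ) (Iio 1), r0 < r ∧ r < 1 := Ioo_mem_nhdsLT hr1
  filter_upwards [hev] with r hr
  have hr2 : 0 < 1 - r := by linarith [hr.2]
  have hr3 : 0 < r := by linarith [hr.1]
  rw [itp_periodic]
  set A : ℝ := K * (1 - r) ^ (-β) with hA
  have hA0 : 0 < A := mul_pos hK0 (Real.rpow_pos_of_pos hr2 _)
  have hc1 : Continuous fun θ => ‖deriv f (zp r θ)‖ ^ (-t) := itp_cont hf (-t) hr3.le hr.2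
  have hc2 : Continuous fun θ => ‖deriv f (zp r θ)‖ ^ (-t0) := itp_cont hf (-t0) hr3.le hr.2
  have hpt : ∀ θ : ℝ, ‖deriv f (zp r θ)‖ ^ (-t) ≤
      A ^ (t / t0) * (1 + ‖deriv f (zp r θ)‖ ^ (-t0) / A) := by
    intro θ
    have hn := norm_nonneg (deriv f (zp r θ))
    have h1 : ‖deriv f (zp r θ)‖ ^ (-t) = (‖deriv f (zp r θ)‖ ^ (-t0)) ^ (t / t0) := by
      rw [← Real.rpow_mul hn]
      congr 1
      field_simp
    have h2 : 0 ≤ ‖deriv f (zp r θ)‖ ^ (-t0) := Real.rpow_nonneg hn _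
    have h3 : (‖deriv f (zp r θ)‖ ^ (-t0)) ^ (t / t0) =
        A ^ (t / t0) * (‖deriv f (zp r θ)‖ ^ (-t0) / A) ^ (t / t0) := by
      rw [← Real.mul_rpow hA0.le (by positivity)]
      congr 1
      field_simp
    rw [h1, h3]
    exact mul_le_mul_of_nonneg_left (itp_rpow_le (by positivity) he0 he1)
      (Real.rpow_nonneg hA0.le _)
  have hint : ∫ θ in (0 : ℝ)..2 * Real.pi, ‖deriv f (zp r θ)‖ ^ (-t) ≤
      A ^ (t / t0) * (2 * Real.pi + 1) := by
    have hpi : (0 : ℝ) ≤ 2 * Real.pi := by positivity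
    calc ∫ θ in (0 : ℝ)..2 * Real.pi, ‖deriv f (zp r θ)‖ ^ (-t)
        ≤ ∫ θ in (0 : ℝ)..2 * Real.pi,
            A ^ (t / t0) * (1 + ‖deriv f (zp r θ)‖ ^ (-t0) / A) := by
          refine intervalIntegral.integral_mono_on hpi (hc1.intervalIntegrable _ _) ?_
            fun θ _ => hpt θ
          exact (continuous_const.mul (continuous_const.add
            (hc2.div_const A))).intervalIntegrable _ _
      _ = A ^ (t / t0) * (2 * Real.pi +
            (∫ θ in (0 : ℝ)..2 * Real.pi, ‖deriv f (zp r θ)‖ ^ (-t0)) / A) := by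
          rw [intervalIntegral.integral_const_mul, intervalIntegral.integral_add
            (continuous_const.intervalIntegrable _ _)
            ((hc2.div_const A).intervalIntegrable _ _), intervalIntegral.integral_div]
          simp
      _ ≤ A ^ (t / t0) * (2 * Real.pi + 1) := by
          refine mul_le_mul_of_nonneg_left ?_ (Real.rpow_nonneg hA0.le _)
          have h5 := h r hr.1.le hr.2
          have h6 : (∫ θ in (0 : ℝ)..2 * Real.pi, ‖deriv f (zp r θ)‖ ^ (-t0)) / A ≤ 1 := by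
            rw [div_le_one hA0]
            exact h5.trans (mul_le_mul_of_nonneg_right hCK (Real.rpow_nonneg hr2.le _))
          linarith
  have hnn : 0 ≤ ∫ θ in (0 : ℝ)..2 * Real.pi, ‖deriv f (zp r θ)‖ ^ (-t) :=
    intervalIntegral.integral_nonneg (by positivity) fun θ _ => Real.rpow_nonneg (norm_nonneg _) _
  rw [Real.norm_of_nonneg hnn, Real.norm_of_nonneg (Real.rpow_nonneg hr2.le _)]
  refine hint.trans (le_of_eq ?_)
  rw [hA, Real.mul_rpow hK0.le (Real.rpow_nonneg hr2.le _), ← Real.rpow_mul hr2.le]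
  have h7 : -β * (t / t0) = -(β / t0 * t) := by field_simp
  rw [h7]
  ring

theorem itp_lint {g : ℂ → ℝ} {W : Set ℂ} (hg : ∀ z, 0 ≤ g z) (h : IntegrableOn g W volume) :
    ∫⁻ z in W, ENNReal.ofReal (g z) < ⊤ := by
  have h1 := h.2
  rwa [hasFiniteIntegral_iff_ofReal (Eventually.of_forall hg)] at h1

end Vale.Agent.Lib.P142
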