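import Vale.Agent.Lib.P142.KoebeTC
import Vale.Agent.Lib.P142.EAlg

/-!
# P142: the derivative identities for the Koebe coefficients
-/

open Complex MeasureTheory Set Metric

namespace Vale.Agent.Lib.P142

theorem ke_congr {u v w u' v' w' : ℝ → ℝ → ℂ} (h : HasE u v w)
    (hu : ∀ r θ, 0 < r → r < 1 → u r θ = u' r θ) (hv : ∀ r θ, 0 < r → r < 1 → v r θ = v' r θ)
    (hw : ∀ r θ, 0 < r → r < 1 → w r θ = w' r θ) : HasE u' v' w' where
  dr := fun r θ h0 h1 => by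
    rw [← hv r θ h0 h1, ← hw r θ h0 h1]
    refine (h.dr r θ h0 h1).congr_of_eventuallyEq ?_
    filter_upwards [Ioo_mem_nhds h0 h1] with s hs
    exact (hu s θ hs.1 hs.2).symm
  dth := fun r θ h0 h1 => by
    rw [← hv r θ h0 h1, ← hw r θ h0 h1]
    refine (h.dth r θ h0 h1).congr_of_eventuallyEq (Filter.Eventually.of_forall fun s => ?_)
    exact (hu r s h0 h1).symm
  cu := h.cu.congr fun x hx => (hu x.1 x.2 hx.1.1 hx.1.2).symm
  cv := h.cv.congr fun x hx => (hv x.1 x.2 hx.1.1 hx.1.2).symm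
  cw := h.cw.congr fun x hx => (hw x.1 x.2 hx.1.1 hx.1.2).symm
  per := fun r θ h0 h1 => by
    rw [← hu r _ h0 h1, ← hu r _ h0 h1]
    exact h.per r θ h0 h1

theorem ke_zp_mem {r : ℝ} (θ : ℝ) (h0 : 0 < r) (h1 : r < 1) : zp r θ ∈ ball (0 : ℂ) 1 := by
  rw [mem_ball_zero_iff, zp, norm_mul, Complex.norm_exp_ofReal_mul_I, mul_one, Complex.norm_real,
    Real.norm_eq_abs, abs_of_pos h0]
  exact h1

theorem ke_zp_cont : Continuous (fun p : ℝ × ℝ => zp p.1 p.2) := by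
  unfold zp
  fun_prop

theorem ke_om_cont : Continuous (fun p : ℝ × ℝ => om p.1 p.2) := by
  unfold om
  fun_prop

theorem ke_exp_per (θ : ℝ) :
    exp (((θ + 2 * Real.pi : ℝ) : ℂ) * I) = exp ((θ : ℂ) * I) := by
  push_cast
  rw [add_mul, Complex.exp_add, Complex.exp_two_pi_mul_I, mul_one]

theorem ke_one_sub {r : ℝ} (h0 : 0 < r) (h1 : r < 1) : (1 - (r : ℂ) ^ 2) ≠ 0 := by
  have h : (1 - r ^ 2 : ℝ) ≠ 0 := by nlinarith
  have h2 : (((1 - r ^ 2 : ℝ)) : ℂ) ≠ 0 := by exact_mod_cast h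
  simpa using h2

theorem ke_r_ne {r : ℝ} (h0 : 0 < r) : (r : ℂ) ≠ 0 := by exact_mod_cast h0.ne'

theorem ke_kap {r : ℝ} (h0 : 0 < r) : ((kap r : ℝ) : ℂ) * (2 * r) = (r : ℂ) ^ 2 + 1 := by
  have h := ke_r_ne h0
  unfold kap
  push_cast
  field_simp

theorem ke_kap_cont : ContinuousOn (fun p : ℝ × ℝ => ((kap p.1 : ℝ) : ℂ)) (Ioo (0 : ℝ) 1 ×ˢ univ) := by
  unfold kap
  apply Complex.continuous_ofReal.comp_continuousOn
  apply ContinuousOn.div_const
  apply ContinuousOn.add continuous_fst.continuousOn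
  exact continuousOn_const.div continuous_fst.continuousOn fun x hx => hx.1.1.ne'

/-- holomorphic functions of `z` -/
theorem ke_holo {g : ℂ → ℂ} (hg : DifferentiableOn ℂ g (ball 0 1)) :
    HasE (fun r θ => g (zp r θ)) (fun r θ => om r θ * deriv g (zp r θ)) (fun _ _ => 0) where
  dr := fun r θ h0 h1 => by
    have hz := ke_zp_mem θ h0 h1
    have h2 : HasDerivAt g (deriv g (zp r θ)) (zp r θ) :=
      (hg.differentiableAt (isOpen_ball.mem_nhds hz)).hasDerivAt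
    have h3 : HasDerivAt (fun s : ℝ => zp s θ) (1 * exp ((θ : ℂ) * I)) r :=
      (HasDerivAt.ofReal_comp (hasDerivAt_id r)).mul_const _
    refine (h2.comp r h3).congr_deriv ?_
    have := ke_one_sub h0 h1
    unfold om
    field_simp
    ring
  dth := fun r θ h0 h1 => by
    have hz := ke_zp_mem θ h0 h1
    have h2 : HasDerivAt g (deriv g (zp r θ)) (zp r θ) :=
      (hg.differentiableAt (isOpen_ball.mem_nhds hz)).hasDerivAt
    have h3 : HasDerivAt (fun s : ℝ => zp r s) ((r : ℂ) * (exp ((θ : ℂ) * I) * (1 * I))) θ :=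
      (((HasDerivAt.ofReal_comp (hasDerivAt_id θ)).mul_const I).cexp).const_mul _
    refine (h2.comp θ h3).congr_deriv ?_
    have := ke_one_sub h0 h1
    unfold om
    field_simp
    ring
  cu := by
    refine hg.continuousOn.comp ke_zp_cont.continuousOn fun x hx => ?_
    exact ke_zp_mem x.2 hx.1.1 hx.1.2
  cv := by
    refine ke_om_cont.continuousOn.mul ?_
    have hg' : ContinuousOn (deriv g) (ball 0 1) := (hg.deriv isOpen_ball).continuousOn
    refine hg'.comp ke_zp_cont.continuousOn fun x hx => ?_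
    exact ke_zp_mem x.2 hx.1.1 hx.1.2
  cw := continuousOn_const
  per := fun r θ h0 h1 => by
    have : zp r (θ + 2 * Real.pi) = zp r θ := by
      unfold zp
      rw [ke_exp_per]
    rw [this]

theorem ke_om : HasE om (fun r θ => (2 * (r : ℂ) - ((kap r : ℝ) : ℂ)) * om r θ)
    (fun r θ => ((kap r : ℝ) : ℂ) * om r θ) where
  dr := fun r θ h0 h1 => by
    have h3 : HasDerivAt (fun s : ℝ => om s θ)
        (-exp ((θ : ℂ) * I) * (-(2 * (r : ℂ)))) r := by
      have h5 : HasDerivAt (fun s : ℝ => (s : ℂ) ^ 2) (2 * (r : ℂ)) r := by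
        refine ((HasDerivAt.ofReal_comp (hasDerivAt_id r)).pow 2).congr_deriv ?_
        simp
      exact (h5.const_sub 1).const_mul _
    refine h3.congr_deriv ?_
    have := ke_one_sub h0 h1
    unfold om
    field_simp
    ring
  dth := fun r θ h0 h1 => by
    have h3 : HasDerivAt (fun s : ℝ => om r s)
        (-(exp ((θ : ℂ) * I) * (1 * I)) * (1 - (r : ℂ) ^ 2)) θ :=
      ((((HasDerivAt.ofReal_comp (hasDerivAt_id θ)).mul_const I).cexp).neg).mul_const _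
    refine h3.congr_deriv ?_
    have h4 := ke_one_sub h0 h1
    have h5 := ke_kap h0
    rw [eq_div_iff h4]
    unfold om
    linear_combination (I * exp ((θ : ℂ) * I) * (1 - (r : ℂ) ^ 2)) * h5
  cu := ke_om_cont.continuousOn
  cv := by
    refine ContinuousOn.mul (ContinuousOn.sub ?_ ke_kap_cont) ke_om_cont.continuousOn
    exact (continuous_const.mul (Complex.continuous_ofReal.comp continuous_fst)).continuousOn
  cw := ke_kap_cont.mul ke_om_cont.continuousOn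
  per := fun r θ h0 h1 => by
    unfold om
    rw [ke_exp_per]

theorem ke_r : HasE (fun r _ => (r : ℂ)) (fun r _ => ((r : ℂ) - ((kap r : ℝ) : ℂ)) * (r : ℂ))
    (fun r _ => (((kap r : ℝ) : ℂ) - 1 / (r : ℂ)) * (r : ℂ)) where
  dr := fun r θ h0 h1 => by
    have h3 : HasDerivAt (fun s : ℝ => (s : ℂ)) 1 r := by
      simpa using (HasDerivAt.ofReal_comp (hasDerivAt_id r))
    refine h3.congr_deriv ?_
    have h4 := ke_one_sub h0 h1
    have h5 := ke_kap h0
    have h6 := ke_r_ne h0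
    rw [eq_div_iff h4]
    field_simp
    ring
  dth := fun r θ h0 h1 => by
    have h3 : HasDerivAt (fun _ : ℝ => (r : ℂ)) 0 θ := hasDerivAt_const _ _
    refine h3.congr_deriv ?_
    have h4 := ke_one_sub h0 h1
    have h5 := ke_kap h0
    have h6 := ke_r_ne h0
    rw [eq_div_iff h4]
    field_simp
    linear_combination (-(I * (r : ℂ))) * h5
  cu := (Complex.continuous_ofReal.comp continuous_fst).continuousOn
  cv := by
    refine ContinuousOn.mul (ContinuousOn.sub ?_ ke_kap_cont) ?_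
    · exact (Complex.continuous_ofReal.comp continuous_fst).continuousOn
    · exact (Complex.continuous_ofReal.comp continuous_fst).continuousOn
  cw := by
    refine ContinuousOn.mul (ContinuousOn.sub ke_kap_cont ?_) ?_
    · exact continuousOn_const.div (Complex.continuous_ofReal.comp continuous_fst).continuousOn
        fun x hx => ke_r_ne hx.1.1
    · exact (Complex.continuous_ofReal.comp continuous_fst).continuousOn
  per := fun r θ h0 h1 => rfl

/-- powers -/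
theorem ke_pow {u p q : ℝ → ℝ → ℂ} (h : HasE u (fun r θ => p r θ * u r θ)
    (fun r θ => q r θ * u r θ)) (m : ℕ) :
    HasE (fun r θ => u r θ ^ m) (fun r θ => (m : ℂ) * p r θ * u r θ ^ m)
      (fun r θ => (m : ℂ) * q r θ * u r θ ^ m) := by
  induction m with
  | zero =>
    refine ke_congr (HasE.const 1) ?_ ?_ ?_ <;> intro r θ _ _ <;> simp
  | succ m ih =>
    refine ke_congr (ih.mul h) ?_ ?_ ?_ <;> intro r θ _ _
    · exact (pow_succ _ _).symm
    · push_cast; ring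
    · push_cast; ring

theorem ke_sum {u v w : ℕ → ℝ → ℝ → ℂ} (n : ℕ) (h : ∀ k, HasE (u k) (v k) (w k)) :
    HasE (fun r θ => ∑ k ∈ Finset.range n, u k r θ) (fun r θ => ∑ k ∈ Finset.range n, v k r θ)
      (fun r θ => ∑ k ∈ Finset.range n, w k r θ) := by
  induction n with
  | zero =>
    refine ke_congr (HasE.const 0) ?_ ?_ ?_ <;> intro r θ _ _ <;> simp
  | succ n ih =>
    refine ke_congr (ih.add (h n)) ?_ ?_ ?_ <;> intro r θ _ _ <;>
      exact (Finset.sum_range_succ _ _).symm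

/-- iterated derivatives are holomorphic -/
theorem ke_iter {f : ℂ → ℂ} (hf : DifferentiableOn ℂ f (ball 0 1)) (k : ℕ) :
    DifferentiableOn ℂ (iteratedDeriv k f) (ball 0 1) := by
  induction k with
  | zero => simpa [iteratedDeriv_zero] using hf
  | succ k ih =>
    rw [iteratedDeriv_succ]
    exact ih.deriv isOpen_ball

theorem ke_b1 {f : ℂ → ℂ} (hf : Univ f) {r : ℝ} (θ : ℝ) (h0 : 0 < r) (h1 : r < 1) :
    bk f 1 r θ = 1 := by
  have h2 := deriv_ne_zero_of_univ hf (ke_zp_mem θ h0 h1)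
  unfold bk
  rw [iteratedDeriv_one]
  simp [h2]

/-- `f_{k+1}` -/
theorem ke_F {f : ℂ → ℂ} (hf : Univ f) (k : ℕ) :
    HasE (fun r θ => iteratedDeriv (k + 1) f (zp r θ) / ((k + 1).factorial : ℂ))
      (fun r θ => ((k : ℂ) + 2) * om r θ *
        (iteratedDeriv (k + 2) f (zp r θ) / ((k + 2).factorial : ℂ)))
      (fun _ _ => 0) := by
  have h := (ke_holo (ke_iter hf.diff (k + 1))).mul (HasE.const (1 / ((k + 1).factorial : ℂ)))
  refine ke_congr h ?_ ?_ ?_ <;> intro r θ _ _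
  · ring
  · rw [← iteratedDeriv_succ]
    have h3 : ((k + 2).factorial : ℂ) = ((k : ℂ) + 2) * ((k + 1).factorial : ℂ) := by
      rw [Nat.factorial_succ (k + 1)]
      push_cast
      ring
    have h4 : ((k + 1).factorial : ℂ) ≠ 0 := by exact_mod_cast (Nat.factorial_ne_zero _)
    have h5 : ((k : ℂ) + 2) ≠ 0 := by exact_mod_cast (Nat.succ_ne_zero (k + 1))
    rw [h3]
    field_simp
    ring
  · ring

/-- `1 / f'` -/
theorem ke_G {f : ℂ → ℂ} (hf : Univ f) :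
    HasE (fun r θ => (deriv f (zp r θ))⁻¹)
      (fun r θ => -2 * bk f 2 r θ * (deriv f (zp r θ))⁻¹)
      (fun _ _ => 0) := by
  have hd : DifferentiableOn ℂ (deriv f) (ball 0 1) := hf.diff.deriv isOpen_ball
  have h := ke_holo (hd.inv fun z hz => deriv_ne_zero_of_univ hf hz)
  refine ke_congr h ?_ ?_ ?_ <;> intro r θ h0 h1
  · rfl
  · have hz := ke_zp_mem θ h0 h1
    have h2 := deriv_ne_zero_of_univ hf hz
    have h3 : HasDerivAt (deriv f)⁻¹ (-deriv (deriv f) (zp r θ) / deriv f (zp r θ) ^ 2) (zp r θ) :=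
      (hd.differentiableAt (isOpen_ball.mem_nhds hz)).hasDerivAt.inv h2
    rw [h3.deriv]
    unfold bk
    rw [iteratedDeriv_succ, iteratedDeriv_one]
    have h4 : ((2 : ℕ).factorial : ℂ) = 2 := by norm_num [Nat.factorial]
    rw [h4]
    simp only [Nat.add_one_sub_one, pow_one]
    field_simp
  · rfl

theorem ke_b {f : ℂ → ℂ} (hf : Univ f) (k : ℕ) :
    HasE (fun r θ => bk f (k + 1) r θ)
      (fun r θ => (k : ℂ) * (2 * (r : ℂ) - ((kap r : ℝ) : ℂ)) * bk f (k + 1) r θ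
        + ((k : ℂ) + 2) * bk f (k + 2) r θ - 2 * bk f 2 r θ * bk f (k + 1) r θ)
      (fun r θ => (k : ℂ) * ((kap r : ℝ) : ℂ) * bk f (k + 1) r θ) := by
  have h := ((ke_pow ke_om k).mul (ke_F hf k)).mul (ke_G hf)
  refine ke_congr h ?_ ?_ ?_ <;> intro r θ h0 h1
  · simp only [bk, Nat.add_sub_cancel]
    rw [div_eq_mul_inv _ (deriv f (zp r θ))]
  · have e1 : bk f (k + 1) r θ = om r θ ^ k *
        (iteratedDeriv (k + 1) f (zp r θ) / ((k + 1).factorial : ℂ)) * (deriv f (zp r θ))⁻¹ := by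
      simp only [bk, Nat.add_sub_cancel]
      rw [div_eq_mul_inv _ (deriv f (zp r θ))]
    have e2 : bk f (k + 2) r θ = om r θ ^ (k + 1) *
        (iteratedDeriv (k + 2) f (zp r θ) / ((k + 2).factorial : ℂ)) * (deriv f (zp r θ))⁻¹ := by
      simp only [bk, show k + 2 - 1 = k + 1 from rfl]
      rw [div_eq_mul_inv _ (deriv f (zp r θ))]
    rw [e1, e2]
    ring
  · have e1 : bk f (k + 1) r θ = om r θ ^ k *
        (iteratedDeriv (k + 1) f (zp r θ) / ((k + 1).factorial : ℂ)) * (deriv f (zp r θ))⁻¹ := by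
      simp only [bk, Nat.add_sub_cancel]
      rw [div_eq_mul_inv _ (deriv f (zp r θ))]
    rw [e1]
    ring

/-- the terms of `a_n` -/
theorem ke_term {f : ℂ → ℂ} (hf : Univ f) (m k : ℕ) :
    HasE (fun r θ => (m.choose k : ℂ) * (r : ℂ) ^ (m - k) * bk f (k + 1) r θ)
      (fun r θ => (m.choose k : ℂ) * ((((m - k : ℕ) : ℂ) * ((r : ℂ) - ((kap r : ℝ) : ℂ))
          + (k : ℂ) * (2 * (r : ℂ) - ((kap r : ℝ) : ℂ)) - 2 * bk f 2 r θ)
          * (r : ℂ) ^ (m - k) * bk f (k + 1) r θ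
          + (r : ℂ) ^ (m - k) * (((k : ℂ) + 2) * bk f (k + 2) r θ)))
      (fun r θ => (m.choose k : ℂ) * (((m - k : ℕ) : ℂ) * (((kap r : ℝ) : ℂ) - 1 / (r : ℂ))
          + (k : ℂ) * ((kap r : ℝ) : ℂ)) * (r : ℂ) ^ (m - k) * bk f (k + 1) r θ) := by
  have h := ((HasE.const (m.choose k : ℂ)).mul (ke_pow ke_r (m - k))).mul (ke_b hf k)
  refine ke_congr h ?_ ?_ ?_ <;> intro r θ h0 h1 <;> ring

theorem ke_id1 (m : ℕ) (y : ℕ → ℂ) :
    ∑ k ∈ Finset.range (m + 1), (m.choose k : ℂ) * ((m : ℂ) + k + 2) * y k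
      + ∑ k ∈ Finset.range (m + 1), (m.choose k : ℂ) * ((k : ℂ) + 2) * y (k + 1)
      = ((m : ℂ) + 2) * ∑ k ∈ Finset.range (m + 2), ((m + 1).choose k : ℂ) * y k := by
  have e1 : ∑ k ∈ Finset.range (m + 1), (m.choose k : ℂ) * ((m : ℂ) + k + 2) * y k
      = ∑ k ∈ Finset.range (m + 2), (m.choose k : ℂ) * ((m : ℂ) + k + 2) * y k := by
    rw [Finset.sum_range_succ _ (m + 1), Nat.choose_succ_self]
    simp
  have e2 : ((m : ℂ) + 2) * ∑ k ∈ Finset.range (m + 2), ((m + 1).choose k : ℂ) * y k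
      = ∑ k ∈ Finset.range (m + 1), ((m : ℂ) + 2) * (((m + 1).choose (k + 1) : ℂ) * y (k + 1))
        + ((m : ℂ) + 2) * (((m + 1).choose 0 : ℂ) * y 0) := by
    rw [Finset.sum_range_succ' _ (m + 1), mul_add, Finset.mul_sum]
  rw [e1, e2, Finset.sum_range_succ' _ (m + 1), add_right_comm, ← Finset.sum_add_distrib]
  congr 1
  · refine Finset.sum_congr rfl fun k hk => ?_
    have hk' : k ≤ m := by
      have := Finset.mem_range.1 hk
      omega
    have h1 := Nat.choose_succ_right_eq m k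
    have h2 : (m.choose (k + 1) : ℂ) * ((k : ℂ) + 1) = (m.choose k : ℂ) * ((m : ℂ) - k) := by
      have h3 : ((m.choose (k + 1) * (k + 1) : ℕ) : ℂ) = ((m.choose k * (m - k) : ℕ) : ℂ) := by
        rw [h1]
      push_cast [Nat.cast_sub hk'] at h3
      exact h3
    rw [Nat.choose_succ_succ]
    push_cast
    linear_combination y (k + 1) * h2
  · simp

theorem ke_id2 (m : ℕ) {r : ℂ} (hr : r ≠ 0) (y : ℕ → ℂ) :
    ∑ k ∈ Finset.range (m + 1), (m.choose k : ℂ) * ((m - k : ℕ) : ℂ) * (1 / r) * r ^ (m - k) * y k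
      = (m : ℂ) * ∑ k ∈ Finset.range m, ((m - 1).choose k : ℂ) * r ^ (m - 1 - k) * y k := by
  cases m with
  | zero => simp
  | succ l =>
    rw [Finset.sum_range_succ, Finset.mul_sum]
    have e0 : ((l + 1 - (l + 1) : ℕ) : ℂ) = 0 := by simp
    rw [e0]
    simp only [mul_zero, zero_mul, add_zero]
    refine Finset.sum_congr rfl fun k hk => ?_
    have hk' : k ≤ l := by
      have := Finset.mem_range.1 hk
      omega
    have h1 := Nat.choose_mul_succ_eq l k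
    have h2 : (l.choose k : ℂ) * ((l + 1 : ℕ) : ℂ)
        = ((l + 1).choose k : ℂ) * ((l + 1 - k : ℕ) : ℂ) := by
      exact_mod_cast h1
    have h3 : l + 1 - k = (l - k) + 1 := by omega
    have h4 : r ^ (l + 1 - k) = r ^ (l - k) * r := by rw [h3, pow_succ]
    rw [h4, ← h2]
    simp only [Nat.add_sub_cancel]
    field_simp

/-
PROOF.  With `z = r e^{iθ}`, `ω = -e^{iθ}(1-r^2)`, `κ = (r+1/r)/2`, `f_k = f^{(k)}(z)/k!`:
`E f_k = ω (k+1) f_{k+1}`, `E^* f_k = 0`, `E ω = ω (2r - κ)`, `E^* ω = κ ω`,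
`E r = E^* r = -(1-r^2)/2 = -r (κ - r)`.  Hence for `b_k = ω^{k-1} f_k / f_1`:
`E b_k = (k-1)(2r-κ) b_k + (k+1) b_{k+1} - 2 b_2 b_k`, `E^* b_k = (k-1) κ b_k`, and for
`a_n = ∑_{k=1}^n C(n-1,k-1) r^{n-k} b_k` (so `a_2 = r + b_2`):
coefficient of `b_k`, using `C(n,k-1) = C(n-1,k-1) + C(n-1,k-2)` and
`(k-1) C(n-1,k-1) = (n-k+1) C(n-1,k-2)`, gives
`E a_n = (n+1) a_{n+1} - 2 a_2 a_n - κ (n-1) a_n`, and with
`(n-1) C(n-2,k-1) = (n-k) C(n-1,k-1)`: `E^* a_n = (n-1)(κ a_n - a_{n-1})`.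
All functions are smooth on `0 < r < 1`.
-/
theorem hasE_ak {f : ℂ → ℂ} (hf : Univ f) (n : ℕ) (hn : 1 ≤ n) :
    HasE (fun r θ => ak f n r θ) (fun r θ => Da (kap r) (fun m => ak f m r θ) n)
      (fun r θ => Sa (kap r) (fun m => ak f m r θ) n) := by
  obtain ⟨m, rfl⟩ : ∃ m, n = m + 1 := ⟨n - 1, by omega⟩
  refine ke_congr (ke_sum (m + 1) (ke_term hf m)) ?_ ?_ ?_ <;> intro r θ h0 h1
  · rfl
  · have ha2 : ak f 2 r θ = (r : ℂ) + bk f 2 r θ := by
      unfold ak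
      rw [Finset.sum_range_succ, Finset.sum_range_one, ke_b1 hf θ h0 h1]
      simp
    have hA : ak f (m + 1) r θ
        = ∑ k ∈ Finset.range (m + 1), (m.choose k : ℂ) * (r : ℂ) ^ (m - k) * bk f (k + 1) r θ := rfl
    have hB : ak f (m + 2) r θ
        = ∑ k ∈ Finset.range (m + 2), ((m + 1).choose k : ℂ) *
          ((r : ℂ) ^ (m + 1 - k) * bk f (k + 1) r θ) := by
      unfold ak
      refine Finset.sum_congr rfl fun k _ => ?_
      rw [mul_assoc]
      rfl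
    have hid := ke_id1 m (fun k => (r : ℂ) ^ (m + 1 - k) * bk f (k + 1) r θ)
    rw [← hB] at hid
    show _ = (((m + 1 : ℕ) : ℂ) + 1) * ak f (m + 1 + 1) r θ - 2 * ak f 2 r θ * ak f (m + 1) r θ
      - ((kap r : ℝ) : ℂ) * (((m + 1 : ℕ) : ℂ) - 1) * ak f (m + 1) r θ
    have hs : ∑ k ∈ Finset.range (m + 1),
        (m.choose k : ℂ) * ((((m - k : ℕ) : ℂ) * ((r : ℂ) - ((kap r : ℝ) : ℂ))
          + (k : ℂ) * (2 * (r : ℂ) - ((kap r : ℝ) : ℂ)) - 2 * bk f 2 r θ)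
          * (r : ℂ) ^ (m - k) * bk f (k + 1) r θ
          + (r : ℂ) ^ (m - k) * (((k : ℂ) + 2) * bk f (k + 2) r θ))
        = (∑ k ∈ Finset.range (m + 1), (m.choose k : ℂ) * ((m : ℂ) + k + 2) *
            ((r : ℂ) ^ (m + 1 - k) * bk f (k + 1) r θ)
          + ∑ k ∈ Finset.range (m + 1), (m.choose k : ℂ) * ((k : ℂ) + 2) *
            ((r : ℂ) ^ (m + 1 - (k + 1)) * bk f (k + 1 + 1) r θ))
          + (-(m : ℂ) * ((kap r : ℝ) : ℂ) - 2 * bk f 2 r θ - 2 * (r : ℂ)) *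
            ∑ k ∈ Finset.range (m + 1), (m.choose k : ℂ) * (r : ℂ) ^ (m - k) * bk f (k + 1) r θ := by
      rw [Finset.mul_sum, ← Finset.sum_add_distrib, ← Finset.sum_add_distrib]
      refine Finset.sum_congr rfl fun k hk => ?_
      have hk' : k ≤ m := by
        have := Finset.mem_range.1 hk
        omega
      have e1 : m + 1 - k = (m - k) + 1 := by omega
      have e2 : m + 1 - (k + 1) = m - k := by omega
      rw [e1, e2, pow_succ, Nat.cast_sub hk']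
      ring
    rw [hs, hid, ← hA, ha2]
    push_cast
    ring
  · have hr := ke_r_ne h0
    have hA : ak f (m + 1) r θ
        = ∑ k ∈ Finset.range (m + 1), (m.choose k : ℂ) * (r : ℂ) ^ (m - k) * bk f (k + 1) r θ := rfl
    have hB : ak f m r θ
        = ∑ k ∈ Finset.range m, ((m - 1).choose k : ℂ) * (r : ℂ) ^ (m - 1 - k) *
          bk f (k + 1) r θ := rfl
    have hid := ke_id2 m hr (fun k => bk f (k + 1) r θ)
    show _ = (((m + 1 : ℕ) : ℂ) - 1) * (((kap r : ℝ) : ℂ) * ak f (m + 1) r θ - ak f m r θ)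
    rw [hB]
    have hs : ∑ k ∈ Finset.range (m + 1),
        (m.choose k : ℂ) * (((m - k : ℕ) : ℂ) * (((kap r : ℝ) : ℂ) - 1 / (r : ℂ))
          + (k : ℂ) * ((kap r : ℝ) : ℂ)) * (r : ℂ) ^ (m - k) * bk f (k + 1) r θ
        = (m : ℂ) * ((kap r : ℝ) : ℂ) *
            ∑ k ∈ Finset.range (m + 1), (m.choose k : ℂ) * (r : ℂ) ^ (m - k) * bk f (k + 1) r θ
          - ∑ k ∈ Finset.range (m + 1),
            (m.choose k : ℂ) * ((m - k : ℕ) : ℂ) * (1 / (r : ℂ)) * (r : ℂ) ^ (m - k)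
              * bk f (k + 1) r θ := by
      rw [Finset.mul_sum, ← Finset.sum_sub_distrib]
      refine Finset.sum_congr rfl fun k hk => ?_
      have hk' : k ≤ m := by
        have := Finset.mem_range.1 hk
        omega
      rw [Nat.cast_sub hk']
      ring
    rw [hs, hid, ← hA]
    push_cast
    ring

/-- real powers of positive functions -/
theorem ke_rpow {U : ℝ → ℝ → ℝ} {p q : ℝ → ℝ → ℂ} (s : ℝ)
    (hU : ∀ r θ, 0 < r → r < 1 → 0 < U r θ)
    (h : HasE (fun r θ => ((U r θ : ℝ) : ℂ)) (fun r θ => p r θ * ((U r θ : ℝ) : ℂ))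
      (fun r θ => q r θ * ((U r θ : ℝ) : ℂ)))
    (hp : ContinuousOn (Function.uncurry p) (Ioo (0 : ℝ) 1 ×ˢ univ))
    (hq : ContinuousOn (Function.uncurry q) (Ioo (0 : ℝ) 1 ×ˢ univ)) :
    HasE (fun r θ => ((U r θ ^ s : ℝ) : ℂ))
      (fun r θ => (s : ℂ) * p r θ * ((U r θ ^ s : ℝ) : ℂ))
      (fun r θ => (s : ℂ) * q r θ * ((U r θ ^ s : ℝ) : ℂ)) := by
  have hUc : ContinuousOn (fun x : ℝ × ℝ => U x.1 x.2) (Ioo (0 : ℝ) 1 ×ˢ univ) := by
    have h1 := Complex.continuous_re.comp_continuousOn h.cu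
    exact h1
  have hUs : ContinuousOn (fun x : ℝ × ℝ => (((U x.1 x.2) ^ s : ℝ) : ℂ))
      (Ioo (0 : ℝ) 1 ×ˢ univ) :=
    Complex.continuous_ofReal.comp_continuousOn
      (hUc.rpow_const fun x hx => Or.inl (hU x.1 x.2 hx.1.1 hx.1.2).ne')
  have key : ∀ {u : ℝ → ℝ} {d : ℂ} {x : ℝ}, HasDerivAt (fun y : ℝ => ((u y : ℝ) : ℂ)) d x →
      0 < u x → (∀ᶠ y in nhds x, 0 < u y) →
      HasDerivAt (fun y : ℝ => ((u y ^ s : ℝ) : ℂ)) ((s : ℂ) * ((u x ^ s : ℝ) : ℂ) / (u x : ℂ) * d) x := by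
    intro u d x hu hx hev
    have hslit : ((u x : ℝ) : ℂ) ∈ slitPlane := Complex.ofReal_mem_slitPlane.2 hx
    have h1 : HasDerivAt (fun w : ℂ => w ^ (s : ℂ)) ((s : ℂ) * ((u x : ℝ) : ℂ) ^ ((s : ℂ) - 1) * 1)
        ((u x : ℝ) : ℂ) := (hasDerivAt_id _).cpow_const hslit
    have h2 := h1.comp x hu
    have hne : ((u x : ℝ) : ℂ) ≠ 0 := by exact_mod_cast hx.ne'
    refine (h2.congr_of_eventuallyEq ?_).congr_deriv ?_
    · filter_upwards [hev] with y hy
      show _ = ((u y : ℝ) : ℂ) ^ (s : ℂ)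
      rw [Complex.ofReal_cpow hy.le]
    · rw [Complex.cpow_sub _ _ hne, Complex.cpow_one, Complex.ofReal_cpow hx.le]
      ring
  refine ⟨fun r θ h0 h1 => ?_, fun r θ h0 h1 => ?_, hUs, ?_, ?_, fun r θ h0 h1 => ?_⟩
  · refine (key (h.dr r θ h0 h1) (hU r θ h0 h1) ?_).congr_deriv ?_
    · filter_upwards [Ioo_mem_nhds h0 h1] with y hy
      exact hU y θ hy.1 hy.2
    · have h4 := ke_one_sub h0 h1
      have hne : ((U r θ : ℝ) : ℂ) ≠ 0 := by exact_mod_cast (hU r θ h0 h1).ne'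
      field_simp
  · refine (key (h.dth r θ h0 h1) (hU r θ h0 h1) ?_).congr_deriv ?_
    · exact Filter.Eventually.of_forall fun y => hU r y h0 h1
    · have h4 := ke_one_sub h0 h1
      have hne : ((U r θ : ℝ) : ℂ) ≠ 0 := by exact_mod_cast (hU r θ h0 h1).ne'
      field_simp
  · exact (continuousOn_const.mul hp).mul hUs
  · exact (continuousOn_const.mul hq).mul hUs
  · have h5 := h.per r θ h0 h1
    have h6 : U r (θ + 2 * Real.pi) = U r θ := by exact_mod_cast h5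
    rw [h6]

/-- `|f'|^2` -/
theorem ke_norm {f : ℂ → ℂ} (hf : Univ f) :
    HasE (fun r θ => ((‖deriv f (zp r θ)‖ ^ 2 : ℝ) : ℂ))
      (fun r θ => (2 * bk f 2 r θ) * ((‖deriv f (zp r θ)‖ ^ 2 : ℝ) : ℂ))
      (fun r θ => (2 * (starRingEnd ℂ) (bk f 2 r θ)) * ((‖deriv f (zp r θ)‖ ^ 2 : ℝ) : ℂ)) := by
  have hd : DifferentiableOn ℂ (deriv f) (ball 0 1) := hf.diff.deriv isOpen_ball
  have h := (ke_holo hd).mul (ke_holo hd).conj
  have hn : ∀ z : ℂ, z * (starRingEnd ℂ) z = ((‖z‖ ^ 2 : ℝ) : ℂ) := fun z => by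
    rw [Complex.mul_conj, Complex.normSq_eq_norm_sq]
  have hb : ∀ r θ, 0 < r → r < 1 →
      om r θ * deriv (deriv f) (zp r θ) = 2 * bk f 2 r θ * deriv f (zp r θ) := by
    intro r θ h0 h1
    have h2 := deriv_ne_zero_of_univ hf (ke_zp_mem θ h0 h1)
    unfold bk
    rw [iteratedDeriv_succ, iteratedDeriv_one]
    have h4 : ((2 : ℕ).factorial : ℂ) = 2 := by norm_num [Nat.factorial]
    rw [h4]
    simp only [Nat.add_one_sub_one, pow_one]
    field_simp
  refine ke_congr h ?_ ?_ ?_ <;> intro r θ h0 h1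
  · exact hn _
  · rw [← hn, hb r θ h0 h1]
    simp only [map_zero, mul_zero, add_zero]
    ring
  · rw [← hn, hb r θ h0 h1]
    simp only [zero_mul, zero_add, map_mul]
    have : (starRingEnd ℂ) (2 : ℂ) = 2 := Complex.conj_ofNat 2
    rw [this]
    ring

/-- `1 - r^2` -/
theorem ke_one : HasE (fun r _ => ((1 - r ^ 2 : ℝ) : ℂ))
    (fun r _ => (r : ℂ) * ((1 - r ^ 2 : ℝ) : ℂ)) (fun r _ => (r : ℂ) * ((1 - r ^ 2 : ℝ) : ℂ)) := by
  have h := (HasE.const 1).add ((HasE.const (-1)).mul (ke_pow ke_r 2))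
  refine ke_congr h ?_ ?_ ?_ <;> intro r θ h0 h1
  · push_cast; ring
  · have h5 := ke_kap h0
    push_cast
    linear_combination (r : ℂ) * h5
  · have h5 := ke_kap h0
    have h6 := ke_r_ne h0
    push_cast
    field_simp
    linear_combination (-(r : ℂ)) * h5

/-
PROOF.  `W = |f'(z)|^t (1-r^2)^β`; `E |f'|^t = t b_2 |f'|^t` because
`(∂_r - (i/r) ∂_θ) |f'(z)|^t = 2 e^{iθ} (t/2) (f''/f')(z) |f'|^t`, `E (1-r^2)^β = β r (1-r^2)^β`,
`a_2 = r + b_2`; `W` is real so `E^* W = conj (E W)`.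
-/
theorem hasE_W {f : ℂ → ℂ} (hf : Univ f) (t β : ℝ) :
    HasE (fun r θ => ((‖deriv f (zp r θ)‖ ^ t * (1 - r ^ 2) ^ β : ℝ) : ℂ))
      (fun r θ => ((t : ℂ) * ak f 2 r θ + ((β : ℂ) - (t : ℂ)) * (r : ℂ)) *
        ((‖deriv f (zp r θ)‖ ^ t * (1 - r ^ 2) ^ β : ℝ) : ℂ))
      (fun r θ => (starRingEnd ℂ) (((t : ℂ) * ak f 2 r θ + ((β : ℂ) - (t : ℂ)) * (r : ℂ)) *
        ((‖deriv f (zp r θ)‖ ^ t * (1 - r ^ 2) ^ β : ℝ) : ℂ))) := by
  have hb : ContinuousOn (Function.uncurry fun r θ => bk f 2 r θ) (Ioo (0 : ℝ) 1 ×ˢ univ) :=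
    (ke_b hf 1).cu
  have hrc : ContinuousOn (Function.uncurry fun (r _ : ℝ) => (r : ℂ)) (Ioo (0 : ℝ) 1 ×ˢ univ) :=
    ke_r.cu
  have h1 := ke_rpow (U := fun r θ => ‖deriv f (zp r θ)‖ ^ 2) (p := fun r θ => 2 * bk f 2 r θ)
    (q := fun r θ => 2 * (starRingEnd ℂ) (bk f 2 r θ)) (t / 2)
    (fun r θ h0 h1 => by
      have := deriv_ne_zero_of_univ hf (ke_zp_mem θ h0 h1)
      positivity) (ke_norm hf) (continuousOn_const.mul hb)
    (continuousOn_const.mul (Complex.continuous_conj.comp_continuousOn hb))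
  have h2 := ke_rpow (U := fun r _ => 1 - r ^ 2) (p := fun r _ => (r : ℂ))
    (q := fun r _ => (r : ℂ)) β (fun r θ h0 h1 => by nlinarith) ke_one hrc hrc
  have hW : ∀ r θ, (((‖deriv f (zp r θ)‖ ^ 2) ^ (t / 2) : ℝ) : ℂ) * (((1 - r ^ 2) ^ β : ℝ) : ℂ)
      = ((‖deriv f (zp r θ)‖ ^ t * (1 - r ^ 2) ^ β : ℝ) : ℂ) := by
    intro r θ
    rw [← Complex.ofReal_mul, ← Real.rpow_natCast (‖deriv f (zp r θ)‖) 2,
      ← Real.rpow_mul (norm_nonneg _)]
    congr 3
    push_cast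
    ring
  have ha2 : ∀ r θ, 0 < r → r < 1 → ak f 2 r θ = (r : ℂ) + bk f 2 r θ := by
    intro r θ h0 h1
    unfold ak
    rw [Finset.sum_range_succ, Finset.sum_range_one, ke_b1 hf θ h0 h1]
    simp
  refine ke_congr (h1.mul h2) (fun r θ _ _ => hW r θ) (fun r θ h0 h1 => ?_)
    (fun r θ h0 h1 => ?_)
  · rw [← hW r θ, ha2 r θ h0 h1]
    push_cast
    ring
  · rw [← hW r θ, ha2 r θ h0 h1]
    simp only [map_add, map_mul, map_sub, Complex.conj_ofReal]
    push_cast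
    ring

end Vale.Agent.Lib.P142
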