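import Vale.Agent.Lib.P142.Defs

/-!
# P142: Stokes on a disc for `V = conj g * g' * k(|g|^2)`
-/

open Complex MeasureTheory Set Metric

namespace Vale.Agent.Lib.P142

/-
PROOF. Put `z = ρ e^{iφ}`, `V(z) = k(|g z|^2) conj(g z) g'(z)`, `U(ρ,φ) = z V(z)`.  Since
`∂_{zbar} V = |g'|^2 (k(m) + m k'(m))`, `m = |g z|^2`, and `ρ ∂_ρ + i ∂_φ = 2 zbar ∂_{zbar}`,
`ρ ∂_ρ U + i ∂_φ U = 2 ρ^2 |g'|^2 (k + m k')` (check directly with the two one-variable
derivatives: `∂_ρ g(z) = e^{iφ} g'`, `∂_φ g(z) = i z g'`, and the same for `g'` with `g''`).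
Integrate over `φ ∈ [0,2π]`: the `∂_φ` term vanishes by periodicity, so
`Φ(ρ) = ∫ U dφ` has `Φ'(ρ) = 2 ρ ∫ |g'|^2 (k + m k') dφ` (differentiation under the integral sign,
everything continuous on `[0,r] × [0,2π]`), `Φ(0) = 0`; FTC on `[0,r]` and take real parts.
-/
namespace StokesAux

/-- the function `z g' conj g k(|g|^2)` -/
noncomputable def UU (g : ℂ → ℂ) (k : ℝ → ℝ) (z : ℂ) : ℂ :=
  z * deriv g z * (starRingEnd ℂ) (g z) * ((k (‖g z‖ ^ 2) : ℝ) : ℂ)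

/-- its derivative in the real direction `v` -/
noncomputable def DU (g : ℂ → ℂ) (k k' : ℝ → ℝ) (z v : ℂ) : ℂ :=
  ((v * deriv g z + z * (deriv (deriv g) z * v)) * (starRingEnd ℂ) (g z) +
    z * deriv g z * (starRingEnd ℂ) (deriv g z * v)) * ((k (‖g z‖ ^ 2) : ℝ) : ℂ) +
  z * deriv g z * (starRingEnd ℂ) (g z) *
    ((k' (‖g z‖ ^ 2) * (2 * ((deriv g z * v) * (starRingEnd ℂ) (g z)).re) : ℝ) : ℂ)

theorem hasDerivAt_UU {g : ℂ → ℂ} (hg : DifferentiableOn ℂ g (ball 0 1)) {k k' : ℝ → ℝ}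
    (hk : ∀ m, 0 ≤ m → HasDerivAt k (k' m) m) {γ : ℝ → ℂ} {v : ℂ} {t : ℝ}
    (hγ : HasDerivAt γ v t) (hb : γ t ∈ ball (0 : ℂ) 1) :
    HasDerivAt (fun s => UU g k (γ s)) (DU g k k' (γ t) v) t := by
  have hn : ball (0 : ℂ) 1 ∈ nhds (γ t) := isOpen_ball.mem_nhds hb
  have h1 : HasDerivAt g (deriv g (γ t)) (γ t) := (hg.differentiableAt hn).hasDerivAt
  have h2 : HasDerivAt (deriv g) (deriv (deriv g) (γ t)) (γ t) :=
    ((hg.deriv isOpen_ball).differentiableAt hn).hasDerivAt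
  have h3 : HasDerivAt (fun s => g (γ s)) (deriv g (γ t) * v) t := h1.comp t hγ
  have h4 : HasDerivAt (fun s => deriv g (γ s)) (deriv (deriv g) (γ t) * v) t := h2.comp t hγ
  have h5 : HasDerivAt (fun s => (starRingEnd ℂ) (g (γ s)))
      ((starRingEnd ℂ) (deriv g (γ t) * v)) t := h3.star
  have h6 : HasDerivAt (fun s => ‖g (γ s)‖ ^ 2)
      (2 * ((deriv g (γ t) * v) * (starRingEnd ℂ) (g (γ t))).re) t := h3.norm_sq
  have h7 : HasDerivAt (fun s => k (‖g (γ s)‖ ^ 2)) (k' (‖g (γ t)‖ ^ 2) *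
      (2 * ((deriv g (γ t) * v) * (starRingEnd ℂ) (g (γ t))).re)) t :=
    (hk (‖g (γ t)‖ ^ 2) (sq_nonneg ‖g (γ t)‖)).comp t h6
  exact ((hγ.mul h4).mul h5).mul h7.ofReal_comp

theorem DU_smul (g : ℂ → ℂ) (k k' : ℝ → ℝ) (z v : ℂ) (ρ : ℝ) :
    DU g k k' z ((ρ : ℂ) * v) = (ρ : ℂ) * DU g k k' z v := by
  have h1 : (deriv g z * ((ρ : ℂ) * v) * (starRingEnd ℂ) (g z)).re =
      ρ * (deriv g z * v * (starRingEnd ℂ) (g z)).re := by
    have h2 : deriv g z * ((ρ : ℂ) * v) * (starRingEnd ℂ) (g z) =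
        (ρ : ℂ) * (deriv g z * v * (starRingEnd ℂ) (g z)) := by ring
    rw [h2, Complex.re_ofReal_mul]
  unfold DU
  rw [h1]
  simp only [map_mul, Complex.conj_ofReal, Complex.ofReal_mul, Complex.ofReal_ofNat]
  ring

theorem DU_identity (g : ℂ → ℂ) (k k' : ℝ → ℝ) (z : ℂ) :
    DU g k k' z z + I * DU g k k' z (I * z) =
      ((2 * ‖z‖ ^ 2 * (‖deriv g z‖ ^ 2 *
        (k (‖g z‖ ^ 2) + ‖g z‖ ^ 2 * k' (‖g z‖ ^ 2))) : ℝ) : ℂ) := by
  unfold DU
  generalize k (‖g z‖ ^ 2) = K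
  generalize k' (‖g z‖ ^ 2) = K'
  generalize deriv (deriv g) z = G2
  generalize deriv g z = G1
  generalize g z = G
  rw [Complex.sq_norm, Complex.sq_norm, Complex.sq_norm]
  simp only [Complex.normSq_apply]
  apply Complex.ext
  · simp
    ring
  · simp
    ring

theorem norm_zp (ρ φ : ℝ) : ‖zp ρ φ‖ = |ρ| := by
  unfold zp
  rw [norm_mul, Complex.norm_exp_ofReal_mul_I, mul_one, Complex.norm_real, Real.norm_eq_abs]

theorem zp_mem {ρ : ℝ} (h : |ρ| < 1) (φ : ℝ) : zp ρ φ ∈ ball (0 : ℂ) 1 := by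
  rw [mem_ball_zero_iff, norm_zp]
  exact h

theorem hasDerivAt_zp_left (ρ φ : ℝ) :
    HasDerivAt (fun s : ℝ => zp s φ) (exp ((φ : ℂ) * I)) ρ := by
  have h := ((hasDerivAt_id ρ).ofReal_comp).mul_const (exp ((φ : ℂ) * I))
  simpa [zp] using h

theorem hasDerivAt_zp_right (ρ φ : ℝ) :
    HasDerivAt (fun s : ℝ => zp ρ s) (I * zp ρ φ) φ := by
  have h1 : HasDerivAt (fun s : ℝ => (s : ℂ) * I) (1 * I) φ := by
    have h := ((hasDerivAt_id φ).ofReal_comp).mul_const I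
    simpa using h
  have h2 := (h1.cexp).const_mul (ρ : ℂ)
  have h3 : (ρ : ℂ) * (exp ((φ : ℂ) * I) * (1 * I)) = I * zp ρ φ := by
    unfold zp
    ring
  rw [h3] at h2
  exact h2

theorem continuous_zp : Continuous (fun p : ℝ × ℝ => zp p.1 p.2) := by
  unfold zp
  fun_prop

theorem continuousOn_DU {g : ℂ → ℂ} (hg : DifferentiableOn ℂ g (ball 0 1)) {k k' : ℝ → ℝ}
    (hk : ∀ m, 0 ≤ m → HasDerivAt k (k' m) m) (hk' : ContinuousOn k' (Ici 0)) :
    ContinuousOn (fun q : ℂ × ℂ => DU g k k' q.1 q.2) (ball 0 1 ×ˢ univ) := by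
  have hfst : MapsTo (fun q : ℂ × ℂ => q.1) (ball (0 : ℂ) 1 ×ˢ univ) (ball 0 1) :=
    fun q hq => hq.1
  have hc1 : ContinuousOn (fun q : ℂ × ℂ => g q.1) (ball 0 1 ×ˢ univ) :=
    hg.continuousOn.comp continuousOn_fst hfst
  have hc2 : ContinuousOn (fun q : ℂ × ℂ => deriv g q.1) (ball 0 1 ×ˢ univ) :=
    (hg.deriv isOpen_ball).continuousOn.comp continuousOn_fst hfst
  have hc3 : ContinuousOn (fun q : ℂ × ℂ => deriv (deriv g) q.1) (ball 0 1 ×ˢ univ) :=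
    ((hg.deriv isOpen_ball).deriv isOpen_ball).continuousOn.comp continuousOn_fst hfst
  have hk0 : ContinuousOn k (Ici 0) := fun m hm => (hk m hm).continuousAt.continuousWithinAt
  have hmaps : MapsTo (fun q : ℂ × ℂ => ‖g q.1‖ ^ 2) (ball (0 : ℂ) 1 ×ˢ univ) (Ici 0) :=
    fun q _ => Set.mem_Ici.2 (sq_nonneg ‖g q.1‖)
  have hc4 : ContinuousOn (fun q : ℂ × ℂ => k (‖g q.1‖ ^ 2)) (ball 0 1 ×ˢ univ) :=
    hk0.comp (hc1.norm.pow 2) hmaps
  have hc5 : ContinuousOn (fun q : ℂ × ℂ => k' (‖g q.1‖ ^ 2)) (ball 0 1 ×ˢ univ) :=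
    hk'.comp (hc1.norm.pow 2) hmaps
  have hc6 : ContinuousOn (fun q : ℂ × ℂ => (starRingEnd ℂ) (g q.1)) (ball 0 1 ×ˢ univ) :=
    Complex.continuous_conj.comp_continuousOn hc1
  have hc7 : ContinuousOn (fun q : ℂ × ℂ => (starRingEnd ℂ) (deriv g q.1 * q.2))
      (ball 0 1 ×ˢ univ) :=
    Complex.continuous_conj.comp_continuousOn (hc2.mul continuousOn_snd)
  have hc8 : ContinuousOn (fun q : ℂ × ℂ =>
      ((deriv g q.1 * q.2) * (starRingEnd ℂ) (g q.1)).re) (ball 0 1 ×ˢ univ) :=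
    Complex.continuous_re.comp_continuousOn ((hc2.mul continuousOn_snd).mul hc6)
  unfold DU
  refine ContinuousOn.add (ContinuousOn.mul (ContinuousOn.add (ContinuousOn.mul
    (ContinuousOn.add (continuousOn_snd.mul hc2)
      (continuousOn_fst.mul (hc3.mul continuousOn_snd))) hc6)
    ((continuousOn_fst.mul hc2).mul hc7)) (Complex.continuous_ofReal.comp_continuousOn hc4))
    (((continuousOn_fst.mul hc2).mul hc6).mul (Complex.continuous_ofReal.comp_continuousOn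
      (hc5.mul (continuousOn_const.mul hc8))))

end StokesAux

open StokesAux in
theorem stokes_disc {g : ℂ → ℂ} (hg : DifferentiableOn ℂ g (ball 0 1))
    {k k' : ℝ → ℝ} (hk : ∀ m, 0 ≤ m → HasDerivAt k (k' m) m) (hk' : ContinuousOn k' (Ici 0))
    {r : ℝ} (hr0 : 0 < r) (hr1 : r < 1) :
    ∫ φ in (0 : ℝ)..2 * Real.pi,
        (zp r φ * deriv g (zp r φ) * (starRingEnd ℂ) (g (zp r φ))).re * k (‖g (zp r φ)‖ ^ 2) =
      ∫ ρ in (0 : ℝ)..r, ∫ φ in (0 : ℝ)..2 * Real.pi,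
        2 * ρ * (‖deriv g (zp ρ φ)‖ ^ 2 *
          (k (‖g (zp ρ φ)‖ ^ 2) + ‖g (zp ρ φ)‖ ^ 2 * k' (‖g (zp ρ φ)‖ ^ 2))) := by
  have habs : ∀ {ρ : ℝ}, 0 ≤ ρ → ρ ≤ r → |ρ| < 1 := fun h1 h2 => by
    rw [abs_of_nonneg h1]
    exact lt_of_le_of_lt h2 hr1
  have hDU := continuousOn_DU hg hk hk'
  -- the radial derivative
  have hP : ContinuousOn (fun p : ℝ × ℝ =>
      (DU g k k' (zp p.1 p.2) (exp ((p.2 : ℂ) * I))).re) (Icc 0 r ×ˢ univ) := by
    refine Complex.continuous_re.comp_continuousOn (hDU.comp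
      (f := fun p : ℝ × ℝ => (zp p.1 p.2, exp ((p.2 : ℂ) * I))) ?_ ?_)
    · exact (continuous_zp.prodMk (by fun_prop)).continuousOn
    · intro p hp
      exact ⟨zp_mem (habs hp.1.1 hp.1.2) _, mem_univ _⟩
  have hA : ∀ φ : ℝ, (zp r φ * deriv g (zp r φ) * (starRingEnd ℂ) (g (zp r φ))).re *
      k (‖g (zp r φ)‖ ^ 2) =
      ∫ ρ in (0 : ℝ)..r, (DU g k k' (zp ρ φ) (exp ((φ : ℂ) * I))).re := by
    intro φ
    have h1 : ∀ ρ ∈ uIcc 0 r, HasDerivAt (fun s : ℝ => (UU g k (zp s φ)).re)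
        (DU g k k' (zp ρ φ) (exp ((φ : ℂ) * I))).re ρ := by
      intro ρ hρ
      rw [uIcc_of_le hr0.le] at hρ
      exact Complex.reCLM.hasFDerivAt.comp_hasDerivAt ρ
        (hasDerivAt_UU hg hk (hasDerivAt_zp_left ρ φ) (zp_mem (habs hρ.1 hρ.2) φ))
    rw [intervalIntegral.integral_eq_sub_of_hasDerivAt h1]
    · have h2 : UU g k (zp 0 φ) = 0 := by
        unfold UU zp
        simp
      rw [h2, Complex.zero_re, sub_zero]
      unfold UU
      rw [Complex.re_mul_ofReal]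
    · refine ContinuousOn.intervalIntegrable ?_
      rw [uIcc_of_le hr0.le]
      exact hP.comp (f := fun ρ : ℝ => (ρ, φ)) (by fun_prop) fun ρ hρ => ⟨hρ, mem_univ _⟩
  have hB : ∀ ρ ∈ Ioo 0 r, ∫ φ in (0 : ℝ)..2 * Real.pi,
      (DU g k k' (zp ρ φ) (exp ((φ : ℂ) * I))).re =
      ∫ φ in (0 : ℝ)..2 * Real.pi, 2 * ρ * (‖deriv g (zp ρ φ)‖ ^ 2 *
          (k (‖g (zp ρ φ)‖ ^ 2) + ‖g (zp ρ φ)‖ ^ 2 * k' (‖g (zp ρ φ)‖ ^ 2))) := by
    intro ρ hρ
    have hb := habs hρ.1.le hρ.2.le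
    have hcont : Continuous (fun φ : ℝ => (DU g k k' (zp ρ φ) (I * zp ρ φ)).im) := by
      rw [← continuousOn_univ]
      refine Complex.continuous_im.comp_continuousOn (hDU.comp
        (f := fun φ : ℝ => (zp ρ φ, I * zp ρ φ)) ?_ ?_)
      · have h1 : Continuous (fun φ : ℝ => zp ρ φ) :=
          continuous_zp.comp (by fun_prop : Continuous fun φ : ℝ => (ρ, φ))
        exact (h1.prodMk (continuous_const.mul h1)).continuousOn
      · intro φ _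
        exact ⟨zp_mem hb _, mem_univ _⟩
    have hcontP : Continuous (fun φ : ℝ => (DU g k k' (zp ρ φ) (exp ((φ : ℂ) * I))).re) := by
      rw [← continuousOn_univ]
      exact hP.comp (f := fun φ : ℝ => (ρ, φ)) (by fun_prop)
        fun φ _ => ⟨⟨hρ.1.le, hρ.2.le⟩, mem_univ _⟩
    have h1 : ∫ φ in (0 : ℝ)..2 * Real.pi, (DU g k k' (zp ρ φ) (I * zp ρ φ)).im = 0 := by
      have h2 : ∀ φ ∈ uIcc 0 (2 * Real.pi), HasDerivAt (fun s : ℝ => (UU g k (zp ρ s)).im)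
          (DU g k k' (zp ρ φ) (I * zp ρ φ)).im φ := fun φ _ =>
        Complex.imCLM.hasFDerivAt.comp_hasDerivAt φ
          (hasDerivAt_UU hg hk (hasDerivAt_zp_right ρ φ) (zp_mem hb φ))
      rw [intervalIntegral.integral_eq_sub_of_hasDerivAt h2 (hcont.intervalIntegrable _ _)]
      have h3 : zp ρ (2 * Real.pi) = zp ρ 0 := by
        unfold zp
        have h4 : exp (((2 * Real.pi : ℝ) : ℂ) * I) = 1 := by
          rw [Complex.ofReal_mul, Complex.ofReal_ofNat]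
          exact Complex.exp_two_pi_mul_I
        rw [h4]
        simp
      rw [h3, sub_self]
    have h2 : ∀ φ : ℝ, ρ * (2 * ρ * (‖deriv g (zp ρ φ)‖ ^ 2 *
          (k (‖g (zp ρ φ)‖ ^ 2) + ‖g (zp ρ φ)‖ ^ 2 * k' (‖g (zp ρ φ)‖ ^ 2)))) =
        ρ * (DU g k k' (zp ρ φ) (exp ((φ : ℂ) * I))).re -
          (DU g k k' (zp ρ φ) (I * zp ρ φ)).im := by
      intro φ
      have h3 := congrArg Complex.re (DU_identity g k k' (zp ρ φ))
      rw [Complex.add_re, Complex.ofReal_re, Complex.I_mul_re] at h3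
      have h4 : DU g k k' (zp ρ φ) (zp ρ φ) =
          (ρ : ℂ) * DU g k k' (zp ρ φ) (exp ((φ : ℂ) * I)) := by
        rw [← DU_smul]
        rfl
      rw [h4, Complex.re_ofReal_mul, norm_zp, sq_abs] at h3
      linarith
    have h3 : ρ * ∫ φ in (0 : ℝ)..2 * Real.pi, 2 * ρ * (‖deriv g (zp ρ φ)‖ ^ 2 *
          (k (‖g (zp ρ φ)‖ ^ 2) + ‖g (zp ρ φ)‖ ^ 2 * k' (‖g (zp ρ φ)‖ ^ 2))) =
        ρ * ∫ φ in (0 : ℝ)..2 * Real.pi, (DU g k k' (zp ρ φ) (exp ((φ : ℂ) * I))).re := by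
      rw [← intervalIntegral.integral_const_mul]
      simp only [h2]
      have h4 : Continuous (fun φ : ℝ => ρ * (DU g k k' (zp ρ φ) (exp ((φ : ℂ) * I))).re) :=
        continuous_const.mul hcontP
      rw [intervalIntegral.integral_sub (h4.intervalIntegrable _ _)
        (hcont.intervalIntegrable _ _), h1, sub_zero, intervalIntegral.integral_const_mul]
    exact (mul_left_cancel₀ hρ.1.ne' h3).symm
  simp only [hA]
  rw [← MeasureTheory.intervalIntegral_intervalIntegral_swap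
    (F := fun ρ φ => (DU g k k' (zp ρ φ) (exp ((φ : ℂ) * I))).re)]
  · exact intervalIntegral.integral_congr_Ioo_of_le hr0.le hB
  · have h1 : IntegrableOn (fun p : ℝ × ℝ =>
        (DU g k k' (zp p.1 p.2) (exp ((p.2 : ℂ) * I))).re) (Icc 0 r ×ˢ Icc 0 (2 * Real.pi)) :=
      (hP.mono (prod_mono le_rfl (subset_univ _))).integrableOn_compact
        (isCompact_Icc.prod isCompact_Icc)
    refine h1.mono_set (prod_mono ?_ ?_)
    · rw [uIoc_of_le hr0.le]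
      exact Ioc_subset_Icc_self
    · rw [uIoc_of_le Real.two_pi_pos.le]
      exact Ioc_subset_Icc_self

end Vale.Agent.Lib.P142
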