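import Vale.Agent.Lib.P142.Growth
import Vale.Agent.Lib.P142.Stokes

/-!
# P142, the classical range, part A: distortion and growth bounds for univalent functions
-/

open Complex MeasureTheory Set Metric Filter

namespace Vale.Agent.Lib.P142

theorem low_zp_mem {r : ℝ} (hr : 0 ≤ r) (hr1 : r < 1) (φ : ℝ) : zp r φ ∈ ball (0 : ℂ) 1 := by
  rw [mem_ball_zero_iff]
  unfold zp
  rw [norm_mul, norm_exp_ofReal_mul_I, mul_one, Complex.norm_real, Real.norm_of_nonneg hr]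
  exact hr1

/-- `|f''| ≤ (4 + 2 r)/(1 - r²) |f'|` -/
theorem low_pre {f : ℂ → ℂ} (hf : Univ f) {r θ : ℝ} (hr0 : 0 < r) (hr1 : r < 1) :
    ‖deriv (deriv f) (zp r θ)‖ * (1 - r ^ 2) ≤ (4 + 2 * r) * ‖deriv f (zp r θ)‖ := by
  obtain ⟨h1, al, q, hinv, hsq, hp1, hp2⟩ := gr_body_ak' hf (θ := θ) hr0 hr1
  have hal : ‖al 1‖ ≤ 2 := gr_al_bound hinv hsq hp1 hp2 1
  have hne : deriv f (zp r θ) ≠ 0 := deriv_ne_zero_of_univ hf (low_zp_mem hr0.le hr1 θ)
  have ha2 : ak f 2 r θ = -al 1 := by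
    have h := hinv.2 1 le_rfl
    rw [Finset.sum_range_succ, Finset.sum_range_one] at h
    have h1' : ak f 1 r θ = 1 := h1
    simp only [zero_add, Nat.sub_zero, Nat.sub_self, hinv.1, mul_one, h1', one_mul] at h
    exact eq_neg_of_add_eq_zero_right h
  have hb2 : ak f 2 r θ = (r : ℂ) + om r θ * (deriv (deriv f) (zp r θ) / 2) / deriv f (zp r θ) := by
    unfold ak bk
    rw [Finset.sum_range_succ, Finset.sum_range_one]
    simp only [Nat.sub_zero, Nat.add_sub_cancel, zero_add, one_mul, Nat.choose_zero_right,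
      Nat.cast_one, Nat.factorial, iteratedDeriv_one, div_one, mul_one, pow_one]
    rw [iteratedDeriv_succ, iteratedDeriv_one]
    norm_num
    rw [div_self hne, mul_one]
  have h2 : om r θ * deriv (deriv f) (zp r θ) = 2 * (-al 1 - r) * deriv f (zp r θ) := by
    rw [← ha2, hb2]
    field_simp
    ring
  have h3 : ‖om r θ‖ = 1 - r ^ 2 := by
    unfold om
    rw [norm_mul, norm_neg, norm_exp_ofReal_mul_I, one_mul]
    have : (1 : ℂ) - (r : ℂ) ^ 2 = ((1 - r ^ 2 : ℝ) : ℂ) := by push_cast; rfl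
    rw [this, Complex.norm_real, Real.norm_of_nonneg (by nlinarith)]
  have h4 := congrArg norm h2
  rw [norm_mul, norm_mul, norm_mul, h3, Complex.norm_ofNat] at h4
  have h5 : ‖-al 1 - (r : ℂ)‖ ≤ 2 + r := by
    refine (norm_sub_le _ _).trans ?_
    rw [norm_neg, Complex.norm_real, Real.norm_of_nonneg hr0.le]
    linarith
  rw [mul_comm, h4]
  nlinarith [norm_nonneg (deriv f (zp r θ))]

theorem low_hasDerivAt_f' {f : ℂ → ℂ} (hf : Univ f) {s θ : ℝ} (hs0 : 0 ≤ s) (hs1 : s < 1) :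
    HasDerivAt (fun s : ℝ => deriv f (zp s θ)) (deriv (deriv f) (zp s θ) * exp ((θ : ℂ) * I)) s := by
  have h1 : DifferentiableAt ℂ (deriv f) (zp s θ) :=
    (hf.diff.deriv isOpen_ball).differentiableAt (isOpen_ball.mem_nhds (low_zp_mem hs0 hs1 θ))
  exact h1.hasDerivAt.comp s (StokesAux.hasDerivAt_zp_left s θ)

theorem low_hasDerivAt_f {f : ℂ → ℂ} (hf : Univ f) {s θ : ℝ} (hs0 : 0 ≤ s) (hs1 : s < 1) :
    HasDerivAt (fun s : ℝ => f (zp s θ)) (deriv f (zp s θ) * exp ((θ : ℂ) * I)) s := by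
  have h1 : DifferentiableAt ℂ f (zp s θ) :=
    hf.diff.differentiableAt (isOpen_ball.mem_nhds (low_zp_mem hs0 hs1 θ))
  exact h1.hasDerivAt.comp s (StokesAux.hasDerivAt_zp_left s θ)

/-- Koebe's distortion theorem (upper bound) -/
theorem low_dist {f : ℂ → ℂ} (hf : Univ f) {r θ : ℝ} (hr0 : 0 ≤ r) (hr1 : r < 1) :
    ‖deriv f (zp r θ)‖ ≤ 2 * ‖deriv f 0‖ / (1 - r) ^ 3 := by
  have hanti : AntitoneOn (fun s : ℝ => ‖deriv f (zp s θ)‖ ^ 2 * ((1 - s) ^ 6 / (1 + s) ^ 2))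
      (Icc 0 r) := by
    have hder : ∀ s ∈ Icc 0 r, HasDerivAt
        (fun s : ℝ => ‖deriv f (zp s θ)‖ ^ 2 * ((1 - s) ^ 6 / (1 + s) ^ 2))
        (2 * inner ℝ (deriv f (zp s θ)) (deriv (deriv f) (zp s θ) * exp ((θ : ℂ) * I)) *
          ((1 - s) ^ 6 / (1 + s) ^ 2) + ‖deriv f (zp s θ)‖ ^ 2 *
          ((6 * (1 - s) ^ 5 * (-1) * (1 + s) ^ 2 - (1 - s) ^ 6 * (2 * (1 + s) ^ 1 * 1)) /
            ((1 + s) ^ 2) ^ 2)) s := by
      intro s hs
      have h1 := (low_hasDerivAt_f' hf (θ := θ) hs.1 (hs.2.trans_lt hr1)).norm_sq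
      have h2 : HasDerivAt (fun s : ℝ => (1 - s) ^ 6) (6 * (1 - s) ^ 5 * (-1)) s := by
        have := ((hasDerivAt_id s).const_sub 1).fun_pow 6
        simpa using this
      have h3 : HasDerivAt (fun s : ℝ => (1 + s) ^ 2) (2 * (1 + s) ^ 1 * 1) s := by
        have := ((hasDerivAt_id s).const_add 1).fun_pow 2
        simpa using this
      have h4 : (1 + s) ^ 2 ≠ 0 := by
        have : 0 < 1 + s := by linarith [hs.1]
        positivity
      exact h1.mul (h2.div h3 h4)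
    refine antitoneOn_of_deriv_nonpos (convex_Icc 0 r) (fun s hs =>
      (hder s hs).continuousAt.continuousWithinAt) (fun s hs => ?_) (fun s hs => ?_)
    · rw [interior_Icc] at hs
      exact (hder s (Ioo_subset_Icc_self hs)).differentiableAt.differentiableWithinAt
    · rw [interior_Icc] at hs
      rw [(hder s (Ioo_subset_Icc_self hs)).deriv]
      have hs1 : s < 1 := hs.2.trans hr1
      have hs0 : 0 < s := hs.1
      have h1 := low_pre hf (θ := θ) hs0 hs1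
      have h2 : inner ℝ (deriv f (zp s θ)) (deriv (deriv f) (zp s θ) * exp ((θ : ℂ) * I)) ≤
          ‖deriv f (zp s θ)‖ * ‖deriv (deriv f) (zp s θ)‖ := by
        refine (real_inner_le_norm _ _).trans (le_of_eq ?_)
        rw [norm_mul, norm_exp_ofReal_mul_I, mul_one]
      set A := ‖deriv f (zp s θ)‖ with hA
      set B := ‖deriv (deriv f) (zp s θ)‖ with hB
      have hA0 : 0 ≤ A := norm_nonneg _
      have p1 : 0 < 1 - s := by linarith
      have p2 : 0 < 1 + s := by linarith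
      have h3 : A * B * (1 - s ^ 2) ≤ (4 + 2 * s) * A ^ 2 := by nlinarith
      have h4 : A * B ≤ (4 + 2 * s) * A ^ 2 / (1 - s ^ 2) := by
        rw [le_div_iff₀ (by nlinarith)]
        exact h3
      have hw : 0 ≤ (1 - s) ^ 6 / (1 + s) ^ 2 := by positivity
      have h5 := mul_le_mul_of_nonneg_right (h2.trans h4) hw
      have h6 : 2 * ((4 + 2 * s) * A ^ 2 / (1 - s ^ 2) * ((1 - s) ^ 6 / (1 + s) ^ 2)) + A ^ 2 *
          ((6 * (1 - s) ^ 5 * (-1) * (1 + s) ^ 2 - (1 - s) ^ 6 * (2 * (1 + s) ^ 1 * 1)) /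
            ((1 + s) ^ 2) ^ 2) = 0 := by
        have e : (1 : ℝ) - s ^ 2 = (1 - s) * (1 + s) := by ring
        rw [e]
        field_simp
        ring
      nlinarith
  have h1 := hanti (left_mem_Icc.2 hr0) (right_mem_Icc.2 hr0) hr0
  have hz : zp 0 θ = 0 := by simp [zp]
  simp only [hz, sub_zero, add_zero, one_pow, div_one, mul_one] at h1
  have p1 : 0 < 1 - r := by linarith
  have p2 : 0 < 1 + r := by linarith
  rw [le_div_iff₀ (by positivity)]
  have h2 : (‖deriv f (zp r θ)‖ * (1 - r) ^ 3) ^ 2 ≤ (2 * ‖deriv f 0‖) ^ 2 := by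
    have h3 : ‖deriv f (zp r θ)‖ ^ 2 * (1 - r) ^ 6 ≤ ‖deriv f 0‖ ^ 2 * (1 + r) ^ 2 := by
      rw [← mul_div_assoc, div_le_iff₀ (by positivity)] at h1
      exact h1
    have h4 : (1 + r) ^ 2 ≤ 4 := by nlinarith
    have h5 := mul_le_mul_of_nonneg_left h4 (sq_nonneg ‖deriv f 0‖)
    calc (‖deriv f (zp r θ)‖ * (1 - r) ^ 3) ^ 2 = ‖deriv f (zp r θ)‖ ^ 2 * (1 - r) ^ 6 := by ring
      _ ≤ _ := h3
      _ ≤ _ := h5
      _ = _ := by ring
  exact (pow_le_pow_iff_left₀ (by positivity) (by positivity) two_ne_zero).1 h2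

/-- growth theorem -/
theorem low_growth {f : ℂ → ℂ} (hf : Univ f) {r θ : ℝ} (hr0 : 0 ≤ r) (hr1 : r < 1) :
    ‖f (zp r θ) - f 0‖ ≤ ‖deriv f 0‖ / (1 - r) ^ 2 := by
  have hz : zp 0 θ = 0 := by simp [zp]
  have hder : ∀ s ∈ Icc 0 r, HasDerivAt (fun s : ℝ => f (zp s θ) - f 0)
      (deriv f (zp s θ) * exp ((θ : ℂ) * I)) s := fun s hs =>
    (low_hasDerivAt_f hf hs.1 (hs.2.trans_lt hr1)).sub_const _
  have hB : ∀ s ∈ Icc 0 r, HasDerivAt (fun s : ℝ => ‖deriv f 0‖ / (1 - s) ^ 2)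
      (2 * ‖deriv f 0‖ / (1 - s) ^ 3) s := by
    intro s hs
    have p1 : 0 < 1 - s := by linarith [hs.2]
    have h2 : HasDerivAt (fun s : ℝ => (1 - s) ^ 2) (2 * (1 - s) ^ 1 * (-1)) s := by
      have := ((hasDerivAt_id s).const_sub 1).fun_pow 2
      simpa using this
    have h3 := (hasDerivAt_const s ‖deriv f 0‖).div h2 (by positivity)
    refine h3.congr_deriv ?_
    field_simp
    ring
  exact image_norm_le_of_norm_deriv_right_le_deriv_boundary'
    (f := fun s : ℝ => f (zp s θ) - f 0)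
    (f' := fun s => deriv f (zp s θ) * exp ((θ : ℂ) * I))
    (B := fun s : ℝ => ‖deriv f 0‖ / (1 - s) ^ 2) (B' := fun s => 2 * ‖deriv f 0‖ / (1 - s) ^ 3)
    (fun s hs => (hder s hs).continuousAt.continuousWithinAt)
    (fun s hs => (hder s (Ico_subset_Icc_self hs)).hasDerivWithinAt)
    (by simp only [hz, sub_self, norm_zero]; positivity)
    (fun s hs => (hB s hs).continuousAt.continuousWithinAt)
    (fun s hs => (hB s (Ico_subset_Icc_self hs)).hasDerivWithinAt)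
    (fun s hs => by
      rw [norm_mul, norm_exp_ofReal_mul_I, mul_one]
      exact low_dist hf hs.1 (hs.2.trans hr1)) (right_mem_Icc.2 hr0)

end Vale.Agent.Lib.P142
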