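import Vale.Agent.Lib.P142.LowerA
import Vale.Agent.Lib.P142.Area

/-!
# P142, the classical range, part B: a Hardy inequality along rays, change of variables
-/

open Complex MeasureTheory Set Metric Filter

namespace Vale.Agent.Lib.P142

/-- `P = (1 + |g|²)^{q/2}` -/
noncomputable def lowP (f : ℂ → ℂ) (q : ℝ) (z : ℂ) : ℝ := (1 + ‖f z - f 0‖ ^ 2) ^ (q / 2)

/-- `R = |g'|² (1 + |g|²)^{q/2 - 1} (1 - |z|)²` -/
noncomputable def lowR (f : ℂ → ℂ) (q : ℝ) (z : ℂ) : ℝ :=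
  (1 - ‖z‖) ^ 2 * (‖deriv f z‖ ^ 2 * (1 + ‖f z - f 0‖ ^ 2) ^ (q / 2 - 1))

theorem low_base_ne (f : ℂ → ℂ) (z : ℂ) : (1 : ℝ) + ‖f z - f 0‖ ^ 2 ≠ 0 := by
  have : (0 : ℝ) < 1 + ‖f z - f 0‖ ^ 2 := by positivity
  exact this.ne'

theorem lowP_pos (f : ℂ → ℂ) (q : ℝ) (z : ℂ) : 0 < lowP f q z := by
  unfold lowP
  positivity

theorem lowR_nonneg (f : ℂ → ℂ) (q : ℝ) (z : ℂ) : 0 ≤ lowR f q z := by
  unfold lowR
  positivity

theorem low_norm_zp {s : ℝ} (hs : 0 ≤ s) (θ : ℝ) : ‖zp s θ‖ = s := by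
  unfold zp
  rw [norm_mul, norm_exp_ofReal_mul_I, mul_one, Complex.norm_real, Real.norm_of_nonneg hs]

theorem low_contP {f : ℂ → ℂ} (hf : Univ f) (q : ℝ) : ContinuousOn (lowP f q) (ball 0 1) := by
  unfold lowP
  exact (continuousOn_const.add ((hf.diff.continuousOn.sub continuousOn_const).norm.pow 2)).rpow_const
    fun z _ => Or.inl (low_base_ne f z)

theorem low_contR {f : ℂ → ℂ} (hf : Univ f) (q : ℝ) : ContinuousOn (lowR f q) (ball 0 1) := by
  unfold lowR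
  refine ((continuousOn_const.sub continuousOn_id.norm).pow 2).mul
    (((hf.diff.deriv isOpen_ball).continuousOn.norm.pow 2).mul ?_)
  exact (continuousOn_const.add ((hf.diff.continuousOn.sub continuousOn_const).norm.pow 2)).rpow_const
    fun z _ => Or.inl (low_base_ne f z)

theorem low_ray_cont {F : ℂ → ℝ} (hF : ContinuousOn F (ball 0 1)) {a ρ : ℝ} (ha : 0 ≤ a)
    (hρ : ρ < 1) (θ : ℝ) : ContinuousOn (fun s : ℝ => F (zp s θ)) (Icc a ρ) := by
  refine hF.comp ?_ fun s hs => low_zp_mem (ha.trans hs.1) (hs.2.trans_lt hρ) θ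
  unfold zp
  fun_prop

/-- the Hardy inequality along a ray -/
theorem low_hardy {f : ℂ → ℂ} (hf : Univ f) {q : ℝ} (hq0 : 0 ≤ q) (hq1 : q ≤ 1) {a ρ : ℝ}
    (ha : 0 ≤ a) (haρ : a ≤ ρ) (hρ : ρ < 1) (θ : ℝ) :
    ∫ s in a..ρ, lowP f q (zp s θ) ≤
      2 * (1 - a) * lowP f q (zp a θ) + ∫ s in a..ρ, lowR f q (zp s θ) := by
  have hcP := low_ray_cont (low_contP hf q) ha hρ θ
  have hcR := low_ray_cont (low_contR hf q) ha hρ θ
  have hiP : IntervalIntegrable (fun s => lowP f q (zp s θ)) volume a ρ := by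
    rw [← uIcc_of_le haρ] at hcP
    exact hcP.intervalIntegrable
  have hiR : IntervalIntegrable (fun s => lowR f q (zp s θ)) volume a ρ := by
    rw [← uIcc_of_le haρ] at hcR
    exact hcR.intervalIntegrable
  have hder : ∀ s ∈ Icc a ρ, HasDerivAt (fun s : ℝ => (1 - s) * lowP f q (zp s θ))
      ((-1) * lowP f q (zp s θ) + (1 - s) *
        ((0 + 2 * inner ℝ (f (zp s θ) - f 0) (deriv f (zp s θ) * exp ((θ : ℂ) * I))) * (q / 2) *
          (1 + ‖f (zp s θ) - f 0‖ ^ 2) ^ (q / 2 - 1))) s := by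
    intro s hs
    have h0 := (low_hasDerivAt_f hf (θ := θ) (ha.trans hs.1) (hs.2.trans_lt hρ)).sub_const (f 0)
    have h1 := ((hasDerivAt_const s (1 : ℝ)).add h0.norm_sq).rpow_const (p := q / 2)
      (Or.inl (low_base_ne f (zp s θ)))
    have h2 : HasDerivAt (fun s : ℝ => 1 - s) (-1) s := by
      simpa using (hasDerivAt_id s).const_sub 1
    exact h2.mul h1
  have key := intervalIntegral.sub_le_integral_of_hasDeriv_right_of_le haρ
    (g := fun s : ℝ => (1 - s) * lowP f q (zp s θ))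
    (φ := fun s => -(1 / 2) * lowP f q (zp s θ) + 1 / 2 * lowR f q (zp s θ))
    (fun s hs => (hder s hs).continuousAt.continuousWithinAt)
    (fun s hs => (hder s (Ioo_subset_Icc_self hs)).hasDerivWithinAt)
    (((continuousOn_const.mul hcP).add (continuousOn_const.mul hcR)).integrableOn_Icc) ?_
  · rw [intervalIntegral.integral_add (hiP.const_mul _) (hiR.const_mul _),
      intervalIntegral.integral_const_mul, intervalIntegral.integral_const_mul] at key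
    have h1 : 0 ≤ (1 - ρ) * lowP f q (zp ρ θ) :=
      mul_nonneg (by linarith) (lowP_pos f q _).le
    linarith
  · intro s hs
    have hs0 : 0 ≤ s := ha.trans hs.1.le
    have hs1 : s < 1 := hs.2.trans hρ
    set G := ‖f (zp s θ) - f 0‖ with hG
    set A := ‖deriv f (zp s θ)‖ with hA
    set K := (1 + G ^ 2) ^ (q / 2 - 1) with hK
    have hG0 : 0 ≤ G := norm_nonneg _
    have hA0 : 0 ≤ A := norm_nonneg _
    have hM : 0 < 1 + G ^ 2 := by positivity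
    have hK0 : 0 < K := Real.rpow_pos_of_pos hM _
    have hP : lowP f q (zp s θ) = K * (1 + G ^ 2) := by
      unfold lowP
      rw [← hG, hK, ← Real.rpow_add_one hM.ne']
      congr 1
      ring
    have hR : lowR f q (zp s θ) = (1 - s) ^ 2 * (A ^ 2 * K) := by
      unfold lowR
      rw [low_norm_zp hs0]
    have hin : inner ℝ (f (zp s θ) - f 0) (deriv f (zp s θ) * exp ((θ : ℂ) * I)) ≤ G * A := by
      refine (real_inner_le_norm _ _).trans (le_of_eq ?_)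
      rw [norm_mul, norm_exp_ofReal_mul_I, mul_one]
    rw [hP, hR]
    have p1 : 0 ≤ 1 - s := by linarith
    have h1 : (1 - s) * ((0 + 2 * inner ℝ (f (zp s θ) - f 0)
        (deriv f (zp s θ) * exp ((θ : ℂ) * I))) * (q / 2) * K) ≤ (1 - s) * (q * (G * A) * K) := by
      refine mul_le_mul_of_nonneg_left ?_ p1
      refine mul_le_mul_of_nonneg_right ?_ hK0.le
      nlinarith
    have h2 : (1 - s) * (q * (G * A) * K) ≤
        1 / 2 * (K * (1 + G ^ 2)) + 1 / 2 * ((1 - s) ^ 2 * (A ^ 2 * K)) := by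
      have h3 : (1 - s) * A * (q * G) ≤ 1 / 2 * (1 + G ^ 2) + 1 / 2 * ((1 - s) * A) ^ 2 := by
        have h4 : (q * G) ^ 2 ≤ 1 + G ^ 2 := by
          have h5 : q ^ 2 ≤ 1 := by nlinarith
          nlinarith [mul_le_mul_of_nonneg_right h5 (sq_nonneg G)]
        nlinarith [sq_nonneg ((1 - s) * A - q * G)]
      nlinarith [mul_le_mul_of_nonneg_left h3 hK0.le]
    linarith

/-- the Hardy inequality along a ray, up to the circle -/
theorem low_hardy' {f : ℂ → ℂ} (hf : Univ f) {q : ℝ} (hq0 : 0 ≤ q) (hq1 : q ≤ 1) (θ : ℝ) :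
    ∫⁻ s in Ioo (1 / 2 : ℝ) 1, ENNReal.ofReal (lowP f q (zp s θ)) ≤
      ENNReal.ofReal ((1 + (4 * ‖deriv f 0‖) ^ 2) ^ (q / 2)) +
        ∫⁻ s in Ioo (1 / 2 : ℝ) 1, ENNReal.ofReal (lowR f q (zp s θ)) := by
  have hU : Ioo (1 / 2 : ℝ) 1 = ⋃ n : ℕ, Ioc (1 / 2 : ℝ) (1 - 1 / (n + 2)) := by
    ext s
    simp only [mem_iUnion, mem_Ioc, mem_Ioo]
    constructor
    · rintro ⟨h1, h2⟩
      obtain ⟨n, hn⟩ := exists_nat_one_div_lt (sub_pos.2 h2)
      refine ⟨n, h1, ?_⟩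
      have h3 : (1 : ℝ) / (n + 2) ≤ 1 / (n + 1) := by
        apply one_div_le_one_div_of_le
        · positivity
        · linarith
      linarith
    · rintro ⟨n, h1, h2⟩
      refine ⟨h1, h2.trans_lt ?_⟩
      have : (0 : ℝ) < 1 / (n + 2) := by positivity
      linarith
  have hmono : Monotone fun n : ℕ => Ioc (1 / 2 : ℝ) (1 - 1 / (n + 2)) := by
    intro m n hmn
    refine Ioc_subset_Ioc_right ?_
    have h1 : (m : ℝ) ≤ n := by exact_mod_cast hmn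
    have h2 : (1 : ℝ) / (n + 2) ≤ 1 / (m + 2) := by
      apply one_div_le_one_div_of_le
      · positivity
      · linarith
    linarith
  have hstep : ∀ n : ℕ, ∫⁻ s in Ioc (1 / 2 : ℝ) (1 - 1 / (n + 2)),
      ENNReal.ofReal (lowP f q (zp s θ)) ≤
      ENNReal.ofReal ((1 + (4 * ‖deriv f 0‖) ^ 2) ^ (q / 2)) +
        ∫⁻ s in Ioo (1 / 2 : ℝ) 1, ENNReal.ofReal (lowR f q (zp s θ)) := by
    intro n
    have hn0 : (0 : ℝ) ≤ n := Nat.cast_nonneg n
    have hn1 : (1 : ℝ) / (n + 2) ≤ 1 / 2 := by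
      apply one_div_le_one_div_of_le
      · norm_num
      · linarith
    have hn2 : (0 : ℝ) < 1 / (n + 2) := by positivity
    set ρ : ℝ := 1 - 1 / (n + 2) with hρ
    have hρ1 : ρ < 1 := by linarith
    have hρ2 : (1 / 2 : ℝ) ≤ ρ := by linarith
    have hcP := low_ray_cont (low_contP hf q) (by norm_num : (0 : ℝ) ≤ 1 / 2) hρ1 θ
    have hcR := low_ray_cont (low_contR hf q) (by norm_num : (0 : ℝ) ≤ 1 / 2) hρ1 θ
    have hiP : IntegrableOn (fun s => lowP f q (zp s θ)) (Ioc (1 / 2) ρ) volume :=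
      hcP.integrableOn_Icc.mono_set Ioc_subset_Icc_self
    have hiR : IntegrableOn (fun s => lowR f q (zp s θ)) (Ioc (1 / 2) ρ) volume :=
      hcR.integrableOn_Icc.mono_set Ioc_subset_Icc_self
    have h1 := low_hardy hf hq0 hq1 (by norm_num : (0 : ℝ) ≤ 1 / 2) hρ2 hρ1 θ
    rw [intervalIntegral.integral_of_le hρ2, intervalIntegral.integral_of_le hρ2] at h1
    have h2 : lowP f q (zp (1 / 2) θ) ≤ (1 + (4 * ‖deriv f 0‖) ^ 2) ^ (q / 2) := by
      unfold lowP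
      refine Real.rpow_le_rpow (by positivity) ?_ (by linarith)
      have h3 := low_growth hf (r := 1 / 2) (θ := θ) (by norm_num) (by norm_num)
      have h4 : ‖deriv f 0‖ / (1 - 1 / 2) ^ 2 = 4 * ‖deriv f 0‖ := by ring
      rw [h4] at h3
      have h5 := pow_le_pow_left₀ (norm_nonneg _) h3 2
      linarith
    rw [← ofReal_integral_eq_lintegral_ofReal hiP
      (Eventually.of_forall fun s => (lowP_pos f q _).le)]
    have h3 : ∫ s in Ioc (1 / 2) ρ, lowP f q (zp s θ) ≤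
        (1 + (4 * ‖deriv f 0‖) ^ 2) ^ (q / 2) + ∫ s in Ioc (1 / 2) ρ, lowR f q (zp s θ) := by
      linarith
    refine (ENNReal.ofReal_le_ofReal h3).trans ?_
    rw [ENNReal.ofReal_add (by positivity)
      (integral_nonneg fun s => lowR_nonneg f q _),
      ofReal_integral_eq_lintegral_ofReal hiR (Eventually.of_forall fun s => lowR_nonneg f q _)]
    gcongr
  have hL : ∫⁻ s in Ioo (1 / 2 : ℝ) 1, ENNReal.ofReal (lowP f q (zp s θ)) =
      ⨆ n : ℕ, ∫⁻ s in Ioc (1 / 2 : ℝ) (1 - 1 / (n + 2)), ENNReal.ofReal (lowP f q (zp s θ)) := by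
    rw [hU]
    exact setLIntegral_iUnion_of_directed _ hmono.directed_le
  rw [hL]
  exact iSup_le hstep

/-- change of variables -/
theorem low_change {f : ℂ → ℂ} (hf : Univ f) {κ : ℝ} (hκ : 2 < κ) :
    IntegrableOn (fun z => ‖deriv f z‖ ^ 2 * (1 + ‖f z - f 0‖ ^ 2) ^ (-κ / 2)) (ball 0 1)
      volume := by
  have hd : ∀ z ∈ ball (0 : ℂ) 1, HasFDerivWithinAt f
      ((fderiv ℂ f z).restrictScalars ℝ : ℂ →L[ℝ] ℂ) (ball 0 1) z := by
    intro z hz
    have h1 : DifferentiableAt ℂ f z := hf.diff.differentiableAt (isOpen_ball.mem_nhds hz)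
    exact (h1.hasFDerivAt.restrictScalars ℝ).hasFDerivWithinAt
  have h0 : Integrable (fun w : ℂ => ((1 : ℝ) + ‖w‖ ^ 2) ^ (-κ / 2)) :=
    integrable_rpow_neg_one_add_norm_sq (by simpa using hκ)
  have h1 : IntegrableOn (fun w : ℂ => ((1 : ℝ) + ‖w - f 0‖ ^ 2) ^ (-κ / 2)) (f '' ball 0 1)
      volume := (h0.comp_sub_right (f 0)).integrableOn
  rw [integrableOn_image_iff_integrableOn_abs_det_fderiv_smul volume measurableSet_ball hd
    hf.inj] at h1
  refine h1.congr_fun ?_ measurableSet_ball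
  intro z hz
  simp only [smul_eq_mul]
  congr 1
  have h2 : ((fderiv ℂ f z).restrictScalars ℝ : ℂ →L[ℝ] ℂ).det = Algebra.norm ℝ (deriv f z) := by
    rw [Algebra.norm_apply, ContinuousLinearMap.det]
    congr 1
    refine LinearMap.ext fun w => ?_
    have h3 : fderiv ℂ f z w = w * deriv f z := by
      have h4 := (fderiv ℂ f z).map_smul w 1
      rw [smul_eq_mul, mul_one, smul_eq_mul] at h4
      rw [h4]
      rfl
    change fderiv ℂ f z w = deriv f z * w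
    rw [h3, mul_comm]
  rw [h2, Algebra.norm_complex_apply, Complex.normSq_eq_norm_sq, abs_of_nonneg (sq_nonneg _)]

/-- `(1 - |z|)² (1 + |g|²)^{1/2} ≤ 1 + |f'(0)|` -/
theorem low_weight {f : ℂ → ℂ} (hf : Univ f) {z : ℂ} (hz : z ∈ ball (0 : ℂ) 1) :
    (1 - ‖z‖) ^ 2 * (1 + ‖f z - f 0‖ ^ 2) ^ (1 / 2 : ℝ) ≤ 1 + ‖deriv f 0‖ := by
  have hz1 : ‖z‖ < 1 := by rwa [mem_ball_zero_iff] at hz
  have hzz : zp ‖z‖ z.arg = z := Complex.norm_mul_exp_arg_mul_I z
  have h1 := low_growth hf (r := ‖z‖) (θ := z.arg) (norm_nonneg z) hz1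
  rw [hzz] at h1
  have p1 : 0 < 1 - ‖z‖ := by linarith
  have p2 : (1 - ‖z‖) ^ 2 ≤ 1 := by nlinarith [norm_nonneg z]
  rw [le_div_iff₀ (by positivity)] at h1
  have h2 : (1 + ‖f z - f 0‖ ^ 2) ^ (1 / 2 : ℝ) ≤ 1 + ‖f z - f 0‖ := by
    rw [← Real.sqrt_eq_rpow]
    refine Real.sqrt_le_iff.2 ⟨by positivity, ?_⟩
    nlinarith [norm_nonneg (f z - f 0)]
  calc (1 - ‖z‖) ^ 2 * (1 + ‖f z - f 0‖ ^ 2) ^ (1 / 2 : ℝ)
      ≤ (1 - ‖z‖) ^ 2 * (1 + ‖f z - f 0‖) := mul_le_mul_of_nonneg_left h2 (sq_nonneg _)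
    _ = (1 - ‖z‖) ^ 2 + ‖f z - f 0‖ * (1 - ‖z‖) ^ 2 := by ring
    _ ≤ _ := add_le_add p2 h1

/-- area integrability of `R` for `q < 1` -/
theorem low_intR {f : ℂ → ℂ} (hf : Univ f) {q : ℝ} (hq : q < 1) :
    IntegrableOn (lowR f q) (ball 0 1) volume := by
  have h1 := (low_change hf (κ := 3 - q) (by linarith)).const_mul (1 + ‖deriv f 0‖)
  refine Integrable.mono' h1 ((low_contR hf q).aestronglyMeasurable measurableSet_ball) ?_
  refine (ae_restrict_iff' measurableSet_ball).2 (Filter.Eventually.of_forall fun z hz => ?_)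
  rw [Real.norm_of_nonneg (lowR_nonneg f q z)]
  have h2 := low_weight hf hz
  have hM : 0 < 1 + ‖f z - f 0‖ ^ 2 := by positivity
  unfold lowR
  have h3 : (1 + ‖f z - f 0‖ ^ 2) ^ (q / 2 - 1) =
      (1 + ‖f z - f 0‖ ^ 2) ^ (1 / 2 : ℝ) * (1 + ‖f z - f 0‖ ^ 2) ^ (-(3 - q) / 2) := by
    rw [← Real.rpow_add hM]
    congr 1
    ring
  rw [h3]
  have h4 : 0 ≤ ‖deriv f z‖ ^ 2 * (1 + ‖f z - f 0‖ ^ 2) ^ (-(3 - q) / 2) := by positivity
  calc (1 - ‖z‖) ^ 2 * (‖deriv f z‖ ^ 2 * ((1 + ‖f z - f 0‖ ^ 2) ^ (1 / 2 : ℝ) *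
        (1 + ‖f z - f 0‖ ^ 2) ^ (-(3 - q) / 2)))
      = (1 - ‖z‖) ^ 2 * (1 + ‖f z - f 0‖ ^ 2) ^ (1 / 2 : ℝ) *
        (‖deriv f z‖ ^ 2 * (1 + ‖f z - f 0‖ ^ 2) ^ (-(3 - q) / 2)) := by ring
    _ ≤ _ := mul_le_mul_of_nonneg_right h2 h4

end Vale.Agent.Lib.P142
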