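import Vale.Agent.Lib.P142.LowerB

/-!
# P142, the classical range, part C: `|f'|^t` is integrable over the disc for `0 ≤ t < 2/3`
-/

open Complex MeasureTheory Set Metric Filter

namespace Vale.Agent.Lib.P142

theorem low_polar {G : ℂ → ENNReal} (hG : Measurable G) :
    ∫⁻ z in {z : ℂ | 1 / 2 < ‖z‖ ∧ ‖z‖ < 1}, G z =
      ∫⁻ θ in Ioo (-Real.pi) Real.pi, ∫⁻ s in Ioo (1 / 2 : ℝ) 1,
        ENNReal.ofReal s * G (zp s θ) := by
  set A : Set ℂ := {z | 1 / 2 < ‖z‖ ∧ ‖z‖ < 1} with hA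
  have hAm : MeasurableSet A :=
    (measurableSet_lt measurable_const measurable_norm).inter
      (measurableSet_lt measurable_norm measurable_const)
  rw [← lintegral_indicator hAm, ← Complex.lintegral_comp_polarCoord_symm]
  have hGm : Measurable (A.indicator G) := hG.indicator hAm
  have hsymm : ∀ p : ℝ × ℝ, Complex.polarCoord.symm p = zp p.1 p.2 := by
    intro p
    rw [Complex.polarCoord_symm_apply, zp, Complex.exp_mul_I]
    push_cast
    rfl
  have hzpm : Measurable fun p : ℝ × ℝ => zp p.1 p.2 := by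
    unfold zp
    fun_prop
  have hint : Measurable fun p : ℝ × ℝ =>
      ENNReal.ofReal p.1 • A.indicator G (Complex.polarCoord.symm p) := by
    simp only [hsymm, smul_eq_mul]
    exact measurable_fst.ennreal_ofReal.mul (hGm.comp hzpm)
  change ∫⁻ p in Set.Ioi (0 : ℝ) ×ˢ Set.Ioo (-Real.pi) Real.pi,
    ENNReal.ofReal p.1 • A.indicator G (Complex.polarCoord.symm p) = _
  rw [Measure.volume_eq_prod, ← Measure.prod_restrict, lintegral_prod_symm _ hint.aemeasurable]
  refine lintegral_congr fun θ => ?_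
  have h1 : ∀ r ∈ Ioi (0 : ℝ),
      ENNReal.ofReal (r, θ).1 • A.indicator G (Complex.polarCoord.symm (r, θ)) =
      (Ioo (1 / 2 : ℝ) 1).indicator (fun r => ENNReal.ofReal r * G (zp r θ)) r := by
    intro r hr
    rw [hsymm, smul_eq_mul]
    have hn : ‖zp r θ‖ = r := low_norm_zp (le_of_lt hr) θ
    by_cases h : r ∈ Ioo (1 / 2 : ℝ) 1
    · have h2 : zp r θ ∈ A := by
        rw [hA, mem_ofPred_eq, hn]
        exact h
      rw [indicator_of_mem h, indicator_of_mem h2]
    · have h2 : zp r θ ∉ A := by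
        rw [hA, mem_ofPred_eq, hn]
        exact h
      rw [indicator_of_notMem h, indicator_of_notMem h2, mul_zero]
  rw [setLIntegral_congr_fun measurableSet_Ioi h1, setLIntegral_indicator measurableSet_Ioo]
  congr 2
  ext r
  simp only [mem_inter_iff, mem_Ioo, mem_Ioi]
  constructor
  · exact fun h => h.1
  · exact fun h => ⟨h, by linarith [h.1]⟩

theorem low_meas {F : ℂ → ℝ} (hF : ContinuousOn F (ball 0 1)) :
    Measurable ((ball (0 : ℂ) 1).indicator fun z => ENNReal.ofReal (F z)) := by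
  classical
  have h1 : ContinuousOn (fun z => ENNReal.ofReal (F z)) (ball 0 1) :=
    ENNReal.continuous_ofReal.comp_continuousOn hF
  have h2 := ContinuousOn.measurable_piecewise h1
    (continuousOn_const (c := (0 : ENNReal)) (s := (ball (0 : ℂ) 1)ᶜ)) measurableSet_ball
  have h3 : (ball (0 : ℂ) 1).piecewise (fun z => ENNReal.ofReal (F z)) (fun _ => (0 : ENNReal)) =
      (ball (0 : ℂ) 1).indicator fun z => ENNReal.ofReal (F z) := by
    ext z
    by_cases hz : z ∈ ball (0 : ℂ) 1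
    · rw [piecewise_eq_of_mem _ _ _ hz, indicator_of_mem hz]
    · rw [piecewise_eq_of_notMem _ _ _ hz, indicator_of_notMem hz]
  rw [← h3]
  exact h2

/-- area integrability of `(1 + |g|²)^{q/2}` for `0 ≤ q < 1` -/
theorem low_intP {f : ℂ → ℂ} (hf : Univ f) {q : ℝ} (hq0 : 0 ≤ q) (hq : q < 1) :
    IntegrableOn (lowP f q) (ball 0 1) volume := by
  have hsplit : ball (0 : ℂ) 1 ⊆ closedBall 0 (1 / 2) ∪ {z | 1 / 2 < ‖z‖ ∧ ‖z‖ < 1} := by
    intro z hz
    rw [mem_ball_zero_iff] at hz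
    rcases le_or_gt ‖z‖ (1 / 2) with h1 | h1
    · left
      rwa [mem_closedBall_zero_iff]
    · right
      exact ⟨h1, hz⟩
  have hAb : {z : ℂ | 1 / 2 < ‖z‖ ∧ ‖z‖ < 1} ⊆ ball (0 : ℂ) 1 := by
    intro z hz
    rw [mem_ball_zero_iff]
    exact hz.2
  refine IntegrableOn.mono_set ?_ hsplit
  refine IntegrableOn.union ?_ ?_
  · exact ((low_contP hf q).mono (closedBall_subset_ball (by norm_num))).integrableOn_compact
      (isCompact_closedBall 0 _)
  have hAm : MeasurableSet {z : ℂ | 1 / 2 < ‖z‖ ∧ ‖z‖ < 1} :=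
    (measurableSet_lt measurable_const measurable_norm).inter
      (measurableSet_lt measurable_norm measurable_const)
  refine ⟨((low_contP hf q).mono hAb).aestronglyMeasurable hAm, ?_⟩
  rw [hasFiniteIntegral_iff_ofReal (Filter.Eventually.of_forall fun z => (lowP_pos f q z).le)]
  have e1 : ∀ F : ℂ → ℝ, ∫⁻ z in {z : ℂ | 1 / 2 < ‖z‖ ∧ ‖z‖ < 1}, ENNReal.ofReal (F z) =
      ∫⁻ z in {z : ℂ | 1 / 2 < ‖z‖ ∧ ‖z‖ < 1},
        (ball (0 : ℂ) 1).indicator (fun z => ENNReal.ofReal (F z)) z := by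
    intro F
    refine setLIntegral_congr_fun hAm fun z hz => ?_
    rw [indicator_of_mem (hAb hz)]
  have hR := (low_intR hf hq).mono_set hAb
  have hRfin : ∫⁻ z in {z : ℂ | 1 / 2 < ‖z‖ ∧ ‖z‖ < 1}, ENNReal.ofReal (lowR f q z) < ⊤ := by
    have h := hR.2
    rwa [hasFiniteIntegral_iff_ofReal
      (Filter.Eventually.of_forall fun z => lowR_nonneg f q z)] at h
  rw [e1, low_polar (low_meas (low_contR hf q))] at hRfin
  rw [e1, low_polar (low_meas (low_contP hf q))]
  set K : ENNReal := ENNReal.ofReal ((1 + (4 * ‖deriv f 0‖) ^ 2) ^ (q / 2)) with hK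
  have hKt : K ≠ ⊤ := ENNReal.ofReal_ne_top
  have hstep : ∀ θ : ℝ, ∫⁻ s in Ioo (1 / 2 : ℝ) 1, ENNReal.ofReal s *
      (ball (0 : ℂ) 1).indicator (fun z => ENNReal.ofReal (lowP f q z)) (zp s θ) ≤
      K + 2 * ∫⁻ s in Ioo (1 / 2 : ℝ) 1, ENNReal.ofReal s *
        (ball (0 : ℂ) 1).indicator (fun z => ENNReal.ofReal (lowR f q z)) (zp s θ) := by
    intro θ
    have h1 : ∫⁻ s in Ioo (1 / 2 : ℝ) 1, ENNReal.ofReal s *
        (ball (0 : ℂ) 1).indicator (fun z => ENNReal.ofReal (lowP f q z)) (zp s θ) ≤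
        ∫⁻ s in Ioo (1 / 2 : ℝ) 1, ENNReal.ofReal (lowP f q (zp s θ)) := by
      refine setLIntegral_mono' measurableSet_Ioo fun s hs => ?_
      calc ENNReal.ofReal s *
            (ball (0 : ℂ) 1).indicator (fun z => ENNReal.ofReal (lowP f q z)) (zp s θ)
          ≤ 1 * ENNReal.ofReal (lowP f q (zp s θ)) := by
            refine mul_le_mul' ?_ (indicator_le_self _ _ _)
            rw [← ENNReal.ofReal_one]
            exact ENNReal.ofReal_le_ofReal hs.2.le
        _ = _ := one_mul _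
    have h2 := low_hardy' hf hq0 hq.le θ
    have h3 : ∫⁻ s in Ioo (1 / 2 : ℝ) 1, ENNReal.ofReal (lowR f q (zp s θ)) ≤
        2 * ∫⁻ s in Ioo (1 / 2 : ℝ) 1, ENNReal.ofReal s *
          (ball (0 : ℂ) 1).indicator (fun z => ENNReal.ofReal (lowR f q z)) (zp s θ) := by
      rw [← lintegral_const_mul' _ _ (by norm_num)]
      refine setLIntegral_mono' measurableSet_Ioo fun s hs => ?_
      rw [indicator_of_mem (low_zp_mem (by linarith [hs.1]) hs.2 θ), ← mul_assoc]
      have h4 : (1 : ENNReal) ≤ 2 * ENNReal.ofReal s := by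
        have h5 : (2 : ENNReal) = ENNReal.ofReal 2 := by simp
        rw [h5, ← ENNReal.ofReal_mul (by norm_num), ← ENNReal.ofReal_one]
        exact ENNReal.ofReal_le_ofReal (by linarith [hs.1])
      calc ENNReal.ofReal (lowR f q (zp s θ)) = 1 * ENNReal.ofReal (lowR f q (zp s θ)) :=
            (one_mul _).symm
        _ ≤ _ := mul_le_mul' h4 le_rfl
    exact h1.trans (h2.trans (add_le_add le_rfl h3))
  refine lt_of_le_of_lt (lintegral_mono fun θ => hstep θ) ?_
  rw [lintegral_add_left measurable_const, lintegral_const_mul' _ _ (by norm_num),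
    lintegral_const, Measure.restrict_apply_univ, Real.volume_Ioo]
  refine ENNReal.add_lt_top.2 ⟨?_, ?_⟩
  · exact ENNReal.mul_lt_top hKt.lt_top ENNReal.ofReal_lt_top
  · exact ENNReal.mul_lt_top (by norm_num) hRfin

/-- `|f'|^t` is integrable over the disc for `0 ≤ t < 2/3` -/
theorem low_integrable {f : ℂ → ℂ} (hf : Univ f) {t : ℝ} (ht0 : 0 ≤ t) (ht : t < 2 / 3) :
    IntegrableOn (fun z => ‖deriv f z‖ ^ t) (ball 0 1) volume := by
  rcases ht0.eq_or_lt with rfl | ht0
  · simp only [Real.rpow_zero]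
    exact integrableOn_const measure_ball_lt_top.ne
  obtain ⟨κ, hκ⟩ : ∃ κ : ℝ, κ = 1 / t + 1 / 2 := ⟨_, rfl⟩
  obtain ⟨q, hq⟩ : ∃ q : ℝ, q = (2 + t) / (2 * (2 - t)) := ⟨_, rfl⟩
  have h2t : 0 < 2 - t := by linarith
  have hκ2 : 2 < κ := by
    have : 3 / 2 < 1 / t := by
      rw [lt_div_iff₀ ht0]
      linarith
    linarith
  have hq0 : 0 ≤ q := by
    rw [hq]
    positivity
  have hq1 : q < 1 := by
    rw [hq, div_lt_one (by positivity)]
    linarith
  have h1 := (low_change hf hκ2).add (low_intP hf hq0 hq1)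
  refine Integrable.mono' h1
    ((measurable_deriv f).norm.pow_const t).aestronglyMeasurable.restrict ?_
  refine (ae_restrict_iff' measurableSet_ball).2 (Filter.Eventually.of_forall fun z hz => ?_)
  have hA : 0 < ‖deriv f z‖ := norm_pos_iff.2 (deriv_ne_zero_of_univ hf hz)
  rw [Real.norm_of_nonneg (by positivity)]
  simp only [Pi.add_apply]
  unfold lowP
  set A := ‖deriv f z‖ with hAdef
  set B := 1 + ‖f z - f 0‖ ^ 2 with hB
  have hB0 : 0 < B := by positivity
  have h2 := Real.geom_mean_le_arith_mean2_weighted (w₁ := t / 2) (w₂ := 1 - t / 2)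
    (p₁ := A ^ 2 * B ^ (-κ / 2)) (p₂ := B ^ (q / 2)) (by positivity) (by linarith)
    (by positivity) (by positivity) (by ring)
  have h3 : (A ^ 2 * B ^ (-κ / 2)) ^ (t / 2) * (B ^ (q / 2)) ^ (1 - t / 2) = A ^ t := by
    rw [Real.mul_rpow (by positivity) (by positivity), ← Real.rpow_natCast, ← Real.rpow_mul hA.le,
      ← Real.rpow_mul hB0.le, ← Real.rpow_mul hB0.le, mul_assoc, ← Real.rpow_add hB0]
    have e1 : ((2 : ℕ) : ℝ) * (t / 2) = t := by push_cast; ring
    have e2 : -κ / 2 * (t / 2) + q / 2 * (1 - t / 2) = 0 := by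
      rw [hκ, hq]
      field_simp
      ring
    rw [e1, e2, Real.rpow_zero, mul_one]
  rw [h3] at h2
  have h4 : 0 ≤ A ^ 2 * B ^ (-κ / 2) := by positivity
  have h5 : 0 ≤ B ^ (q / 2) := by positivity
  nlinarith

end Vale.Agent.Lib.P142
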